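import Vale.Agent.P196.Fp.Algebra

/-!
Transitive partial Boolean algebras, and the algebra formed by the components.
-/

namespace Vale.Agent.P196.Fp

/-- A partial Boolean algebra with transitive order. -/
structure EventAlgebra where
  B : Type*
  com : B → B → Prop
  bot : B
  top : B
  compl : B → B
  inf : B → B → B
  com_refl : ∀ a, com a a
  com_symm : ∀ a b, com a b → com b a
  com_bot : ∀ a, com a bot
  com_top : ∀ a, com a top
  com_compl : ∀ a b, com a b → com a (compl b)
  com_inf : ∀ a b c, com a b → com a c → com b c → com a (inf b c)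
  inf_comm : ∀ a b, com a b → inf a b = inf b a
  inf_assoc : ∀ a b c, com a b → com a c → com b c → inf (inf a b) c = inf a (inf b c)
  inf_idem : ∀ a, inf a a = a
  inf_top : ∀ a, inf a top = a
  inf_bot : ∀ a, inf a bot = bot
  inf_compl : ∀ a, inf a (compl a) = bot
  compl_compl : ∀ a, compl (compl a) = a
  compl_top : compl top = bot
  split : ∀ a b, com a b → compl (inf (compl (inf a b)) (compl (inf a (compl b)))) = a
  com_trans : ∀ a b c, com a b → com b c → inf a b = a → inf b c = b → com a c ∧ inf a c = a

variable {n : ℕ} {G : Type*} [Group G]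

/-- The components of a context form an event algebra. -/
noncomputable def componentAlgebra (C : Ctx G n) : EventAlgebra where
  B := Comp C
  com := Com
  bot := bot C
  top := top C
  compl := compl
  inf := inf
  com_refl := com_refl
  com_symm _ _ h := h.symm
  com_bot := com_bot
  com_top := com_top
  com_compl _ _ h := Fp.com_compl h
  com_inf _ _ _ h1 h2 h3 := Fp.com_inf h1 h2 h3
  inf_comm _ _ h := Fp.inf_comm h
  inf_assoc _ _ _ h1 h2 h3 := Fp.inf_assoc h1 h2 h3
  inf_idem := Fp.inf_idem
  inf_top := Fp.inf_top
  inf_bot := Fp.inf_bot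
  inf_compl := Fp.inf_compl
  compl_compl := Fp.compl_compl
  compl_top := Fp.compl_top
  split _ _ h := Fp.split_law h
  com_trans _ _ _ h1 h2 h3 h4 := Fp.com_trans h1 h2 h3 h4

end Vale.Agent.P196.Fp
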