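import Vale.Agent.P196.Fp.Events

/-!
A commuting set of events generates a Boolean algebra; the events below a fixed one form again an
event algebra.
-/

namespace Vale.Agent.P196.Fp

universe u

namespace EventAlgebra

variable (E : EventAlgebra.{u})

/-- A set of pairwise commuting events. -/
structure Block where
  set : Set E.B
  com : ∀ a ∈ set, ∀ b ∈ set, E.com a b

variable {E} {S : E.Block}

/-- The events commuting with everything that commutes with the set. -/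
def Block.Elem (S : E.Block) : Type u :=
  {x : E.B // ∀ y, (∀ s ∈ S.set, E.com y s) → E.com x y}

/-- A member of the set, inside the generated algebra. -/
def Block.mem (S : E.Block) {x : E.B} (hx : x ∈ S.set) : S.Elem :=
  ⟨x, fun _ hy => E.com_symm _ _ (hy x hx)⟩

theorem Block.Elem.com_set (x : S.Elem) {s : E.B} (hs : s ∈ S.set) : E.com x.1 s :=
  x.2 s fun t ht => S.com s hs t ht

theorem Block.Elem.com (x y : S.Elem) : E.com x.1 y.1 :=
  x.2 y.1 fun _ hs => y.com_set hs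

theorem compl_bot : E.compl E.bot = E.top := by rw [← E.compl_top, E.compl_compl]

theorem bot_com (a : E.B) : E.com E.bot a := E.com_symm _ _ (E.com_bot a)

theorem top_com (a : E.B) : E.com E.top a := E.com_symm _ _ (E.com_top a)

theorem bot_inf (a : E.B) : E.inf E.bot a = E.bot := by
  rw [E.inf_comm _ _ (bot_com a), E.inf_bot]

theorem top_inf (a : E.B) : E.inf E.top a = a := by
  rw [E.inf_comm _ _ (top_com a), E.inf_top]

instance : Top S.Elem := ⟨⟨E.top, fun y _ => top_com y⟩⟩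
instance : Bot S.Elem := ⟨⟨E.bot, fun y _ => bot_com y⟩⟩
instance : Compl S.Elem :=
  ⟨fun x => ⟨E.compl x.1, fun y hy => E.com_symm _ _ (E.com_compl _ _ (E.com_symm _ _ (x.2 y hy)))⟩⟩
instance : Min S.Elem :=
  ⟨fun x z => ⟨E.inf x.1 z.1, fun y hy => E.com_symm _ _
    (E.com_inf y x.1 z.1 (E.com_symm _ _ (x.2 y hy)) (E.com_symm _ _ (z.2 y hy)) (x.com z))⟩⟩
instance : Max S.Elem := ⟨fun x z => (xᶜ ⊓ zᶜ)ᶜ⟩
instance : LE S.Elem := ⟨fun x z => x ⊓ z = x⟩
instance : LT S.Elem := ⟨fun x z => x ≤ z ∧ ¬ z ≤ x⟩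

namespace Block.Elem

theorem inf_comm' (a b : S.Elem) : a ⊓ b = b ⊓ a := Subtype.ext (E.inf_comm _ _ (a.com b))

theorem inf_assoc' (a b c : S.Elem) : a ⊓ b ⊓ c = a ⊓ (b ⊓ c) :=
  Subtype.ext (E.inf_assoc _ _ _ (a.com b) (a.com c) (b.com c))

theorem inf_idem' (a : S.Elem) : a ⊓ a = a := Subtype.ext (E.inf_idem _)

theorem inf_compl' (a : S.Elem) : a ⊓ aᶜ = ⊥ := Subtype.ext (E.inf_compl _)

theorem compl_compl' (a : S.Elem) : aᶜᶜ = a := Subtype.ext (E.compl_compl _)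

theorem inf_bot' (a : S.Elem) : a ⊓ ⊥ = ⊥ := Subtype.ext (E.inf_bot _)

theorem split' (a b : S.Elem) : ((a ⊓ b)ᶜ ⊓ (a ⊓ bᶜ)ᶜ)ᶜ = a :=
  Subtype.ext (E.split _ _ (a.com b))

theorem le_compl_of_inf {a b : S.Elem} (h : a ⊓ b = ⊥) : a ≤ bᶜ := by
  show a ⊓ bᶜ = a
  have e : ∀ z : S.Elem, ((⊥ : S.Elem)ᶜ ⊓ zᶜ)ᶜ = z := fun z => Subtype.ext (by
    show E.compl (E.inf (E.compl E.bot) (E.compl z.1)) = z.1
    rw [compl_bot, top_inf, E.compl_compl])
  conv_rhs => rw [← split' a b, h, e]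

theorem inf_eq_bot_of_le {a b : S.Elem} (h : a ≤ b) : a ⊓ bᶜ = ⊥ := by
  rw [← h, inf_assoc', inf_compl', inf_bot']

theorem inf_le_l (a b : S.Elem) : a ⊓ b ≤ a := by
  show a ⊓ b ⊓ a = a ⊓ b
  rw [inf_assoc', inf_comm' b, ← inf_assoc', inf_idem']

theorem inf_le_r (a b : S.Elem) : a ⊓ b ≤ b := by
  show a ⊓ b ⊓ b = a ⊓ b
  rw [inf_assoc', inf_idem']

theorem le_trans' {a b c : S.Elem} (h : a ≤ b) (h' : b ≤ c) : a ≤ c := by
  show a ⊓ c = a
  rw [← h, inf_assoc', h']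

theorem compl_le_compl {a b : S.Elem} (h : a ≤ b) : bᶜ ≤ aᶜ :=
  le_compl_of_inf (by rw [inf_comm', inf_eq_bot_of_le h])

theorem le_antisymm' {a b : S.Elem} (h : a ≤ b) (h' : b ≤ a) : a = b := by
  rw [← h, inf_comm', h']

theorem le_inf' {a b c : S.Elem} (h : a ≤ b) (h' : a ≤ c) : a ≤ b ⊓ c := by
  show a ⊓ (b ⊓ c) = a
  rw [← inf_assoc', h, h']

theorem le_sup_l (a b : S.Elem) : a ≤ a ⊔ b := by
  have h := compl_le_compl (inf_le_l aᶜ bᶜ)
  rwa [compl_compl'] at h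

theorem le_sup_r (a b : S.Elem) : b ≤ a ⊔ b := by
  have h := compl_le_compl (inf_le_r aᶜ bᶜ)
  rwa [compl_compl'] at h

theorem sup_le' {a b c : S.Elem} (h : a ≤ c) (h' : b ≤ c) : a ⊔ b ≤ c := by
  have e := compl_le_compl (le_inf' (compl_le_compl h) (compl_le_compl h'))
  rw [compl_compl'] at e
  exact e

theorem inf_sup_le (a b c : S.Elem) : a ⊓ (b ⊔ c) ≤ a ⊓ b ⊔ a ⊓ c := by
  have out : ∀ d : S.Elem, a ⊓ (a ⊓ d)ᶜ ≤ dᶜ := fun d => le_compl_of_inf (by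
    rw [inf_assoc', inf_comm' _ d, ← inf_assoc', inf_compl'])
  set y := a ⊓ b ⊔ a ⊓ c with hy
  have h1 : a ⊓ (b ⊔ c) ⊓ yᶜ ≤ (b ⊔ c) := le_trans' (inf_le_l _ _) (inf_le_r _ _)
  have ha : a ⊓ (b ⊔ c) ⊓ yᶜ ≤ a := le_trans' (inf_le_l _ _) (inf_le_l _ _)
  have hy' : yᶜ ≤ (a ⊓ b)ᶜ ⊓ (a ⊓ c)ᶜ :=
    le_inf' (compl_le_compl (le_sup_l _ _)) (compl_le_compl (le_sup_r _ _))
  have h2 : a ⊓ (b ⊔ c) ⊓ yᶜ ≤ bᶜ ⊓ cᶜ :=
    le_inf'
      (le_trans' (le_inf' ha (le_trans' (inf_le_r _ _) (le_trans' hy' (inf_le_l _ _)))) (out b))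
      (le_trans' (le_inf' ha (le_trans' (inf_le_r _ _) (le_trans' hy' (inf_le_r _ _)))) (out c))
  have h3 : a ⊓ (b ⊔ c) ⊓ yᶜ ≤ ⊥ := by
    have := le_inf' h1 h2
    rwa [show (b ⊔ c) ⊓ (bᶜ ⊓ cᶜ) = ⊥ by
      show (bᶜ ⊓ cᶜ)ᶜ ⊓ (bᶜ ⊓ cᶜ) = ⊥
      rw [inf_comm', inf_compl']] at this
  have h4 : a ⊓ (b ⊔ c) ⊓ yᶜ = ⊥ := by
    have h : a ⊓ (b ⊔ c) ⊓ yᶜ ⊓ ⊥ = a ⊓ (b ⊔ c) ⊓ yᶜ := h3
    rw [← h, inf_bot']
  have h5 := le_compl_of_inf h4
  rwa [compl_compl'] at h5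

end Block.Elem

instance : Lattice S.Elem where
  le_refl := Block.Elem.inf_idem'
  le_trans _ _ _ := Block.Elem.le_trans'
  lt_iff_le_not_ge _ _ := Iff.rfl
  le_antisymm _ _ := Block.Elem.le_antisymm'
  sup := (· ⊔ ·)
  le_sup_left := Block.Elem.le_sup_l
  le_sup_right := Block.Elem.le_sup_r
  sup_le _ _ _ := Block.Elem.sup_le'
  inf := (· ⊓ ·)
  inf_le_left := Block.Elem.inf_le_l
  inf_le_right := Block.Elem.inf_le_r
  le_inf _ _ _ := Block.Elem.le_inf'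

open Block.Elem in
instance : BooleanAlgebra S.Elem :=
  { DistribLattice.ofInfSupLe (α := S.Elem) Block.Elem.inf_sup_le with
    top := ⊤
    bot := ⊥
    compl := fun x => xᶜ
    inf_compl_le_bot := fun x => by
      show x ⊓ xᶜ ⊓ ⊥ = x ⊓ xᶜ
      rw [inf_compl', inf_bot']
    top_le_sup_compl := fun x => by
      show ⊤ ⊓ (x ⊔ xᶜ) = ⊤
      rw [show x ⊔ xᶜ = (xᶜ ⊓ xᶜᶜ)ᶜ from rfl, inf_compl']
      exact Subtype.ext (by
        show E.inf E.top (E.compl E.bot) = E.top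
        rw [top_inf, compl_bot])
    le_top := fun x => Subtype.ext (E.inf_top _)
    bot_le := fun x => Subtype.ext (bot_inf _) }

namespace Block.Elem

theorem coe_inf (a b : S.Elem) : (a ⊓ b).1 = E.inf a.1 b.1 := rfl
theorem coe_compl (a : S.Elem) : aᶜ.1 = E.compl a.1 := rfl
theorem coe_bot : (⊥ : S.Elem).1 = E.bot := rfl
theorem coe_top : (⊤ : S.Elem).1 = E.top := rfl

theorem le_iff (a b : S.Elem) : a ≤ b ↔ E.inf a.1 b.1 = a.1 :=
  ⟨fun h => congrArg Subtype.val h, fun h => Subtype.ext h⟩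

theorem disjoint_iff' (a b : S.Elem) : Disjoint a b ↔ E.inf a.1 b.1 = E.bot := by
  rw [disjoint_iff]
  exact ⟨fun h => congrArg Subtype.val h, fun h => Subtype.ext h⟩

end Block.Elem

/-- The events below a fixed one. -/
abbrev Below (b : E.B) : Type u := {x : E.B // E.com x b ∧ E.inf x b = x}

theorem below_inf {b : E.B} {x y : E.Below b} (h : E.com x.1 y.1) :
    E.com (E.inf x.1 y.1) b ∧ E.inf (E.inf x.1 y.1) b = E.inf x.1 y.1 :=
  ⟨E.com_symm _ _ (E.com_inf b x.1 y.1 (E.com_symm _ _ x.2.1) (E.com_symm _ _ y.2.1) h),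
    by rw [E.inf_assoc _ _ _ h x.2.1 y.2.1, y.2.2]⟩

/-- Three pairwise commuting events below `b`, with `b`. -/
def blockOf {b : E.B} (x y z : E.Below b) (h1 : E.com x.1 y.1) (h2 : E.com x.1 z.1)
    (h3 : E.com y.1 z.1) : E.Block where
  set := {x.1, y.1, z.1, b}
  com := by
    intro p hp q hq
    simp only [Set.mem_insert_iff, Set.mem_singleton_iff] at hp hq
    rcases hp with rfl | rfl | rfl | rfl <;> rcases hq with rfl | rfl | rfl | rfl <;>
      first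
        | exact E.com_refl _
        | assumption
        | exact E.com_symm _ _ (by assumption)
        | exact x.2.1 | exact y.2.1 | exact z.2.1
        | exact E.com_symm _ _ x.2.1 | exact E.com_symm _ _ y.2.1 | exact E.com_symm _ _ z.2.1

open Classical in
/-- The event algebra below `b`. -/
noncomputable def below (b : E.B) : EventAlgebra.{u} where
  B := E.Below b
  com x y := E.com x.1 y.1
  bot := ⟨E.bot, bot_com b, bot_inf b⟩
  top := ⟨b, E.com_refl b, E.inf_idem b⟩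
  compl x := ⟨E.inf (E.compl x.1) b,
    E.com_symm _ _ (E.com_inf b _ _ (E.com_compl _ _ (E.com_symm _ _ x.2.1)) (E.com_refl b)
      (E.com_symm _ _ (E.com_compl _ _ (E.com_symm _ _ x.2.1)))),
    by rw [E.inf_assoc _ _ _ (E.com_symm _ _ (E.com_compl _ _ (E.com_symm _ _ x.2.1)))
      (E.com_symm _ _ (E.com_compl _ _ (E.com_symm _ _ x.2.1))) (E.com_refl b), E.inf_idem]⟩
  inf x y := if h : E.com x.1 y.1 then ⟨E.inf x.1 y.1, below_inf h⟩ else ⟨E.bot, bot_com b, bot_inf b⟩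
  com_refl x := E.com_refl _
  com_symm x y := E.com_symm _ _
  com_bot x := E.com_bot _
  com_top x := x.2.1
  com_compl x y h := E.com_inf _ _ _ (E.com_compl _ _ h) x.2.1
    (E.com_symm _ _ (E.com_compl _ _ (E.com_symm _ _ y.2.1)))
  com_inf x y z h1 h2 h3 := by
    rw [dif_pos h3]; exact E.com_inf _ _ _ h1 h2 h3
  inf_comm x y h := by
    rw [dif_pos h, dif_pos (E.com_symm _ _ h)]
    exact Subtype.ext (E.inf_comm _ _ h)
  inf_assoc x y z h1 h2 h3 := by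
    simp only [dif_pos h1, dif_pos h3]
    rw [dif_pos (E.com_symm _ _ (E.com_inf z.1 x.1 y.1 (E.com_symm _ _ h2) (E.com_symm _ _ h3) h1)),
      dif_pos (E.com_inf _ _ _ h1 h2 h3)]
    exact Subtype.ext (E.inf_assoc _ _ _ h1 h2 h3)
  inf_idem x := by rw [dif_pos (E.com_refl _)]; exact Subtype.ext (E.inf_idem _)
  inf_top x := by rw [dif_pos x.2.1]; exact Subtype.ext x.2.2
  inf_bot x := by rw [dif_pos (E.com_bot _)]; exact Subtype.ext (E.inf_bot _)
  inf_compl x := by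
    let S := blockOf x x x (E.com_refl _) (E.com_refl _) (E.com_refl _)
    let u : S.Elem := S.mem (x := x.1) (Set.mem_insert _ _)
    let v : S.Elem := S.mem (x := b) (by simp [S, blockOf])
    have h : u ⊓ (uᶜ ⊓ v) = ⊥ := by rw [← _root_.inf_assoc, _root_.inf_compl_eq_bot, bot_inf_eq]
    rw [dif_pos (show E.com x.1 (E.inf (E.compl x.1) b) from u.com (uᶜ ⊓ v))]
    exact Subtype.ext (congrArg Subtype.val h : _)
  compl_compl x := by
    let S := blockOf x x x (E.com_refl _) (E.com_refl _) (E.com_refl _)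
    let u : S.Elem := S.mem (x := x.1) (Set.mem_insert _ _)
    let v : S.Elem := S.mem (x := b) (by simp [S, blockOf])
    have hu : u ≤ v := Subtype.ext x.2.2
    have h : (uᶜ ⊓ v)ᶜ ⊓ v = u := by
      rw [compl_inf, _root_.compl_compl, inf_sup_right, _root_.inf_comm vᶜ, _root_.inf_compl_eq_bot, sup_bot_eq,
        inf_eq_left.2 hu]
    exact Subtype.ext (congrArg Subtype.val h : _)
  compl_top := by
    apply Subtype.ext
    show E.inf (E.compl b) b = E.bot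
    rw [E.inf_comm _ _ (E.com_symm _ _ (E.com_compl _ _ (E.com_refl b))), E.inf_compl]
  split x y h := by
    let S := blockOf x y y h h (E.com_refl _)
    let u : S.Elem := S.mem (x := x.1) (Set.mem_insert _ _)
    let w : S.Elem := S.mem (x := y.1) (by simp [S, blockOf])
    let v : S.Elem := S.mem (x := b) (by simp [S, blockOf])
    have hu : u ≤ v := Subtype.ext x.2.2
    have e : (((u ⊓ w)ᶜ ⊓ v) ⊓ ((u ⊓ (wᶜ ⊓ v))ᶜ ⊓ v))ᶜ ⊓ v = u := by
      rw [← _root_.inf_assoc u, inf_eq_left.2 ((inf_le_left).trans hu)]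
      rw [show ((u ⊓ w)ᶜ ⊓ v) ⊓ ((u ⊓ wᶜ)ᶜ ⊓ v) = ((u ⊓ w)ᶜ ⊓ (u ⊓ wᶜ)ᶜ) ⊓ v by
        rw [inf_inf_inf_comm, _root_.inf_idem]]
      rw [← compl_sup, ← inf_sup_left, sup_compl_eq_top, inf_top_eq, compl_inf, _root_.compl_compl,
        inf_sup_right, _root_.inf_comm vᶜ, _root_.inf_compl_eq_bot, sup_bot_eq, inf_eq_left.2 hu]
    apply Subtype.ext
    simp only [dif_pos h, dif_pos (show E.com x.1 (E.inf (E.compl y.1) b) from u.com (wᶜ ⊓ v))]
    rw [dif_pos (show E.com (E.inf (E.compl (E.inf x.1 y.1)) b)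
      (E.inf (E.compl (E.inf x.1 (E.inf (E.compl y.1) b))) b) from
        ((u ⊓ w)ᶜ ⊓ v).com ((u ⊓ (wᶜ ⊓ v))ᶜ ⊓ v))]
    exact congrArg Subtype.val e
  com_trans x y z h1 h2 h3 h4 := by
    rw [dif_pos h1] at h3
    rw [dif_pos h2] at h4
    obtain ⟨c, e⟩ := E.com_trans _ _ _ h1 h2 (congrArg Subtype.val h3) (congrArg Subtype.val h4)
    exact ⟨c, by rw [dif_pos c]; exact Subtype.ext e⟩

end EventAlgebra

end Vale.Agent.P196.Fp
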