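import Vale.Agent.P196.Fp.Algebra

/-!
# P196: lifts of pairs of transpositions in a component

`W e a b c d` lifts `(a b)(c d)`. Its square is a central sign; where the sign is trivial these
elements obey all relations of pairs of transpositions.
-/

namespace Vale.Agent.P196.Fp

open Equiv Finset

variable {n : ℕ} {G : Type*} [Group G] {C : Ctx G n}

/-- `g` acts on the lifts of `e` as `π` does. -/
def Lifts (e : Comp C) (g : G) (π : Perm (Fin n)) : Prop :=
  ∀ κ, g * e.fn κ * g⁻¹ = e.fn (act π κ)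

/-- The group generated by the lifts. -/
def gen (e : Comp C) : Subgroup G := Subgroup.closure (Set.range e.fn)

theorem fn_mem_gen (e : Comp C) (σ : Tri n) : e.fn σ ∈ gen e :=
  Subgroup.subset_closure ⟨σ, rfl⟩

theorem lifts_fn (e : Comp C) (σ : Tri n) : Lifts e (e.fn σ) σ.1 := e.conj σ

theorem Lifts.mul {e : Comp C} {g h : G} {π ρ : Perm (Fin n)} (h1 : Lifts e g π)
    (h2 : Lifts e h ρ) : Lifts e (g * h) (π * ρ) := fun κ => by
  rw [← act_act, ← h1 (act ρ κ), ← h2 κ]; group

/-- On the lifts, conjugation by the index symmetry is conjugation by a lift. -/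
theorem Lifts.conj_gen {e : Comp C} {g : G} {π : Perm (Fin n)} (h : Lifts e g π) {x : G}
    (hx : x ∈ gen e) : C.d π * x * (C.d π)⁻¹ = g * x * g⁻¹ := by
  induction hx using Subgroup.closure_induction with
  | mem y hy => obtain ⟨κ, rfl⟩ := hy; rw [e.equiv, h]
  | one => simp
  | mul a b _ _ ha hb =>
    calc _ = (C.d π * a * (C.d π)⁻¹) * (C.d π * b * (C.d π)⁻¹) := by group
      _ = _ := by rw [ha, hb]; group
  | inv a _ ha =>
    calc _ = (C.d π * a * (C.d π)⁻¹)⁻¹ := by group
      _ = _ := by rw [ha]; group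

/-- Two elements with the same action differ by a central element. -/
theorem Lifts.central {e : Comp C} {g h : G} {π : Perm (Fin n)} (h1 : Lifts e g π)
    (h2 : Lifts e h π) {x : G} (hx : x ∈ gen e) : Commute (g⁻¹ * h) x := by
  have e1 := h1.conj_gen hx
  rw [h2.conj_gen hx] at e1
  show g⁻¹ * h * x = x * (g⁻¹ * h)
  calc _ = g⁻¹ * (h * x * h⁻¹) * h := by group
    _ = _ := by rw [e1]; group

/-- A central element of the lifts is fixed by every lifted permutation. -/
theorem fixed_of_central {e : Comp C} {g k : G} {π : Perm (Fin n)} (h : Lifts e g π)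
    (hg : g ∈ gen e) (hk : k ∈ gen e) (hc : ∀ x ∈ gen e, Commute k x) :
    C.d π * k * (C.d π)⁻¹ = k := by
  rw [h.conj_gen hk, ← (hc g hg).eq]; group

/-- The lift of `(a b)(c d)`. -/
def W (e : Comp C) (a b c d : Fin n) : G :=
  if h : [a, b, c, d].Nodup then
    e.fn (cyc a c b (by simp at h; tauto)) * e.fn (cyc a c d (by simp at h; tauto))
  else 1

variable (e : Comp C) {a b c d f g : Fin n}

theorem W_eq (h : [a, b, c, d].Nodup) (h1 : a ≠ c ∧ c ≠ b ∧ a ≠ b)
    (h2 : a ≠ c ∧ c ≠ d ∧ a ≠ d) :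
    W e a b c d = e.fn (cyc a c b h1) * e.fn (cyc a c d h2) := by
  rw [W, dif_pos h]

theorem cyc_mul_cyc (h : [a, b, c, d].Nodup) (h1) (h2) :
    (cyc a c b h1).1 * (cyc a c d h2).1 = swap a b * swap c d := by
  simp at h
  obtain ⟨⟨ab, ac, ad⟩, ⟨bc, bd⟩, cd⟩ := h
  refine Equiv.ext fun i => ?_
  simp only [cyc_val, Perm.mul_apply]
  by_cases i1 : i = a
  · subst i1; simp [swap_apply_of_ne_of_ne, *, Ne.symm ab, Ne.symm ac, Ne.symm ad, Ne.symm bc]
  by_cases i2 : i = b
  · subst i2
    simp [swap_apply_of_ne_of_ne, *, Ne.symm ab, Ne.symm ac, Ne.symm bc]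
  by_cases i3 : i = c
  · subst i3
    simp [swap_apply_of_ne_of_ne, *, Ne.symm ac, Ne.symm ad, Ne.symm cd, Ne.symm bd]
  by_cases i4 : i = d
  · subst i4
    simp [swap_apply_of_ne_of_ne, *, Ne.symm ac, Ne.symm ad, Ne.symm cd, Ne.symm bd]
  simp [swap_apply_of_ne_of_ne, i1, i2, i3, i4]

theorem W_lifts (h : [a, b, c, d].Nodup) : Lifts e (W e a b c d) (swap a b * swap c d) := by
  have h' := h
  simp at h'
  rw [W_eq e h (by tauto) (by tauto), ← cyc_mul_cyc h (by tauto) (by tauto)]
  exact (lifts_fn e _).mul (lifts_fn e _)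

theorem W_mem_gen : W e a b c d ∈ gen e := by
  unfold W; split_ifs
  · exact mul_mem (fn_mem_gen e _) (fn_mem_gen e _)
  · exact one_mem _

theorem W_mem_K {U : Finset (Fin n)} (hU : {a, b, c, d} ⊆ U) (h9 : 9 ≤ U.card) :
    W e a b c d ∈ C.K U := by
  unfold W; split_ifs with h
  · simp only [Finset.insert_subset_iff, Finset.singleton_subset_iff] at hU
    refine mul_mem (e.mem _ U ?_ h9) (e.mem _ U ?_ h9) <;>
      simp [cyc_support, Finset.insert_subset_iff, hU]
  · exact one_mem _

theorem nodup_map {π : Perm (Fin n)} :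
    [π a, π b, π c, π d].Nodup ↔ [a, b, c, d].Nodup :=
  List.nodup_map_iff (l := [a, b, c, d]) π.injective

/-- Equivariance. -/
theorem W_equiv (π : Perm (Fin n)) :
    C.d π * W e a b c d * (C.d π)⁻¹ = W e (π a) (π b) (π c) (π d) := by
  by_cases h : [a, b, c, d].Nodup
  · have h' := h
    simp at h'
    rw [W, dif_pos h, W, dif_pos (nodup_map.2 h)]
    rw [← act_cyc π a c b (by tauto), ← act_cyc π a c d (by tauto), ← e.equiv π, ← e.equiv π]
    group
  · rw [W, dif_neg h, W, dif_neg (nodup_map.not.2 h)]; group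

theorem W_map {x : G} {π : Perm (Fin n)} (hx : Lifts e x π) :
    x * W e a b c d * x⁻¹ = W e (π a) (π b) (π c) (π d) := by
  rw [← hx.conj_gen (W_mem_gen e), W_equiv]

theorem W_inv (h : [a, b, c, d].Nodup) : (W e a b c d)⁻¹ = W e c d a b := by
  have h' := h
  simp at h'
  have k : [c, d, a, b].Nodup := (List.Perm.nodup_iff (List.perm_append_comm (l₁ := [a, b])
    (l₂ := [c, d]))).1 h
  rw [W, dif_pos h, W, dif_pos k, mul_inv_rev, ← e.inv, ← e.inv, triInv_cyc, triInv_cyc,
    cyc_rotate c a d, cyc_rotate c a b]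

/-- The sign of a component: the square of a lift of two transpositions. -/
def sign (e : Comp C) (a b c d : Fin n) : G := W e a b c d * W e a b c d

theorem sign_central (h : [a, b, c, d].Nodup) {x : G} (hx : x ∈ gen e) :
    Commute (sign e a b c d) x := by
  have h1 : Lifts e (1 : G) 1 := fun κ => by simp [show act 1 κ = κ by ext1; simp]
  have h2 := (W_lifts e h).mul (W_lifts e h)
  have hs : swap a b * swap c d * (swap a b * swap c d) = 1 := by
    have hc : Commute (swap c d) (swap a b) := by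
      simp at h
      exact Perm.Disjoint.commute fun i => by
        by_cases i = c <;> by_cases i = d <;> simp_all [swap_apply_of_ne_of_ne] <;> grind
    calc _ = swap a b * (swap c d * swap a b) * swap c d := by group
      _ = _ := by rw [hc.eq]; simp [mul_assoc]
  rw [hs] at h2
  simpa [sign] using h1.central h2 hx

theorem sign_mem_gen : sign e a b c d ∈ gen e := mul_mem (W_mem_gen e) (W_mem_gen e)

theorem sign_equiv (π : Perm (Fin n)) :
    C.d π * sign e a b c d * (C.d π)⁻¹ = sign e (π a) (π b) (π c) (π d) := by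
  rw [sign, sign, ← W_equiv e π]; group

theorem sign_sq (h : [a, b, c, d].Nodup) : sign e a b c d * sign e a b c d = 1 := by
  have h' := h
  simp at h'
  obtain ⟨⟨ab, ac, ad⟩, ⟨bc, bd⟩, cd⟩ := h'
  have k : [a, c, b, d].Nodup := by simp [ab, ac, ad, bd, cd, Ne.symm bc]
  have e1 := fixed_of_central (W_lifts e k) (W_mem_gen e) (sign_mem_gen e)
    (fun x hx => sign_central e h hx)
  rw [sign_equiv] at e1
  simp only [Perm.mul_apply] at e1
  simp [swap_apply_of_ne_of_ne, ab, ac, ad, bd, cd, Ne.symm bc, bc, Ne.symm ab, Ne.symm ac,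
    Ne.symm ad, Ne.symm bd, Ne.symm cd] at e1
  nth_rewrite 1 [← e1]
  rw [sign, sign, ← W_inv e h]; group

theorem W_sum {e f : Comp C} (o : Orth e f) :
    W (sum e f o) a b c d = W e a b c d * W f a b c d := by
  unfold W; split_ifs
  · exact (o _ _).symm.mul_mul_mul_comm _ _
  · simp

theorem W_orth {e f : Comp C} (o : Orth e f) {a' b' c' d' : Fin n} :
    Commute (W e a b c d) (W f a' b' c' d') := by
  have h : ∀ {x}, x ∈ gen e → ∀ {y}, y ∈ gen f → Commute x y := by
    intro x hx
    induction hx using Subgroup.closure_induction with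
    | mem u hu =>
      obtain ⟨σ, rfl⟩ := hu
      intro y hy
      induction hy using Subgroup.closure_induction with
      | mem v hv => obtain ⟨τ, rfl⟩ := hv; exact o σ τ
      | one => exact Commute.one_right _
      | mul _ _ _ _ h1 h2 => exact h1.mul_right h2
      | inv _ _ h1 => exact h1.inv_right
    | one => exact fun _ => Commute.one_left _
    | mul _ _ _ _ h1 h2 => exact fun hy => (h1 hy).mul_left (h2 hy)
    | inv _ _ h1 => exact fun hy => (h1 hy).inv_left
  exact h (W_mem_gen e) (W_mem_gen f)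

theorem sign_sum {e f : Comp C} (o : Orth e f) :
    sign (sum e f o) a b c d = sign e a b c d * sign f a b c d := by
  simp only [sign, W_sum o]
  exact (W_orth o).symm.mul_mul_mul_comm _ _

/-- The component has no sign. -/
def NoSign (e : Comp C) : Prop := ∀ a b c d : Fin n, [a, b, c, d].Nodup → sign e a b c d = 1

section

variable {e} (hz : NoSign e)
include hz

theorem W_sq (h : [a, b, c, d].Nodup) : W e a b c d * W e a b c d = 1 := hz a b c d h

theorem W_swap (h : [a, b, c, d].Nodup) : W e c d a b = W e a b c d := by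
  rw [← W_inv e h]
  exact inv_eq_of_mul_eq_one_right (W_sq hz h)

omit hz in
theorem exists_fresh_pair (s : Finset (Fin n)) (hs : s.card + 2 ≤ n) :
    ∃ f g : Fin n, f ≠ g ∧ f ∉ s ∧ g ∉ s := by
  obtain ⟨f, hf, g, hg, hfg⟩ := Finset.one_lt_card.1
    (show 1 < sᶜ.card by rw [card_compl, Fintype.card_fin]; omega)
  exact ⟨f, g, hfg, mem_compl.1 hf, mem_compl.1 hg⟩

theorem W_flip (h : [a, b, c, d].Nodup) : W e b a c d = W e a b c d := by
  obtain ⟨f, g, hfg, hf, hg⟩ := exists_fresh_pair {a, b, c, d}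
    (by have := C.le; have := card_le_four (a := a) (b := b) (c := c) (d := d); omega)
  simp at h hf hg
  obtain ⟨⟨ab, ac, ad⟩, ⟨bc, bd⟩, cd⟩ := h
  obtain ⟨fa, fb, fc, fd⟩ := hf
  obtain ⟨ga, gb, gc, gd⟩ := hg
  have n1 : [a, b, f, g].Nodup := by simp [ab, hfg, Ne.symm fa, Ne.symm fb, Ne.symm ga, Ne.symm gb]
  have n2 : [a, b, c, d].Nodup := by simp [ab, ac, ad, bc, bd, cd]
  have n3 : [f, g, c, d].Nodup := by simp [hfg, fc, fd, gc, gd, cd]
  have n4 : [c, f, d, g].Nodup := by simp [Ne.symm fc, Ne.symm gc, cd, fd, hfg, Ne.symm gd]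
  -- `p = w₁ * w₂` differs from `w₃` by a central involution
  let w1 := W e a b f g
  let w2 := W e a b c d
  let w3 := W e f g c d
  have hl : Lifts e (w1 * w2) (swap f g * swap c d) := by
    have hh := (W_lifts e n1).mul (W_lifts e n2)
    have hp : swap a b * swap f g * (swap a b * swap c d) = swap f g * swap c d := by
      have hd : Perm.Disjoint (swap f g) (swap a b) := fun i => by
        by_cases i = a <;> by_cases i = b <;> simp_all [swap_apply_of_ne_of_ne]
      calc _ = swap a b * (swap f g * swap a b) * swap c d := by group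
        _ = _ := by rw [hd.commute.eq]; simp [← mul_assoc]
    rwa [hp] at hh
  have hk : ∀ x ∈ gen e, Commute ((w1 * w2)⁻¹ * w3) x :=
    fun x hx => hl.central (W_lifts e n3) hx
  have hfix := fixed_of_central (W_lifts e n4) (W_mem_gen e) (g := W e c f d g)
    (k := (w1 * w2)⁻¹ * w3) (mul_mem (inv_mem (mul_mem (W_mem_gen e) (W_mem_gen e)))
      (W_mem_gen e)) hk
  have m : ∀ i, (swap c f * swap d g) i =
      if i = c then f else if i = f then c else if i = d then g else if i = g then d else i := by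
    intro i
    simp only [Perm.mul_apply, swap_apply_def]
    split_ifs <;> simp_all
  have e1 : C.d (swap c f * swap d g) * w1 * (C.d (swap c f * swap d g))⁻¹ = w2 := by
    rw [W_equiv]; simp [m, ac, ad, bc, bd, Ne.symm fa, Ne.symm fb, Ne.symm ga, Ne.symm gb, fc, gc,
      Ne.symm cd, gd, hfg.symm, Ne.symm fc]; rfl
  have e2 : C.d (swap c f * swap d g) * w2 * (C.d (swap c f * swap d g))⁻¹ = w1 := by
    rw [W_equiv]; simp [m, ac, ad, bc, bd, Ne.symm fa, Ne.symm fb, Ne.symm ga, Ne.symm gb, fd,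
      Ne.symm cd, Ne.symm fd]; rfl
  have e3 : C.d (swap c f * swap d g) * w3 * (C.d (swap c f * swap d g))⁻¹ = w3 := by
    rw [W_equiv]
    simp [m, fc, gc, gd, fd, hfg.symm, Ne.symm cd, Ne.symm fd]
    exact W_swap hz n3
  have key : w2 * w1 = w1 * w2 := by
    have : (w2 * w1)⁻¹ * w3 = (w1 * w2)⁻¹ * w3 := by
      calc _ = ((C.d (swap c f * swap d g) * w1 * (C.d (swap c f * swap d g))⁻¹) *
            (C.d (swap c f * swap d g) * w2 * (C.d (swap c f * swap d g))⁻¹))⁻¹ *
            (C.d (swap c f * swap d g) * w3 * (C.d (swap c f * swap d g))⁻¹) := by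
              rw [e1, e2, e3]
        _ = C.d (swap c f * swap d g) * ((w1 * w2)⁻¹ * w3) *
            (C.d (swap c f * swap d g))⁻¹ := by group
        _ = _ := hfix
    exact inv_injective (mul_right_cancel this)
  have := W_map e (a := a) (b := b) (c := c) (d := d) (W_lifts e n1)
  simp [swap_apply_of_ne_of_ne, Ne.symm fc, Ne.symm gc, Ne.symm fd, Ne.symm gd, Ne.symm fa,
    Ne.symm fb, Ne.symm ga, Ne.symm gb, Ne.symm ac, Ne.symm ad, Ne.symm bc, Ne.symm bd] at this
  rw [← this]
  show w1 * w2 * w1⁻¹ = w2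
  rw [← key]; group

theorem W_flip' (h : [a, b, c, d].Nodup) : W e a b d c = W e a b c d := by
  have h' : [c, d, a, b].Nodup := (List.Perm.nodup_iff (List.perm_append_comm (l₁ := [a, b])
    (l₂ := [c, d]))).1 h
  have h'' : [d, c, a, b].Nodup := (List.Perm.nodup_iff (List.Perm.swap c d [a, b]).symm).1 h'
  rw [W_swap hz h'', W_flip hz h', W_swap hz h]

/-- The triangle relation. -/
theorem W_triangle {p q : Fin n} (h : [a, b, c, p, q].Nodup) :
    W e a b p q * W e b c p q * W e a b p q = W e a c p q := by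
  simp at h
  obtain ⟨⟨ab, ac, ap, aq⟩, ⟨bc, bp, bq⟩, ⟨cp, cq⟩, pq⟩ := h
  have n1 : [a, b, p, q].Nodup := by simp [ab, ap, aq, bp, bq, pq]
  have n2 : [a, c, p, q].Nodup := by simp [ac, ap, aq, cp, cq, pq]
  have := W_map e (a := b) (b := c) (c := p) (d := q) (W_lifts e n1)
  simp [swap_apply_of_ne_of_ne, bp, bq, cp, cq, Ne.symm ac, Ne.symm bc, Ne.symm ap, Ne.symm aq,
    Ne.symm bp, Ne.symm bq, Ne.symm ab, Ne.symm cp, Ne.symm cq] at this
  rw [inv_eq_of_mul_eq_one_right (W_sq hz n1)] at this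
  rw [this, W_flip' hz n2]

/-- A product of two three-cycle lifts computed with auxiliary pairs. -/
theorem fn_cyc_eq {x y i p q : Fin n} (h : [x, y, i, p, q].Nodup) (hx) :
    e.fn (cyc x y i hx) = W e x y p q * W e y i p q := by
  have tri := W_triangle hz h
  simp at h
  obtain ⟨⟨xy, xi, xp, xq⟩, ⟨yi, yp, yq⟩, ⟨ip, iq⟩, pq⟩ := h
  have n1 : [x, y, p, q].Nodup := by simp [xy, xp, xq, yp, yq, pq]
  have n2 : [y, i, p, q].Nodup := by simp [yi, yp, yq, ip, iq, pq]
  have n3 : [x, i, p, q].Nodup := by simp [xi, xp, xq, ip, iq, pq]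
  set s1 := W e x y p q
  set s2 := W e y i p q
  set k := (s1 * s2)⁻¹ * e.fn (cyc x y i hx) with hk
  have hp : swap x y * swap p q * (swap y i * swap p q) = (cyc x y i hx).1 := by
    have hd : Perm.Disjoint (swap p q) (swap y i) := fun j => by
      by_cases j = y <;> by_cases j = i <;> simp_all [swap_apply_of_ne_of_ne]
    rw [cyc_val]
    calc _ = swap x y * (swap p q * swap y i) * swap p q := by group
      _ = _ := by rw [hd.commute.eq]; simp [mul_assoc]
  have hl : Lifts e (s1 * s2) (cyc x y i hx).1 := by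
    rw [← hp]; exact (W_lifts e n1).mul (W_lifts e n2)
  have hc : ∀ z ∈ gen e, Commute k z := fun z hz' => hl.central (lifts_fn e _) hz'
  -- cube
  have t1 : s1 * s2 * s1 = s2 * s1 * s2 := by
    have u := W_triangle hz (a := i) (b := y) (c := x) (p := p) (q := q)
      (by simp [Ne.symm yi, Ne.symm xy, Ne.symm xi, ip, iq, yp, yq, xp, xq, pq])
    rw [W_flip hz n2, W_flip hz n1, W_flip hz n3] at u
    rw [tri, ← u]
  have c3 : (s1 * s2) * (s1 * s2) * (s1 * s2) = 1 := by
    calc _ = (s1 * s2 * s1) * (s2 * s1 * s2) := by group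
      _ = _ := by
        rw [← t1]
        calc s1 * s2 * s1 * (s1 * s2 * s1) = s1 * s2 * (s1 * s1) * s2 * s1 := by group
          _ = s1 * (s2 * s2) * s1 := by rw [W_sq hz n1]; group
          _ = _ := by rw [W_sq hz n2]; simpa using W_sq hz n1
  have hk3 : k ^ 3 = 1 := by
    have e1 : e.fn (cyc x y i hx) = (s1 * s2) * k := by rw [hk]; group
    have e2 := e.cube (cyc x y i hx)
    rw [e1, ((hc _ (mul_mem (W_mem_gen e) (W_mem_gen e))).symm).mul_pow, pow_succ (s1 * s2), pow_two,
      c3, one_mul] at e2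
    exact e2
  -- inversion by an even permutation
  obtain ⟨u, v, huv, hu, hv⟩ := exists_fresh_pair {x, y, i, p, q}
    (by have := C.le; have := card_le_five (a := x) (b := y) (c := i) (d := p) (e := q); omega)
  simp at hu hv
  obtain ⟨ux, uy, ui, up, uq⟩ := hu
  obtain ⟨vx, vy, vi, vp, vq⟩ := hv
  have n4 : [x, i, u, v].Nodup := by simp [xi, Ne.symm ux, Ne.symm vx, Ne.symm ui, Ne.symm vi, huv]
  have hfix := fixed_of_central (W_lifts e n4) (W_mem_gen e)
    (mul_mem (inv_mem (mul_mem (W_mem_gen e) (W_mem_gen e))) (fn_mem_gen e _)) hc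
  have hinv : k⁻¹ = k := by
    conv_rhs => rw [hk, ← hfix]
    have split : ∀ D a b c : G, D * ((a * b)⁻¹ * c) * D⁻¹ =
        ((D * a * D⁻¹) * (D * b * D⁻¹))⁻¹ * (D * c * D⁻¹) := fun D a b c => by group
    rw [split, W_equiv, W_equiv, e.equiv, act_cyc]
    have m : ∀ j, (swap x i * swap u v) j =
        if j = x then i else if j = i then x else if j = u then v else if j = v then u else j := by
      intro j
      simp only [Perm.mul_apply, swap_apply_def]
      split_ifs <;> simp_all
    simp [m, Ne.symm xy, yi, Ne.symm xi, Ne.symm uy, Ne.symm vy, Ne.symm xp, Ne.symm xq,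
      Ne.symm ip, Ne.symm iq, Ne.symm up, Ne.symm uq, Ne.symm vp, Ne.symm vq]
    rw [W_flip hz n2, W_flip hz n1,
      show cyc i y x ⟨Ne.symm yi, Ne.symm xy, Ne.symm xi⟩ = triInv (cyc x y i hx) by
        rw [triInv_cyc, cyc_rotate x i y], e.inv]
    have hcm : Commute (e.fn (cyc x y i hx)) (s1 * s2) := by
      have e1 : e.fn (cyc x y i hx) = (s1 * s2) * k := by rw [hk]; group
      rw [e1]
      exact (Commute.refl _).mul_left (hc _ (mul_mem (W_mem_gen e) (W_mem_gen e)))
    have i1 : s1⁻¹ = s1 := inv_eq_of_mul_eq_one_right (W_sq hz n1)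
    have i2 : s2⁻¹ = s2 := inv_eq_of_mul_eq_one_right (W_sq hz n2)
    rw [hk, mul_inv_rev, inv_inv]
    change _ = s1⁻¹ * s2⁻¹ * _
    rw [i1, i2]
    exact hcm.inv_left.eq
  have hk2 : k * k = 1 := by nth_rewrite 1 [← hinv]; group
  have hk1 : k = 1 := by
    rw [pow_succ, pow_two, hk2, one_mul] at hk3; exact hk3
  rw [hk, inv_mul_eq_one] at hk1
  exact hk1.symm

/-- Pairs multiply through any auxiliary pair. -/
theorem W_mul_aux {p q : Fin n} (h : [a, b, c, d, p, q].Nodup) :
    W e a b c d = W e a b p q * W e c d p q := by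
  simp at h
  obtain ⟨⟨ab, ac, ad, ap, aq⟩, ⟨bc, bd, bp, bq⟩, ⟨cd, cp, cq⟩, ⟨dp, dq⟩, pq⟩ := h
  have n1 : [a, b, c, d].Nodup := by simp [ab, ac, ad, bc, bd, cd]
  have m1 : [a, c, b, p, q].Nodup := by
    simp [ab, ac, Ne.symm bc, ap, aq, cp, cq, bp, bq, pq]
  have m2 : [a, c, d, p, q].Nodup := by simp [ac, ad, cd, ap, aq, cp, cq, dp, dq, pq]
  have n2 : [a, c, p, q].Nodup := by simp [ac, ap, aq, cp, cq, pq]
  rw [W_eq e n1 ⟨ac, Ne.symm bc, ab⟩ ⟨ac, cd, ad⟩, fn_cyc_eq hz m1, fn_cyc_eq hz m2,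
    ← W_triangle hz m1]
  group

/-- Composition of pairs. -/
theorem W_chain (h : [a, b, c, d, f, g].Nodup) :
    W e a b c d * W e c d f g = W e a b f g := by
  obtain ⟨p, q, hpq, hp, hq⟩ := exists_fresh_pair {a, b, c, d, f, g}
    (by have := C.le
        have := card_le_six (a := a) (b := b) (c := c) (d := d) (e := f) (f := g); omega)
  simp at h hp hq
  obtain ⟨⟨ab, ac, ad, af, ag⟩, ⟨bc, bd, bf, bg⟩, ⟨cd, cf, cg⟩, ⟨df, dg⟩, fg⟩ := h
  obtain ⟨pa, pb, pc, pd, pf, pg⟩ := hp
  obtain ⟨qa, qb, qc, qd, qf, qg⟩ := hq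
  rw [W_mul_aux hz (p := p) (q := q) (a := a) (b := b) (c := c) (d := d)
      (by simp [ab, ac, ad, bc, bd, cd, hpq, Ne.symm pa, Ne.symm pb, Ne.symm pc, Ne.symm pd,
        Ne.symm qa, Ne.symm qb, Ne.symm qc, Ne.symm qd]),
    W_mul_aux hz (p := p) (q := q) (a := c) (b := d) (c := f) (d := g)
      (by simp [fg, cd, cf, cg, df, dg, hpq, Ne.symm pc, Ne.symm pd, Ne.symm pf, Ne.symm pg,
        Ne.symm qc, Ne.symm qd, Ne.symm qf, Ne.symm qg]),
    W_mul_aux hz (p := p) (q := q) (a := a) (b := b) (c := f) (d := g)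
      (by simp [ab, af, ag, bf, bg, fg, hpq, Ne.symm pa, Ne.symm pb, Ne.symm pf, Ne.symm pg,
        Ne.symm qa, Ne.symm qb, Ne.symm qf, Ne.symm qg])]
  have := W_sq hz (a := c) (b := d) (c := p) (d := q)
    (by simp [cd, hpq, Ne.symm pc, Ne.symm pd, Ne.symm qc, Ne.symm qd])
  calc _ = W e a b p q * (W e c d p q * W e c d p q) * W e f g p q := by group
    _ = _ := by rw [this]; group

end

end Vale.Agent.P196.Fp
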