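import Vale.Agent.P196.Fp.Comp

/-!
Three-cycles as ordered triples, and the commutator identity.
-/

namespace Vale.Agent.P196.Fp

open Equiv Finset
open scoped commutatorElement

variable {n : ℕ}

theorem cyc_val (x a c : Fin n) (h) : (cyc x a c h).1 = swap x a * swap a c := rfl

theorem cyc_apply_fst (x a c : Fin n) (h) : (cyc x a c h).1 x = a := by
  simp [cyc_val, swap_apply_of_ne_of_ne h.1 h.2.2]

theorem cyc_apply_snd (x a c : Fin n) (h) : (cyc x a c h).1 a = c := by
  simp [cyc_val, swap_apply_of_ne_of_ne h.2.2.symm h.2.1.symm]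

theorem cyc_apply_trd (x a c : Fin n) (h) : (cyc x a c h).1 c = x := by
  simp [cyc_val]

theorem cyc_apply_of_ne (x a c : Fin n) (h) {i : Fin n} (hx : i ≠ x) (ha : i ≠ a) (hc : i ≠ c) :
    (cyc x a c h).1 i = i := by
  simp [cyc_val, swap_apply_of_ne_of_ne ha hc, swap_apply_of_ne_of_ne hx ha]

theorem cyc_support (x a c : Fin n) (h) : (cyc x a c h).1.support = {x, a, c} := by
  ext i
  simp only [Perm.mem_support, Finset.mem_insert, Finset.mem_singleton]
  refine ⟨fun hi => ?_, ?_⟩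
  · by_contra hne
    push Not at hne
    exact hi (cyc_apply_of_ne x a c h hne.1 hne.2.1 hne.2.2)
  · rintro (rfl | rfl | rfl)
    · rw [cyc_apply_fst]; exact h.1.symm
    · rw [cyc_apply_snd]; exact h.2.1.symm
    · rw [cyc_apply_trd]; exact h.2.2

theorem exists_cyc (σ : Tri n) : ∃ x a c h, σ = cyc x a c h := by
  obtain ⟨x, hx⟩ : σ.1.support.Nonempty := by
    rw [← card_pos, σ.2.card_support]; norm_num
  have hx' : σ.1 x ≠ x := Perm.mem_support.1 hx
  have h3 : σ.1 (σ.1 (σ.1 x)) = x := by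
    have h : σ.1 ^ 3 = 1 := by rw [← σ.2.orderOf]; exact pow_orderOf_eq_one σ.1
    simpa [pow_succ, Perm.mul_apply] using congrArg (fun p : Perm (Fin n) => p x) h
  have h2 : σ.1 x ≠ σ.1 (σ.1 x) := fun e => hx' (σ.1.injective e).symm
  have h13 : x ≠ σ.1 (σ.1 x) := fun e => by
    have := congrArg σ.1 e; rw [h3] at this; exact hx' this
  refine ⟨x, σ.1 x, σ.1 (σ.1 x), ⟨hx'.symm, h2, h13⟩, ?_⟩
  have hs : σ.1.support = {x, σ.1 x, σ.1 (σ.1 x)} := by
    symm
    refine eq_of_subset_of_card_le ?_ ?_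
    · intro i hi
      simp only [Finset.mem_insert, Finset.mem_singleton] at hi
      rcases hi with rfl | rfl | rfl
      · exact hx
      · exact Perm.apply_mem_support.2 hx
      · exact Perm.apply_mem_support.2 (Perm.apply_mem_support.2 hx)
    · rw [σ.2.card_support]
      simp [hx'.symm, h2, h13]
  ext1
  ext i
  by_cases hi : i ∈ σ.1.support
  · rw [hs] at hi
    simp only [Finset.mem_insert, Finset.mem_singleton] at hi
    rcases hi with rfl | rfl | rfl
    · rw [cyc_apply_fst]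
    · rw [cyc_apply_snd]
    · rw [cyc_apply_trd, h3]
  · have hi' := Perm.notMem_support.1 hi
    rw [hs] at hi
    simp only [Finset.mem_insert, Finset.mem_singleton, not_or] at hi
    rw [cyc_apply_of_ne _ _ _ _ hi.1 hi.2.1 hi.2.2, hi']

theorem act_cyc (π : Perm (Fin n)) (x a c : Fin n) (h) :
    act π (cyc x a c h) = cyc (π x) (π a) (π c)
      ⟨π.injective.ne h.1, π.injective.ne h.2.1, π.injective.ne h.2.2⟩ := by
  ext1
  simp only [act_val, cyc_val, ← conj_mul, swap_apply_apply]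

theorem cyc_rotate (x a c : Fin n) (h) :
    cyc x a c h = cyc a c x ⟨h.2.1, h.2.2.symm, h.1.symm⟩ := by
  ext1; ext i
  by_cases hx : i = x
  · subst hx; rw [cyc_apply_fst, cyc_apply_trd]
  by_cases ha : i = a
  · subst ha; rw [cyc_apply_snd, cyc_apply_fst]
  by_cases hc : i = c
  · subst hc; rw [cyc_apply_trd, cyc_apply_snd]
  rw [cyc_apply_of_ne _ _ _ _ hx ha hc, cyc_apply_of_ne _ _ _ _ ha hc hx]

theorem triInv_cyc (x a c : Fin n) (h) :
    triInv (cyc x a c h) = cyc x c a ⟨h.2.2, h.2.1.symm, h.1⟩ := by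
  refine Subtype.ext (Equiv.ext fun i => ?_)
  rw [triInv_val, Perm.inv_eq_iff_eq]
  by_cases hx : i = x
  · subst hx; rw [cyc_apply_fst, cyc_apply_trd]
  by_cases ha : i = a
  · subst ha; rw [cyc_apply_trd, cyc_apply_fst]
  by_cases hc : i = c
  · subst hc; rw [cyc_apply_snd, cyc_apply_snd]
  rw [cyc_apply_of_ne _ _ _ _ hx hc ha, cyc_apply_of_ne _ _ _ _ hx ha hc]

/-- Five distinct indices, recorded as a shared point, two images and two spare points. -/
structure Five (n : ℕ) where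
  x : Fin n
  a : Fin n
  c : Fin n
  b : Fin n
  y : Fin n
  nodup : [x, a, c, b, y].Nodup

namespace Five

variable (q : Five n)

theorem ne : q.x ≠ q.a ∧ q.x ≠ q.c ∧ q.x ≠ q.b ∧ q.x ≠ q.y ∧ q.a ≠ q.c ∧ q.a ≠ q.b ∧
    q.a ≠ q.y ∧ q.c ≠ q.b ∧ q.c ≠ q.y ∧ q.b ≠ q.y := by
  have := q.nodup
  simp only [List.nodup_cons, List.mem_cons, List.not_mem_nil, or_false, not_or] at this
  tauto

/-- The three-cycle on the shared point and the two images. -/
def rho : Tri n := cyc q.x q.a q.c ⟨q.ne.1, q.ne.2.2.2.2.1, q.ne.2.1⟩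

/-- The first factor. -/
def fst : Tri n := cyc q.a q.b q.x ⟨q.ne.2.2.2.2.2.1, q.ne.2.2.1.symm, q.ne.1.symm⟩

/-- The second factor. -/
def snd : Tri n := cyc q.x q.c q.y ⟨q.ne.2.1, q.ne.2.2.2.2.2.2.2.2.1, q.ne.2.2.2.1⟩

/-- The same configuration moved by a permutation. -/
def map (π : Perm (Fin n)) : Five n where
  x := π q.x
  a := π q.a
  c := π q.c
  b := π q.b
  y := π q.y
  nodup := by simpa using q.nodup.map π.injective

/-- The configuration of the inverse commutator. -/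
def swapped : Five n where
  x := q.x
  a := q.c
  c := q.a
  b := q.y
  y := q.b
  nodup := by
    have := q.ne
    simp only [List.nodup_cons, List.mem_cons, List.not_mem_nil, or_false, not_or]
    simp [List.nodup_nil]
    tauto

theorem map_rho (π : Perm (Fin n)) : (q.map π).rho = act π q.rho := (act_cyc π _ _ _ _).symm

theorem map_fst (π : Perm (Fin n)) : (q.map π).fst = act π q.fst := (act_cyc π _ _ _ _).symm

theorem map_snd (π : Perm (Fin n)) : (q.map π).snd = act π q.snd := (act_cyc π _ _ _ _).symm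

theorem swapped_rho : q.swapped.rho = triInv q.rho := (triInv_cyc _ _ _ _).symm

theorem swapped_fst : q.swapped.fst = q.snd :=
  (cyc_rotate q.x q.c q.y _).symm

theorem swapped_snd : q.swapped.snd = q.fst :=
  ((cyc_rotate q.a q.b q.x _).trans (cyc_rotate q.b q.x q.a _)).symm

theorem commutator : ⁅q.fst.1, q.snd.1⁆ = q.rho.1 := by
  rw [commutatorElement_def, mul_inv_eq_iff_eq_mul]
  have e := congrArg Subtype.val (act_cyc q.fst.1 q.x q.c q.y
    ⟨q.ne.2.1, q.ne.2.2.2.2.2.2.2.2.1, q.ne.2.2.2.1⟩)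
  rw [act_val] at e
  simp only [snd] at e ⊢
  rw [e]
  obtain ⟨n1, n2, n3, n4, n5, n6, n7, n8, n9, n10⟩ := q.ne
  have f1 : q.fst.1 q.x = q.a := cyc_apply_trd _ _ _ _
  have f2 : q.fst.1 q.c = q.c := cyc_apply_of_ne _ _ _ _ n5.symm n8 n2.symm
  have f3 : q.fst.1 q.y = q.y := cyc_apply_of_ne _ _ _ _ n7.symm n10.symm n4.symm
  ext i
  simp only [f1, f2, f3, rho, Perm.mul_apply]
  by_cases hx : i = q.x
  · subst hx
    rw [cyc_apply_of_ne _ _ _ _ n1 n2 n4, cyc_apply_fst, cyc_apply_trd]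
  by_cases ha : i = q.a
  · subst ha
    rw [cyc_apply_fst, cyc_apply_of_ne _ _ _ _ n1.symm n5 n7, cyc_apply_snd]
  by_cases hc : i = q.c
  · subst hc
    rw [cyc_apply_snd, cyc_apply_snd, cyc_apply_of_ne _ _ _ _ n4.symm n7.symm n9.symm]
  by_cases hy : i = q.y
  · subst hy
    rw [cyc_apply_trd, cyc_apply_trd, cyc_apply_fst]
  rw [cyc_apply_of_ne _ _ _ _ ha hc hy, cyc_apply_of_ne _ _ _ _ hx hc hy,
    cyc_apply_of_ne _ _ _ _ hx ha hc]

end Five

end Vale.Agent.P196.Fp
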