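import Vale.Agent.P196.Fp.Half

/-!
Components form a transitive partial Boolean algebra.
-/

namespace Vale.Agent.P196.Fp

open Equiv Finset
open scoped commutatorElement

variable {n : ℕ} {G : Type*} [Group G] {C : Ctx G n}

/-- The complement of a component. -/
def compl (e : Comp C) : Comp C := diff (top C) e (le_top e)

theorem diff_le {a m : Comp C} (h : Le m a) : Le (diff a m h) a := by
  intro κ ρ
  show _ * (a.fn ρ * (m.fn ρ)⁻¹) * _ = a.fn (act κ.1 ρ) * (m.fn (act κ.1 ρ))⁻¹
  rw [← a.conj, ← h κ ρ]; group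

theorem orth_bot (e : Comp C) : Orth e (bot C) := fun _ _ => Commute.one_right _

theorem diff_self (e : Comp C) (h : Le e e) : diff e e h = bot C := by
  ext σ; simp [diff, bot]

theorem diff_bot (e : Comp C) (h : Le (bot C) e) : diff e (bot C) h = e := by
  ext σ; simp [diff, bot]

theorem diff_diff {a m : Comp C} (h : Le m a) : diff a (diff a m h) (diff_le h) = m := by
  ext σ
  show a.fn σ * (a.fn σ * (m.fn σ)⁻¹)⁻¹ = m.fn σ
  rw [mul_inv_rev, inv_inv, ← mul_assoc, (h.fn_commute σ).eq]; group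

theorem orth_of_le_parts {g f x : Comp C} (h2 : Le g f)
    (o : Orth x (diff f g h2)) (hx : Orth x g) : Orth x f := by
  intro σ τ
  have e1 : f.fn τ = (diff f g h2).fn τ * g.fn τ := by simp [diff]
  rw [e1]
  exact (o σ τ).mul_right (hx σ τ)

theorem le_compl_of_orth {x f : Comp C} (o : Orth x f) : Le x (compl f) := by
  intro κ ρ
  have c := (o ρ κ).inv_right.eq
  show C.d κ.1 * (f.fn κ)⁻¹ * x.fn ρ * (C.d κ.1 * (f.fn κ)⁻¹)⁻¹ = _
  rw [← x.equiv κ.1 ρ]
  calc _ = C.d κ.1 * ((f.fn κ)⁻¹ * x.fn ρ) * f.fn κ * (C.d κ.1)⁻¹ := by group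
    _ = _ := by rw [← c]; group

theorem part_compl (e : Comp C) : Part e (compl e) := by
  refine ⟨orth_diff (le_top e), fun σ => ?_⟩
  show e.fn σ * (diff (top C) e (le_top e)).fn σ = _
  rw [((orth_diff (le_top e)) σ σ).eq]
  simp [diff, top]

theorem compl_antitone {x a : Comp C} (h : Le x a) : Le (compl a) (compl x) :=
  le_compl_of_orth ((part_compl a).orth.down h).symm

theorem compl_compl (e : Comp C) : compl (compl e) = e := diff_diff (le_top e)

theorem compl_top : compl (top C) = bot C := diff_self _ _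

/-- Two components lie in one Boolean algebra. -/
def Com (e f : Comp C) : Prop :=
  ∃ g : Comp C, ∃ h1 : Le g e, ∃ h2 : Le g f, Orth (diff e g h1) (diff f g h2)

theorem meet_formula {g e f : Comp C} (h1 : Le g e) (h2 : Le g f)
    (o : Orth (diff e g h1) (diff f g h2)) (q : Five n) :
    g.fn q.rho = ⁅e.fn q.fst, f.fn q.snd⁆ ^ 4 := by
  rw [comm4 g q]
  congr 1
  have k1 := h1 q.fst q.snd
  have c : Orth (diff e g h1) f :=
    orth_of_le_parts h2 o (orth_diff h1).symm
  have cc := (c q.fst q.snd).eq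
  have hd : e.fn q.fst = g.fn q.fst * (diff e g h1).fn q.fst := by
    rw [((orth_diff h1) q.fst q.fst).eq]; simp [diff]
  have hf : f.fn q.snd = g.fn q.snd * (diff f g h2).fn q.snd := by
    rw [((orth_diff h2) q.snd q.snd).eq]; simp [diff]
  have c2 := ((orth_diff h2) q.fst q.snd).eq
  simp only [commutatorElement_def]
  symm
  calc e.fn q.fst * f.fn q.snd * (e.fn q.fst)⁻¹ * (f.fn q.snd)⁻¹
      = g.fn q.fst * ((diff e g h1).fn q.fst * f.fn q.snd) * ((diff e g h1).fn q.fst)⁻¹ *
          (g.fn q.fst)⁻¹ * (f.fn q.snd)⁻¹ := by rw [hd]; group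
    _ = g.fn q.fst * f.fn q.snd * (g.fn q.fst)⁻¹ * (f.fn q.snd)⁻¹ := by rw [cc]; group
    _ = g.fn q.fst * g.fn q.snd * ((diff f g h2).fn q.snd * (g.fn q.fst)⁻¹) *
          ((diff f g h2).fn q.snd)⁻¹ * (g.fn q.snd)⁻¹ := by rw [hf]; group
    _ = _ := by rw [← ((orth_diff h2) q.fst q.snd).inv_left.eq]; group

theorem meet_unique {g g' e f : Comp C} {h1 : Le g e} {h2 : Le g f} {h1' : Le g' e}
    {h2' : Le g' f} (o : Orth (diff e g h1) (diff f g h2))
    (o' : Orth (diff e g' h1') (diff f g' h2')) : g = g' := by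
  have hle := C.le
  ext σ
  obtain ⟨x, a, c, h, rfl⟩ := exists_cyc σ
  obtain ⟨q, rfl, rfl, rfl, -⟩ := exists_five x a c h ∅ (by simp; omega)
  show g.fn q.rho = g'.fn q.rho
  rw [meet_formula h1 h2 o, meet_formula h1' h2' o']

open Classical in
/-- The meet of two components in one Boolean algebra. -/
noncomputable def inf (e f : Comp C) : Comp C := if h : Com e f then h.choose else bot C

theorem inf_eq {g e f : Comp C} (h1 : Le g e) (h2 : Le g f)
    (o : Orth (diff e g h1) (diff f g h2)) : inf e f = g := by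
  have h : Com e f := ⟨g, h1, h2, o⟩
  obtain ⟨_, _, o'⟩ := h.choose_spec
  rw [inf, dif_pos h]
  exact meet_unique o' o

theorem Com.inf_le {e f : Comp C} (h : Com e f) : Le (inf e f) e ∧ Le (inf e f) f := by
  obtain ⟨g, h1, h2, o⟩ := h
  rw [inf_eq h1 h2 o]; exact ⟨h1, h2⟩

theorem le_inf {x e f : Comp C} (h : Com e f) (he : Le x e) (hf : Le x f) : Le x (inf e f) := by
  obtain ⟨g, h1, h2, o⟩ := h
  rw [inf_eq h1 h2 o]
  intro κ ρ
  have c : Orth (diff e g h1) f := orth_of_le_parts h2 o (orth_diff h1).symm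
  have cc := ((c.symm.down hf) ρ κ).eq
  have hd : e.fn κ = g.fn κ * (diff e g h1).fn κ := by
    rw [((orth_diff h1) κ κ).eq]; simp [diff]
  rw [← he κ ρ, hd]
  calc _ = g.fn κ * (x.fn ρ * (diff e g h1).fn κ) * ((diff e g h1).fn κ)⁻¹ * (g.fn κ)⁻¹ := by group
    _ = _ := by rw [cc]; group

theorem com_refl (e : Comp C) : Com e e := by
  refine ⟨e, Le.refl e, Le.refl e, ?_⟩
  rw [diff_self]; exact orth_bot _

theorem Com.symm {e f : Comp C} (h : Com e f) : Com f e :=
  let ⟨g, h1, h2, o⟩ := h; ⟨g, h2, h1, o.symm⟩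

theorem com_bot (e : Comp C) : Com e (bot C) := by
  refine ⟨bot C, bot_le e, Le.refl _, ?_⟩
  rw [diff_self]; exact orth_bot _

theorem com_of_le {a c : Comp C} (h : Le a c) : Com a c ∧ inf a c = a := by
  have o : Orth (diff a a (Le.refl a)) (diff c a h) := by
    rw [diff_self]; exact (orth_bot _).symm
  exact ⟨⟨a, _, h, o⟩, inf_eq _ h o⟩

theorem com_top (e : Comp C) : Com e (top C) := (com_of_le (le_top e)).1

theorem le_antisymm {a b : Comp C} (h : Le a b) (h' : Le b a) : a = b := by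
  rw [← (com_of_le h).2]
  exact inf_eq h' (Le.refl b) (by rw [diff_self b]; exact orth_bot _)

theorem inf_comm {a b : Comp C} (h : Com a b) : inf a b = inf b a := by
  obtain ⟨g, h1, h2, o⟩ := h
  rw [inf_eq h1 h2 o, inf_eq h2 h1 o.symm]

theorem inf_idem (a : Comp C) : inf a a = a := (com_of_le (Le.refl a)).2

theorem inf_top (a : Comp C) : inf a (top C) = a := (com_of_le (le_top a)).2

theorem inf_bot (a : Comp C) : inf a (bot C) = bot C :=
  inf_eq (bot_le a) (Le.refl _) (by rw [diff_self (bot C)]; exact orth_bot _)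

theorem inf_compl (a : Comp C) : inf a (compl a) = bot C :=
  inf_eq (bot_le a) (bot_le _) (by rw [diff_bot, diff_bot]; exact (part_compl a).orth)

/-- The witness for the complement of a second argument. -/
theorem compl_witness {g e f : Comp C} (h1 : Le g e) (h2 : Le g f)
    (o : Orth (diff e g h1) (diff f g h2)) :
    ∃ k : Le (diff e g h1) (compl f),
      Orth (diff e (diff e g h1) (diff_le h1)) (diff (compl f) (diff e g h1) k) := by
  refine ⟨le_compl_of_orth (orth_of_le_parts h2 o (orth_diff h1).symm), ?_⟩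
  rw [diff_diff h1]
  exact ((part_compl f).orth.down h2).symm.down (diff_le _) |>.symm

theorem com_compl {a b : Comp C} (h : Com a b) : Com a (compl b) := by
  obtain ⟨g, h1, h2, o⟩ := h
  obtain ⟨k, o'⟩ := compl_witness h1 h2 o
  exact ⟨_, diff_le h1, k, o'⟩

theorem Com.decomposes {a b : Comp C} (h : Com a b) : Decomposes b a (compl a) := by
  obtain ⟨g, h1, h2, o⟩ := h
  intro ρ U hs _
  refine ⟨g.fn ρ, fn_mem_below h1 hs, (diff b g h2).fn ρ, fn_mem_below ?_ hs, ?_⟩
  · exact le_compl_of_orth (orth_of_le_parts h1 o.symm (orth_diff h2).symm)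
  · rw [((orth_diff h2) ρ ρ).eq]; simp [diff]

theorem com_of_decomposes {a b : Comp C} (h : Decomposes b a (compl a)) : Com a b := by
  obtain ⟨G₁, G₂, l1, l2, e⟩ := split (part_compl a) h
  have o := (((part_compl a).orth.down l1).symm.down l2).symm
  have hb : Le G₁ b := by
    intro κ ρ
    have c := (o ρ κ).eq
    rw [e, ← G₁.conj κ ρ]
    calc _ = G₁.fn κ * (G₂.fn κ * G₁.fn ρ) * (G₂.fn κ)⁻¹ * (G₁.fn κ)⁻¹ := by group
      _ = _ := by rw [← c]; group
  refine ⟨G₁, l1, hb, ?_⟩
  have e2 : diff b G₁ hb = G₂ := by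
    ext σ
    show b.fn σ * (G₁.fn σ)⁻¹ = _
    rw [e, (o σ σ).eq]; group
  rw [e2]
  exact (((part_compl a).orth.down (diff_le l1)).symm.down l2).symm

theorem com_inf {a b c : Comp C} (hab : Com a b) (hac : Com a c) (hbc : Com b c) :
    Com a (inf b c) := by
  obtain ⟨g, h1, h2, o⟩ := hbc
  rw [inf_eq h1 h2 o]
  refine com_of_decomposes fun ρ U hs hU => ?_
  obtain ⟨x, y, z, hxyz, rfl⟩ := exists_cyc ρ
  rw [cyc_support] at hs
  simp only [Finset.insert_subset_iff, Finset.singleton_subset_iff] at hs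
  obtain ⟨q, rfl, rfl, rfl, hqb, hqy⟩ := exists_five x y z hxyz (Uᶜ ∪ {x, y, z}) (by
    have := C.le
    have := card_union_le Uᶜ ({x, y, z} : Finset (Fin n))
    have := card_le_three (a := x) (b := y) (c := z)
    have := card_compl U
    rw [Fintype.card_fin] at this
    omega)
  simp only [mem_union, mem_compl, not_or, not_not] at hqb hqy
  have s1 : q.fst.1.support ⊆ U := by
    rw [Five.fst, cyc_support]
    simp only [Finset.insert_subset_iff, Finset.singleton_subset_iff]
    exact ⟨hs.2.1, hqb.1, hs.1⟩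
  have s2 : q.snd.1.support ⊆ U := by
    rw [Five.snd, cyc_support]
    simp only [Finset.insert_subset_iff, Finset.singleton_subset_iff]
    exact ⟨hs.1, hs.2.2, hqy.1⟩
  obtain ⟨u, hu, v, hv, e⟩ := hab.decomposes q.fst U s1 hU
  obtain ⟨u', hu', v', hv', e'⟩ := hac.decomposes q.snd U s2 hU
  have d1 : IsDec a (compl a) (b.fn q.fst) u v :=
    ⟨below_mono a (subset_univ U) hu, below_mono _ (subset_univ U) hv, e⟩
  have d2 : IsDec a (compl a) (c.fn q.snd) u' v' :=
    ⟨below_mono a (subset_univ U) hu', below_mono _ (subset_univ U) hv', e'⟩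
  refine ⟨⁅u, u'⁆ ^ 4, pow_mem ?_ 4, ⁅v, v'⁆ ^ 4, pow_mem ?_ 4, ?_⟩
  · rw [commutatorElement_def]
    exact mul_mem (mul_mem (mul_mem hu hu') (inv_mem hu)) (inv_mem hu')
  · rw [commutatorElement_def]
    exact mul_mem (mul_mem (mul_mem hv hv') (inv_mem hv)) (inv_mem hv')
  · show g.fn q.rho = _
    rw [meet_formula h1 h2 o q]
    exact (d1.comm_dec (part_compl a) d2).2.2

theorem inf_assoc {a b c : Comp C} (hab : Com a b) (hac : Com a c) (hbc : Com b c) :
    inf (inf a b) c = inf a (inf b c) := by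
  have k1 : Com (inf a b) c := (com_inf hac.symm hbc.symm hab).symm
  have k2 : Com a (inf b c) := com_inf hab hac hbc
  obtain ⟨p1, p2⟩ := hab.inf_le
  obtain ⟨r1, r2⟩ := hbc.inf_le
  obtain ⟨x1, x2⟩ := k1.inf_le
  obtain ⟨y1, y2⟩ := k2.inf_le
  refine le_antisymm (le_inf k2 (x1.trans p1) (le_inf hbc (x1.trans p2) x2)) ?_
  exact le_inf k1 (le_inf hab y1 (y2.trans r1)) (y2.trans r2)

theorem split_law {a b : Comp C} (h : Com a b) :
    compl (inf (compl (inf a b)) (compl (inf a (compl b)))) = a := by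
  obtain ⟨g, h1, h2, o⟩ := h
  obtain ⟨k, o'⟩ := compl_witness h1 h2 o
  rw [inf_eq h1 h2 o, inf_eq (diff_le h1) k o']
  have key : ∀ (m : Comp C) (hm : Le m a) (hc : Le (compl a) (compl m)),
      diff (compl m) (compl a) hc = diff a m hm := by
    intro m hm hc
    ext σ
    have e1 := a.equiv σ.1 σ
    have e2 := m.equiv σ.1 σ
    rw [act_self] at e1 e2
    show C.d σ.1 * (m.fn σ)⁻¹ * (C.d σ.1 * (a.fn σ)⁻¹)⁻¹ = a.fn σ * (m.fn σ)⁻¹
    rw [(hm.fn_commute σ).inv_right.eq]
    conv_rhs => rw [← e1, ← e2]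
    group
  have fin : inf (compl g) (compl (diff a g h1)) = compl a := by
    refine inf_eq (compl_antitone h1) (compl_antitone (diff_le h1)) ?_
    rw [key g h1, key _ (diff_le h1), diff_diff h1]
    exact (orth_diff h1).symm
  rw [fin, compl_compl]

theorem com_trans {a b c : Comp C} (hab : Com a b) (hbc : Com b c) (e1 : inf a b = a)
    (e2 : inf b c = b) : Com a c ∧ inf a c = a := by
  refine com_of_le (Le.trans (g := b) ?_ ?_)
  · rw [← e1]; exact hab.inf_le.2
  · rw [← e2]; exact hbc.inf_le.2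

end Vale.Agent.P196.Fp
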