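import Vale.Agent.P196.Fp.Rigid

/-!
Local rules force all events to commute and kill every pattern absent from the shift.
-/

namespace Vale.Agent.P196.Fp

namespace EventAlgebra

variable {E : EventAlgebra}

theorem com_of_sup {S : E.Block} {ι : Type*} (s : Finset ι) (f : ι → S.Elem) (z : E.B)
    (h : ∀ j ∈ s, E.com z (f j).1) : E.com z (s.sup f).1 := by
  classical
  induction s using Finset.induction_on with
  | empty => exact E.com_bot z
  | insert j s _ ih =>
    rw [Finset.sup_insert]
    have hj := h j (Finset.mem_insert_self j s)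
    have hs := ih fun k hk => h k (Finset.mem_insert_of_mem hk)
    exact E.com_compl _ _ (E.com_inf z _ _ (E.com_compl _ _ hj) (E.com_compl _ _ hs)
      ((f j)ᶜ.com (s.sup f)ᶜ))

theorem sup_val_congr {S S' : E.Block} {ι : Type*} (s : Finset ι) (f : ι → S.Elem)
    (g : ι → S'.Elem) (h : ∀ j ∈ s, (f j).1 = (g j).1) : (s.sup f).1 = (s.sup g).1 := by
  classical
  induction s using Finset.induction_on with
  | empty => rfl
  | insert j s _ ih =>
    rw [Finset.sup_insert, Finset.sup_insert]
    show E.compl (E.inf (E.compl (f j).1) (E.compl (s.sup f).1)) =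
      E.compl (E.inf (E.compl (g j).1) (E.compl (s.sup g).1))
    rw [h j (Finset.mem_insert_self j s), ih fun k hk => h k (Finset.mem_insert_of_mem hk)]

/-- A list of complements with zero meet exhausts everything. -/
theorem sup_eq_top {S : E.Block} {ι : Type*} [Fintype ι] (f : ι → S.Elem) (e : ι → E.B)
    (he : ∀ j, (f j).1 = e j)
    (h : (Finset.univ.toList.map fun j => E.compl (e j)).foldr E.inf E.top = E.bot) :
    Finset.univ.sup f = ⊤ := by
  have key : ∀ l : List ι, ∀ u : S.Elem, (∀ j ∈ l, f j ≤ u) →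
      ∃ z : S.Elem, z.1 = (l.map fun j => E.compl (e j)).foldr E.inf E.top ∧ uᶜ ≤ z := by
    intro l
    induction l with
    | nil => exact fun u _ => ⟨⊤, rfl, _root_.le_top⟩
    | cons j l ih =>
      intro u hu
      obtain ⟨z, hz, hle⟩ := ih u fun k hk => hu k (List.mem_cons_of_mem j hk)
      refine ⟨(f j)ᶜ ⊓ z, ?_, _root_.le_inf (compl_le_compl (hu j List.mem_cons_self)) hle⟩
      rw [List.map_cons, List.foldr_cons, ← hz, ← he]
      rfl
  obtain ⟨z, hz, hle⟩ := key Finset.univ.toList (Finset.univ.sup f)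
    fun j _ => Finset.le_sup (Finset.mem_univ j)
  rw [h] at hz
  rw [show z = ⊥ from Subtype.ext hz, le_bot_iff, compl_eq_bot] at hle
  exact hle

/-- The same below a fixed event. -/
theorem le_sup_of_total {b : E.B} {S : E.Block} (u : S.Elem) (hu : u.1 = b) {ι : Type*}
    [Fintype ι] (f : ι → S.Elem) (e : ι → E.Below b) (he : ∀ j, (f j).1 = (e j).1)
    (h : (Finset.univ.toList.map fun j => (E.below b).compl (e j)).foldr (E.below b).inf
      (E.below b).top = (E.below b).bot) : u ≤ Finset.univ.sup f := by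
  have key : ∀ l : List ι, ∀ v : S.Elem, (∀ j ∈ l, f j ≤ v) →
      ∃ z : S.Elem, z.1 = ((l.map fun j => (E.below b).compl (e j)).foldr (E.below b).inf
        (E.below b).top).1 ∧ z ≤ u ∧ vᶜ ⊓ u ≤ z := by
    intro l
    induction l with
    | nil => exact fun v _ => ⟨u, hu, le_rfl, inf_le_right⟩
    | cons j l ih =>
      intro v hv
      obtain ⟨z, hz, hzu, hle⟩ := ih v fun k hk => hv k (List.mem_cons_of_mem j hk)
      have hj : f j ≤ v := hv j List.mem_cons_self
      refine ⟨(f j)ᶜ ⊓ u ⊓ z, ?_, inf_le_right.trans hzu,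
        _root_.le_inf (_root_.le_inf (inf_le_left.trans (compl_le_compl hj)) inf_le_right) hle⟩
      rw [List.map_cons, List.foldr_cons]
      have hc := ((f j)ᶜ ⊓ u).com z
      have hval : ((f j)ᶜ ⊓ u).1 = ((E.below b).compl (e j)).1 := by
        show E.inf (E.compl (f j).1) u.1 = E.inf (E.compl (e j).1) b
        rw [he, hu]
      rw [hval, hz] at hc
      show E.inf ((f j)ᶜ ⊓ u).1 z.1 = _
      rw [hval, hz]
      simp only [EventAlgebra.below] at hc ⊢
      rw [dif_pos hc]
  obtain ⟨z, hz, -, hle⟩ := key Finset.univ.toList (Finset.univ.sup f)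
    fun j _ => Finset.le_sup (Finset.mem_univ j)
  rw [h] at hz
  rw [show z = ⊥ from Subtype.ext hz, le_bot_iff, ← disjoint_iff, disjoint_comm,
    disjoint_compl_right_iff] at hle
  exact hle

theorem com_of_disjoint {a u v : E.B} (h1 : E.com u a) (h2 : E.inf u a = u) (h3 : E.com v a)
    (h4 : E.inf v a = E.bot) : E.com u v := by
  let S : E.Block := ⟨{a, v}, fun p hp q hq => by
    rcases hp with rfl | rfl <;> rcases hq with rfl | rfl
    exacts [E.com_refl _, E.com_symm _ _ h3, h3, E.com_refl _]⟩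
  let A : S.Elem := S.mem (x := a) (Or.inl rfl)
  let V : S.Elem := S.mem (x := v) (Or.inr rfl)
  have hAV : A ≤ Vᶜ := Block.Elem.le_compl_of_inf (by
    rw [_root_.inf_comm]; exact Subtype.ext h4)
  obtain ⟨c, -⟩ := E.com_trans u a (E.compl v) h1 (A.com Vᶜ) h2 (congrArg Subtype.val hAV)
  have := E.com_compl _ _ c
  rwa [E.compl_compl] at this

/-- An element is zero if it misses all patterns on a finite set of cells. -/
theorem eq_bot_of_patterns {S : E.Block} {α κ : Type*} [Fintype α] [DecidableEq κ]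
    (F : Finset κ) (e : κ → α → S.Elem) (z : S.Elem) (g₀ : κ → α)
    (hz : ∀ p ∈ F, z ≤ Finset.univ.sup (e p))
    (h : ∀ g : κ → α, z ⊓ F.inf (fun p => e p (g p)) = ⊥) : z = ⊥ := by
  induction F using Finset.induction_on generalizing z with
  | empty => simpa using h g₀
  | insert p F hp ih =>
    refine ih z (fun q hq => hz q (Finset.mem_insert_of_mem hq)) fun g => ?_
    have hzp := hz p (Finset.mem_insert_self p F)
    rw [← inf_eq_left.2 hzp, _root_.inf_assoc, _root_.inf_comm _ (F.inf _), ← _root_.inf_assoc, Finset.sup_inf_distrib_left]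
    refine _root_.le_antisymm (Finset.sup_le fun c _ => ?_) _root_.bot_le
    have hg := h (Function.update g p c)
    rw [Finset.inf_insert, Function.update_self] at hg
    rw [← hg, show F.inf (fun q => e q (Function.update g p c q)) = F.inf fun q => e q (g q) from
      Finset.inf_congr rfl fun q hq => by rw [Function.update_of_ne]; rintro rfl; exact hp hq]
    exact _root_.le_inf (inf_le_left.trans inf_le_left)
      (_root_.le_inf inf_le_right (inf_le_left.trans inf_le_right))

end EventAlgebra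

end Vale.Agent.P196.Fp

namespace Vale.Agent.P196.Sft

open Vale.Agent.P196.Fp EventAlgebra

attribute [local instance] MacroSystem.fin

variable {E : EventAlgebra.{0}} {α : Type} [Fintype α] {W : Set (Win α)}

/-- The cell of a window. -/
def corner (a : Cell) (e : Fin 2 × Fin 2) : Cell := (a.1 + e.1.val, a.2 + e.2.val)

/-- An event below `b` that commutes with the events of a window at `a` commutes with `x`. -/
def DependsOn {b : E.B} (ev : Cell → α → E.Below b) (a : Cell) (x : E.B) : Prop :=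
  ∀ z, E.com z b → (∀ e c, E.com z (ev (corner a e) c).1) → E.com z x

/-- A colour decided by the atoms of a window below `b` depends only on that window. -/
theorem dependsOn_of_atoms {b : E.B} (L : LocalEvents (E.below b) W) (a : Cell) {κ : Type}
    (X : κ → E.B) (hXX : ∀ c d, E.com (X c) (X d)) (hX : ∀ c d, c ≠ d → E.inf (X c) (X d) = E.bot)
    (hXb : ∀ c, E.com b (X c))
    (hat : ∀ w ∈ W, ∃ c, E.com (winEvent (E.below b) L.ev a w).1 (X c) ∧
      E.inf (winEvent (E.below b) L.ev a w).1 (X c) = (winEvent (E.below b) L.ev a w).1) (c : κ) :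
    DependsOn L.ev a (E.inf (X c) b) := by
  classical
  intro z hzb hz
  have hn : ∀ (e e' : Fin 2 × Fin 2) (c c' : α),
      E.com (L.ev (corner a e) c).1 (L.ev (corner a e') c').1 := fun e e' c c' => by
    refine L.near _ _ c c' ?_ ?_ <;> simp only [corner] <;> rw [abs_le] <;>
      rcases e with ⟨e1, e2⟩ <;> rcases e' with ⟨f1, f2⟩ <;> fin_cases e1 <;> fin_cases e2 <;>
      fin_cases f1 <;> fin_cases f2 <;> simp
  let S4 : E.Block := ⟨insert b (Set.range fun p : (Fin 2 × Fin 2) × α =>
      (L.ev (corner a p.1) p.2).1), by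
    rintro p (rfl | ⟨u, rfl⟩) q (rfl | ⟨v, rfl⟩)
    exacts [E.com_refl _, E.com_symm _ _ (L.ev _ _).2.1, (L.ev _ _).2.1, hn _ _ _ _]⟩
  let B : S4.Elem := S4.mem (x := b) (Or.inl rfl)
  let A : Fin 2 × Fin 2 → α → S4.Elem := fun e c => S4.mem (Or.inr ⟨(e, c), rfl⟩)
  let at4 : Win α → S4.Elem := fun w =>
    A (0, 0) (w (0, 0)) ⊓ A (1, 0) (w (1, 0)) ⊓ (A (0, 1) (w (0, 1)) ⊓ A (1, 1) (w (1, 1)))
  have hval : ∀ w, (at4 w).1 = (winEvent (E.below b) L.ev a w).1 := by
    intro w
    have h1 := hn (0, 0) (1, 0) (w (0, 0)) (w (1, 0))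
    have h2 := hn (0, 1) (1, 1) (w (0, 1)) (w (1, 1))
    have hc : E.com
        (E.inf (L.ev (corner a (0, 0)) (w (0, 0))).1 (L.ev (corner a (1, 0)) (w (1, 0))).1)
        (E.inf (L.ev (corner a (0, 1)) (w (0, 1))).1 (L.ev (corner a (1, 1)) (w (1, 1))).1) :=
      (A (0, 0) (w (0, 0)) ⊓ A (1, 0) (w (1, 0))).com
        (A (0, 1) (w (0, 1)) ⊓ A (1, 1) (w (1, 1)))
    show E.inf
        (E.inf (L.ev (corner a (0, 0)) (w (0, 0))).1 (L.ev (corner a (1, 0)) (w (1, 0))).1)
        (E.inf (L.ev (corner a (0, 1)) (w (0, 1))).1 (L.ev (corner a (1, 1)) (w (1, 1))).1) = _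
    simp only [winEvent, EventAlgebra.below, corner] at hc h1 h2 ⊢
    simp at hc h1 h2 ⊢
    simp [h1, h2, hc]
  have hB : B ≤ Finset.univ.sup at4 := by
    by_contra hne
    apply hne
    have h0 : B ⊓ (Finset.univ.sup at4)ᶜ = ⊥ := by
      obtain hem | ⟨⟨c₀⟩⟩ := (isEmpty_or_nonempty α)
      · have := le_sup_of_total (b := b) (S := S4) B rfl (A (0, 0)) (L.ev (corner a (0, 0))) (fun _ => rfl) (L.total _)
        rw [Finset.univ_eq_empty, Finset.sup_empty, le_bot_iff] at this
        rw [this, bot_inf_eq]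
      · refine eq_bot_of_patterns Finset.univ A _ (fun _ => c₀)
          (fun e _ => inf_le_left.trans (le_sup_of_total (b := b) B rfl (A e) (L.ev (corner a e)) (fun _ => rfl) (L.total _)))
          fun g => ?_
        rw [← disjoint_iff]
        refine Disjoint.mono inf_le_right ?_ disjoint_compl_left
        refine le_trans ?_ (Finset.le_sup (Finset.mem_univ g))
        refine _root_.le_inf (_root_.le_inf ?_ ?_) (_root_.le_inf ?_ ?_) <;>
          exact Finset.inf_le (Finset.mem_univ _)
    rwa [← disjoint_iff, disjoint_compl_right_iff] at h0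
  have hB' : Finset.univ.sup at4 = B := _root_.le_antisymm (Finset.sup_le fun w _ => by
    refine inf_le_left.trans (inf_le_left.trans ?_)
    exact (Block.Elem.le_iff _ _).2 (L.ev _ _).2.2) hB
  have key : ∀ w d, E.com (at4 w).1 (X d) ∧
      (E.inf (X d) (at4 w).1 = (at4 w).1 ∨ E.inf (X d) (at4 w).1 = E.bot) := by
    intro w d
    rw [hval w]
    by_cases hw : w ∈ W
    · obtain ⟨c', h1, h2⟩ := hat w hw
      by_cases hd : c' = d
      · subst hd
        exact ⟨h1, Or.inl (by rw [E.inf_comm _ _ (E.com_symm _ _ h1), h2])⟩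
      · have hcd := hX c' d hd
        have hc1 : E.com (winEvent (E.below b) L.ev a w).1 (X d) :=
          com_of_disjoint h1 h2 (hXX d c') (by rw [E.inf_comm _ _ (hXX d c'), hcd])
        refine ⟨hc1, Or.inr ?_⟩
        rw [E.inf_comm _ _ (E.com_symm _ _ hc1), ← h2,
          E.inf_assoc _ _ _ h1 hc1 (hXX c' d), hcd, E.inf_bot]
    · rw [L.illegal a w hw]
      exact ⟨EventAlgebra.bot_com _, Or.inr (E.inf_bot _)⟩
  let S : E.Block := ⟨insert b (insert (X c) (Set.range fun w => (at4 w).1)), by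
    rintro p (rfl | rfl | ⟨u, rfl⟩) q (rfl | rfl | ⟨v, rfl⟩)
    exacts [E.com_refl _, hXb c, B.com (at4 v), E.com_symm _ _ (hXb c), E.com_refl _,
      E.com_symm _ _ (key v c).1, (at4 u).com B, (key u c).1, (at4 u).com (at4 v)]⟩
  let B' : S.Elem := S.mem (x := b) (Or.inl rfl)
  let X' : S.Elem := S.mem (x := X c) (Or.inr (Or.inl rfl))
  let at' : Win α → S.Elem := fun w => S.mem (Or.inr (Or.inr ⟨w, rfl⟩))
  have hsup : Finset.univ.sup at' = B' := Subtype.ext
    ((sup_val_congr Finset.univ at' at4 fun _ _ => rfl).trans (congrArg Subtype.val hB'))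
  show E.com z (X' ⊓ B').1
  rw [← hsup, Finset.sup_inf_distrib_left]
  refine com_of_sup _ _ _ fun w _ => ?_
  show E.com z (E.inf (X c) (at4 w).1)
  rcases (key w c).2 with h | h <;> rw [h]
  · refine E.com_symm _ _ ((at4 w).2 z ?_)
    rintro s (rfl | ⟨p, rfl⟩)
    exacts [hzb, hz _ _]
  · exact E.com_bot z

namespace MacroSystem

variable (S : MacroSystem)

theorem ediv_sub_le {z x y R : ℤ} (hz : 8 ≤ z) (hR : 3 ≤ R) (h : x - y ≤ R) :
    x / z ≤ y / z + (R - 2) := by
  calc x / z ≤ (y + (R - 2) * z) / z := Int.ediv_le_ediv (by omega) (by nlinarith)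
    _ = y / z + (R - 2) := Int.add_mul_ediv_right _ _ (by omega)

/-- Local rules force all events to commute. -/
theorem all_com (hR : S.Rigid) : ∀ (R : ℕ) (n : ℕ) (E : EventAlgebra.{0})
    (L : LocalEvents E (S.W n)) (p q : Cell) (c d : S.C n),
    |p.1 - q.1| ≤ R → |p.2 - q.2| ≤ R → E.com (L.ev p c) (L.ev q d) := by
  intro R
  induction R using Nat.strong_induction_on with
  | _ R ih =>
  intro n E L p q c d h1 h2
  rcases Nat.lt_or_ge R 2 with hlt | hge
  · exact L.near p q c d (h1.trans (by exact_mod_cast Nat.le_of_lt_succ hlt))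
      (h2.trans (by exact_mod_cast Nat.le_of_lt_succ hlt))
  classical
  obtain ⟨o, hoo, hox, hot, hoev, hL⟩ := hR n E L
  have part : ∀ i j, E.com (E.inf (L.ev p c) (o i)) (E.inf (L.ev q d) (o j)) := by
    intro i j
    rcases ne_or_eq i j with hij | rfl
    · refine com_of_disjoint (a := o i) ?_ ?_ ?_ ?_
      · exact E.com_symm _ _ (E.com_inf _ _ _ (hoev i p c) (E.com_refl _)
          (E.com_symm _ _ (hoev i p c)))
      · rw [E.inf_assoc _ _ _ (E.com_symm _ _ (hoev i p c)) (E.com_symm _ _ (hoev i p c))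
          (E.com_refl _), E.inf_idem]
      · exact E.com_symm _ _ (E.com_inf _ _ _ (hoev i q d) (hoo i j)
          (E.com_symm _ _ (hoev j q d)))
      · rw [E.inf_assoc _ _ _ (E.com_symm _ _ (hoev j q d)) (E.com_symm _ _ (hoev i q d))
          (hoo j i), hox j i (Ne.symm hij), E.inf_bot]
    obtain ⟨L', hL'⟩ := hL i
    let Z : ℤ := S.Z n
    have hZ : (8 : ℤ) ≤ Z := Int.ofNat_le.2 (S.zoom_ge n)
    have dep : ∀ (r : Cell) (e : Fin 3 × Fin 3) (u : S.C n),
        DependsOn L'.ev (S.anchor n (i.cell + r + ((e.1.val : ℤ), (e.2.val : ℤ))))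
          (E.inf (L.ev r u) (o i)) := fun r e u =>
      dependsOn_of_atoms L' _ (L.ev r) (fun s t => L.near r r s t (by simp) (by simp))
        (L.exclusive r) (fun s => hoev i r s) (fun w hw => hL' r e w hw) u
    have hoX : ∀ r u, E.com (o i) (E.inf (L.ev r u) (o i)) := fun r u =>
      E.com_inf _ _ _ (hoev i r u) (E.com_refl _) (E.com_symm _ _ (hoev i r u))
    have finish : ∀ ep eq : Fin 3 × Fin 3,
        (∀ f g : Fin 2 × Fin 2,
          |(corner (S.anchor n (i.cell + p + ((ep.1.val : ℤ), (ep.2.val : ℤ)))) f).1 -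
            (corner (S.anchor n (i.cell + q + ((eq.1.val : ℤ), (eq.2.val : ℤ)))) g).1| ≤ (R - 1 : ℕ) ∧
          |(corner (S.anchor n (i.cell + p + ((ep.1.val : ℤ), (ep.2.val : ℤ)))) f).2 -
            (corner (S.anchor n (i.cell + q + ((eq.1.val : ℤ), (eq.2.val : ℤ)))) g).2| ≤ (R - 1 : ℕ)) →
        E.com (E.inf (L.ev p c) (o i)) (E.inf (L.ev q d) (o i)) := by
      intro ep eq hd
      refine E.com_symm _ _ (dep p ep c _ (E.com_symm _ _ (hoX q d)) fun f u => ?_)
      refine E.com_symm _ _ (dep q eq d _ (L'.ev _ u).2.1 fun g v => ?_)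
      exact ih (R - 1) (by omega) (n + 1) (E.below (o i)) L' _ _ u v (hd f g).1 (hd f g).2
    have hR1 : ((R - 1 : ℕ) : ℤ) = (R : ℤ) - 1 := by omega
    rw [abs_le] at h1 h2
    rcases eq_or_lt_of_le hge with h2R | h3R
    · have hcast : (R : ℤ) = 2 := by omega
      refine finish
        (⟨(min p.1 q.1 + 2 - p.1).toNat, by omega⟩, ⟨(min p.2 q.2 + 2 - p.2).toNat, by omega⟩)
        (⟨(min p.1 q.1 + 2 - q.1).toNat, by omega⟩, ⟨(min p.2 q.2 + 2 - q.2).toNat, by omega⟩)
        fun f g => ?_
      simp only [corner, anchor, Res.cell, Prod.fst_add, Prod.snd_add]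
      rw [Int.toNat_of_nonneg (by omega), Int.toNat_of_nonneg (by omega),
        Int.toNat_of_nonneg (by omega), Int.toNat_of_nonneg (by omega), hR1, abs_le, abs_le]
      have := f.1.isLt; have := f.2.isLt; have := g.1.isLt; have := g.2.isLt
      refine ⟨?_, ?_⟩
      · rw [show (i.1.val : ℤ) + p.1 + (min p.1 q.1 + 2 - p.1) =
          (i.1.val : ℤ) + q.1 + (min p.1 q.1 + 2 - q.1) by ring]
        omega
      · rw [show (i.2.val : ℤ) + p.2 + (min p.2 q.2 + 2 - p.2) =
          (i.2.val : ℤ) + q.2 + (min p.2 q.2 + 2 - q.2) by ring]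
        omega
    · refine finish (0, 0) (0, 0) fun f g => ?_
      simp only [corner, anchor, Res.cell, Prod.fst_add, Prod.snd_add, Fin.val_zero, Nat.cast_zero, add_zero]
      rw [hR1, abs_le, abs_le]
      have := f.1.isLt; have := f.2.isLt; have := g.1.isLt; have := g.2.isLt
      have a1 := ediv_sub_le (x := (i.1.val : ℤ) + p.1) (y := (i.1.val : ℤ) + q.1) hZ
        (R := R) (by omega) (by omega)
      have a2 := ediv_sub_le (x := (i.1.val : ℤ) + q.1) (y := (i.1.val : ℤ) + p.1) hZ
        (R := R) (by omega) (by omega)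
      have a3 := ediv_sub_le (x := (i.2.val : ℤ) + p.2) (y := (i.2.val : ℤ) + q.2) hZ
        (R := R) (by omega) (by omega)
      have a4 := ediv_sub_le (x := (i.2.val : ℤ) + q.2) (y := (i.2.val : ℤ) + p.2) hZ
        (R := R) (by omega) (by omega)
      simp only [Z] at a1 a2 a3 a4
      omega
  have whole : ∀ (z x : E.B), (∀ i, E.com (o i) x) → (∀ i, E.com z (E.inf x (o i))) →
      E.com z x := by
    intro z x hox' hz
    let Bl : E.Block := ⟨insert x (Set.range o), by
      rintro s (rfl | ⟨i, rfl⟩) t (rfl | ⟨j, rfl⟩)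
      exacts [E.com_refl _, E.com_symm _ _ (hox' j), hox' i, hoo i j]⟩
    let X : Bl.Elem := Bl.mem (x := x) (Or.inl rfl)
    let O : S.Res n → Bl.Elem := fun i => Bl.mem (Or.inr ⟨i, rfl⟩)
    show E.com z X.1
    rw [← inf_top_eq X, ← sup_eq_top O o (fun _ => rfl) hot, Finset.sup_inf_distrib_left]
    exact com_of_sup _ _ _ fun i _ => hz i
  refine whole _ _ (fun j => hoev j q d) fun j => ?_
  refine E.com_symm _ _ (whole _ _ (fun i => hoev i p c) fun i => ?_)
  exact E.com_symm _ _ (part i j)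

end MacroSystem

namespace LocalEvents

/-- The block of all events of a level, once they commute. -/
def block (L : LocalEvents E W) (h : ∀ p q c d, E.com (L.ev p c) (L.ev q d)) : E.Block :=
  ⟨Set.range fun u : Cell × α => L.ev u.1 u.2, by
    rintro _ ⟨u, rfl⟩ _ ⟨v, rfl⟩; exact h _ _ _ _⟩

variable (L : LocalEvents E W) (h : ∀ p q c d, E.com (L.ev p c) (L.ev q d))

/-- An event inside the block of all events. -/
def elem (p : Cell) (c : α) : (L.block h).Elem := Block.mem _ (x := L.ev p c) ⟨(p, c), rfl⟩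

theorem elem_exclusive (p : Cell) {c d : α} (hcd : c ≠ d) : L.elem h p c ⊓ L.elem h p d = ⊥ :=
  Subtype.ext (L.exclusive p c d hcd)

theorem sup_elem (p : Cell) : Finset.univ.sup (L.elem h p) = ⊤ :=
  sup_eq_top _ (L.ev p) (fun _ => rfl) (L.total p)

/-- A pattern that occurs in no legal tiling has the zero event (compactness). -/
theorem pattern_eq_bot (F : Finset Cell) (f : Cell → α)
    (hf : ∀ t, Legal W t → ∃ p ∈ F, t p ≠ f p) :
    F.inf (fun p => L.elem h p (f p)) = ⊥ := by
  classical
  by_contra hne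
  let _ : TopologicalSpace α := ⊥
  have : DiscreteTopology α := ⟨rfl⟩
  let K : ℕ → Set (Cell → α) := fun N => {t | (∀ p ∈ F, t p = f p) ∧
    ∀ v : Cell, v ∈ Finset.Icc (-(N : ℤ)) N ×ˢ Finset.Icc (-(N : ℤ)) N → windowAt t v ∈ W}
  have hK : ∀ N, (K N).Nonempty := by
    intro N
    by_contra hempty
    apply hne
    let R : Finset ℤ := Finset.Icc (-(N : ℤ)) (N + 1)
    refine eq_bot_of_patterns (F ∪ R ×ˢ R) (L.elem h) _ f
      (fun p _ => by rw [sup_elem]; exact _root_.le_top) fun g => ?_
    by_cases hg : ∀ p ∈ F, g p = f p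
    · obtain ⟨v, hv, hvw⟩ : ∃ v ∈ Finset.Icc (-(N : ℤ)) N ×ˢ Finset.Icc (-(N : ℤ)) N,
          windowAt g v ∉ W := by
        by_contra hall
        push Not at hall
        exact hempty ⟨g, hg, hall⟩
      simp only [Finset.mem_product, Finset.mem_Icc] at hv
      have hat : L.elem h v (g v) ⊓ L.elem h (v.1 + 1, v.2) (g (v.1 + 1, v.2)) ⊓
          (L.elem h (v.1, v.2 + 1) (g (v.1, v.2 + 1)) ⊓
            L.elem h (v.1 + 1, v.2 + 1) (g (v.1 + 1, v.2 + 1))) = ⊥ := by
        refine Subtype.ext ?_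
        have := L.illegal v _ hvw
        simp only [winEvent, windowAt] at this
        simp at this
        exact this
      rw [← le_bot_iff, ← hat]
      refine _root_.le_trans inf_le_right
        (_root_.le_inf (_root_.le_inf ?_ ?_) (_root_.le_inf ?_ ?_)) <;>
        refine Finset.inf_le (Finset.mem_union_right _ ?_) <;>
        simp only [R, Finset.mem_product, Finset.mem_Icc] <;> omega
    · push Not at hg
      obtain ⟨p, hp, hpg⟩ := hg
      rw [← le_bot_iff, ← L.elem_exclusive h p (Ne.symm hpg)]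
      exact _root_.le_inf (inf_le_left.trans (Finset.inf_le hp))
        (inf_le_right.trans (Finset.inf_le (Finset.mem_union_left _ hp)))
  have hcl : ∀ N, IsClosed (K N) := by
    intro N
    simp only [K, Set.ofPred_and, Set.ofPred_forall]
    refine IsClosed.inter ?_ ?_
    · exact isClosed_biInter fun p _ => isClosed_eq (continuous_apply p) continuous_const
    · exact isClosed_iInter fun v => isClosed_iInter fun _ =>
        (isClosed_discrete W).preimage (f := fun t : Cell → α => windowAt t v)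
          (continuous_pi fun d => continuous_apply _)
  obtain ⟨t, ht⟩ := IsCompact.nonempty_iInter_of_sequence_nonempty_isCompact_isClosed K
    (fun N t ht => ⟨ht.1, fun v hv => ht.2 v (by
      simp only [Finset.mem_product, Finset.mem_Icc] at hv ⊢; omega)⟩)
    hK ((hcl 0).isCompact) hcl
  rw [Set.mem_iInter] at ht
  obtain ⟨p, hp, hpf⟩ := hf t fun v => (ht (v.1.natAbs + v.2.natAbs)).2 v (by
    simp only [Finset.mem_product, Finset.mem_Icc]; omega)
  exact hpf ((ht 0).1 p hp)

end LocalEvents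

end Vale.Agent.P196.Sft
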