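import Vale.Agent.P192.FP

/-!
# P196, C8: generic group layer of the finite presentation half

* a quotient of a finitely presented group by a finitely generated (for instance cyclic) kernel
  is finitely presented;
* a normal subgroup with quotient generated by finitely many commuting involutions has finite
  index, so it is finitely presented when the big group is.

Finite-index subgroups themselves are `Vale.Agent.P192.finiteIndexFP`.
-/

namespace Vale.Agent.P196.Fp

open Subgroup

/-- A finite-index subgroup of a finitely presented group is finitely presented. -/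
theorem fp_of_finiteIndex {F : Type*} [Group F] [Group.IsFinitelyPresented F] (A : Subgroup F)
    [A.FiniteIndex] : Group.IsFinitelyPresented A :=
  P192.finiteIndexFP A

/-- A surjection from a finitely presented group whose kernel is generated as a normal subgroup
by a finite set gives a finitely presented group. -/
theorem fp_of_ker_eq_normalClosure {P F : Type*} [Group P] [Group F]
    [Group.IsFinitelyPresented P] (f : P →* F) (hf : Function.Surjective f) (R : Set P)
    (hR : R.Finite) (h : f.ker = normalClosure R) : Group.IsFinitelyPresented F :=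
  Group.IsFinitelyPresented.of_surjective f hf ⟨R, hR, h.symm⟩

/-- A group that embeds in the integers is cyclic. -/
theorem isCyclic_of_embeds {K : Type*} [Group K] (χ : K →* Multiplicative ℤ)
    (hχ : Function.Injective χ) : IsCyclic K :=
  isCyclic_of_injective χ hχ

/-- If `θ : S →* P` is onto and the kernel of `f ∘ θ` is cyclic, then `f` presents its image:
the kernel of `f` is the normal closure of one element. -/
theorem fp_of_cyclic_ker_comp {S P F : Type*} [Group S] [Group P] [Group F]
    [Group.IsFinitelyPresented P] (θ : S →* P) (hθ : Function.Surjective θ) (f : P →* F)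
    (hf : Function.Surjective f) [IsCyclic (f.comp θ).ker] : Group.IsFinitelyPresented F := by
  obtain ⟨k, hk⟩ := IsCyclic.exists_generator (α := (f.comp θ).ker)
  refine fp_of_ker_eq_normalClosure f hf {θ (k : S)} (Set.finite_singleton _) ?_
  refine le_antisymm ?_ (normalClosure_le_normal ?_)
  · intro x hx
    obtain ⟨s, rfl⟩ := hθ x
    obtain ⟨m, hm⟩ := mem_zpowers_iff.mp (hk ⟨s, hx⟩)
    have hs : s = (k : S) ^ m := by
      have := congrArg Subtype.val hm
      simpa using this.symm
    rw [hs, map_zpow]
    exact zpow_mem (subset_normalClosure (Set.mem_singleton (θ (k : S)))) m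
  · rw [Set.singleton_subset_iff]
    exact (MonoidHom.mem_ker (f := f.comp θ)).mp k.2

/-- The form used with the flux: the kernel of `f ∘ θ` embeds in the integers. -/
theorem fp_of_ker_comp_embeds {S P F : Type*} [Group S] [Group P] [Group F]
    [Group.IsFinitelyPresented P] (θ : S →* P) (hθ : Function.Surjective θ) (f : P →* F)
    (hf : Function.Surjective f) (χ : (f.comp θ).ker →* Multiplicative ℤ)
    (hχ : Function.Injective χ) : Group.IsFinitelyPresented F :=
  have := isCyclic_of_embeds χ hχ
  fp_of_cyclic_ker_comp θ hθ f hf

/-- A group generated by finitely many pairwise commuting involutions is finite. -/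
theorem finite_of_involutions {Q : Type*} [Group Q] (S : Set Q) (hS : S.Finite)
    (hgen : closure S = ⊤) (hsq : ∀ x ∈ S, x * x = 1)
    (hcomm : ∀ x ∈ S, ∀ y ∈ S, x * y = y * x) : Finite Q := by
  classical
  have hc : ∀ x y : Q, x * y = y * x := by
    intro x y
    have hx : x ∈ centralizer (closure S : Set Q) := by
      rw [centralizer_closure]
      have hx : x ∈ closure S := hgen ▸ mem_top x
      refine (closure_le _).mpr ?_ hx
      intro s hs
      exact mem_centralizer_iff.mpr fun t ht => hcomm t ht s hs
    exact (mem_centralizer_iff.mp hx y (hgen ▸ mem_top y)).symm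
  let _ : CommGroup Q := { (inferInstance : Group Q) with mul_comm := hc }
  have : Group.FG Q := Group.fg_iff.mpr ⟨S, hgen, hS⟩
  refine CommGroup.finite_of_fg_isMulTorsion (G := Q) ?_
  intro x
  have h2 : ∀ x : Q, x * x = 1 := by
    intro x
    have hx : x ∈ closure S := hgen ▸ mem_top x
    induction hx using closure_induction with
    | mem s hs => exact hsq s hs
    | one => simp
    | mul a b _ _ ha hb => rw [mul_mul_mul_comm, ha, hb, one_mul]
    | inv a _ ha => rw [← mul_inv_rev, ha, inv_one]
  exact isOfFinOrder_iff_pow_eq_one.mpr ⟨2, two_pos, by rw [pow_two, h2]⟩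

/-- A normal subgroup modulo which finitely many generators are commuting involutions has finite
index. -/
theorem finiteIndex_of_involutions {F : Type*} [Group F] (A : Subgroup F) [A.Normal] (S : Set F)
    (hS : S.Finite) (hgen : closure S = ⊤) (hsq : ∀ x ∈ S, x * x ∈ A)
    (hcomm : ∀ x ∈ S, ∀ y ∈ S, x * y * x⁻¹ * y⁻¹ ∈ A) : A.FiniteIndex := by
  let q := QuotientGroup.mk' A
  have h1 : ∀ {x}, x ∈ A → q x = 1 := fun {x} h => (QuotientGroup.eq_one_iff x).mpr h
  have : Finite (F ⧸ A) := by
    refine finite_of_involutions (q '' S) (hS.image q) ?_ ?_ ?_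
    · rw [← MonoidHom.map_closure, hgen, ← MonoidHom.range_eq_map,
        MonoidHom.range_eq_top.mpr (QuotientGroup.mk'_surjective A)]
    · rintro _ ⟨x, hx, rfl⟩
      rw [← map_mul, h1 (hsq x hx)]
    · rintro _ ⟨x, hx, rfl⟩ _ ⟨y, hy, rfl⟩
      have := h1 (hcomm x hx y hy)
      simp only [map_mul, map_inv, mul_inv_eq_one] at this
      exact mul_inv_eq_iff_eq_mul.mp this
  exact finiteIndex_of_finite_quotient

/-- C8 in the form used for `A ≤ F`. -/
theorem fp_of_involutions {F : Type*} [Group F] [Group.IsFinitelyPresented F] (A : Subgroup F)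
    [A.Normal] (S : Set F) (hS : S.Finite) (hgen : closure S = ⊤) (hsq : ∀ x ∈ S, x * x ∈ A)
    (hcomm : ∀ x ∈ S, ∀ y ∈ S, x * y * x⁻¹ * y⁻¹ ∈ A) : Group.IsFinitelyPresented A :=
  have := finiteIndex_of_involutions A S hS hgen hsq hcomm
  fp_of_finiteIndex A

end Vale.Agent.P196.Fp
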