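import Vale.Agent.P196.Fp.Charts
import Vale.Agent.P196.Fp.GroupTheory
import Vale.Agent.P196.Simple.Basic

/-!
# P196: the alternating full group has finite index in the range of the moves

A move is an element of the alternating full group times the exchange of two fresh indices over
the same base, so the alternating full group is normal with quotient generated by finitely many
commuting involutions.
-/

namespace Vale.Agent.P196.Fp

open Equiv Simple TopologicalSpace
open Vale.Agent.P196.Flux (Cell)

variable {X : Type} [TopologicalSpace X] [AddAction Cell X] {m : ℕ} {G : Type*} [Group G]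
  (M : Moves X m G)

namespace Moves

/-- The chart with slots of four different indices. -/
def quadChart (a b g h : Fin m) (inj : Function.Injective ![a, b, g, h]) (p q : Cell)
    (U : Clopens X) : Chart Cell X m (Fin 4) where
  base := U
  clopen := U.isClopen
  slot i := (![p, q, 0, 0] i, ![a, b, g, h] i)
  disj _ _ _ _ _ _ e _ := inj e

variable (hm : 18 ≤ m)
include hm

theorem altGroup_le_range : altGroup Cell X m ≤ M.toPerm.range := by
  refine (Subgroup.closure_le _).2 ?_
  rintro _ ⟨c, rfl⟩
  exact ⟨M.liftChart hm c (finRotate 3), M.toPerm_liftChart hm c _⟩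

variable [ContinuousConstVAdd Cell X]

omit hm in
/-- A move times the exchange of two further indices is even. -/
theorem mul_aux_mem {a b g h : Fin m} (inj : Function.Injective ![a, b, g, h]) (p q : Cell)
    (U : Clopens X) :
    M.toPerm (M.move a b p q U) * M.toPerm (M.move g h 0 0 U) ∈ altGroup Cell X m := by
  have hab : a ≠ b := fun e => absurd (inj (a₁ := 0) (a₂ := 1) e) (by decide)
  have hgh : g ≠ h := fun e => absurd (inj (a₁ := 2) (a₂ := 3) e) (by decide)
  let c := quadChart a b g h inj p q U
  have e1 : M.toPerm (M.move a b p q U) = c.perm (swap 0 1) :=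
    pairChart_perm M c (a := (0 : Fin 4)) (b := 1) hab
  have e2 : M.toPerm (M.move g h 0 0 U) = c.perm (swap 2 3) :=
    pairChart_perm M c (a := (2 : Fin 4)) (b := 3) hgh
  rw [e1, e2, ← map_mul]
  exact c.perm_alternating_mem (by rw [Perm.mem_alternatingGroup]; decide)

/-- Moves normalise the alternating full group. -/
theorem conj_move_mem {a b : Fin m} (hab : a ≠ b) (p q : Cell) (U : Clopens X)
    {x : Perm (X × Fin m)} (hx : x ∈ altGroup Cell X m) :
    M.toPerm (M.move a b p q U) * x * (M.toPerm (M.move a b p q U))⁻¹ ∈ altGroup Cell X m := by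
  set t := M.toPerm (M.move a b p q U) with ht
  induction hx using Subgroup.closure_induction with
  | mem x hx =>
    obtain ⟨c, rfl⟩ := hx
    obtain ⟨g, hg⟩ := exists_fresh [a, b, (c.slot 0).2, (c.slot 1).2, (c.slot 2).2]
      (by simp; omega)
    obtain ⟨h, hh⟩ := exists_fresh [a, b, (c.slot 0).2, (c.slot 1).2, (c.slot 2).2, g]
      (by simp; omega)
    simp only [List.mem_cons, List.not_mem_nil, or_false, not_or] at hg hh
    obtain ⟨ga, gb, g0, g1, g2⟩ := hg
    obtain ⟨ha, hb, h0, h1, h2, hgh⟩ := hh
    have inj : Function.Injective ![a, b, g, h] := by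
      intro i j e
      fin_cases i <;> fin_cases j <;> simp at e ⊢ <;>
        first
          | exact hab e | exact hab e.symm | exact ga e | exact ga e.symm | exact gb e
          | exact gb e.symm | exact ha e | exact ha e.symm | exact hb e | exact hb e.symm
          | exact hgh e | exact hgh e.symm
    set T := M.toPerm (M.move g h 0 0 U) with hT
    have hsq : T * T = 1 := by rw [hT, ← map_mul, M.move_sq _ _ (Ne.symm hgh), map_one]
    have hcomm : Commute T (c.perm (finRotate 3)) := by
      have hT2 : T = (pairChart g h (Ne.symm hgh) 0 0 U).perm (swap 0 1) :=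
        M.toPerm_move _ _ (Ne.symm hgh) 0 0 U
      rw [hT2, ← M.toPerm_liftChart hm (pairChart g h (Ne.symm hgh) 0 0 U),
        ← M.toPerm_liftChart hm c]
      refine (M.commute_liftChart hm _ c (fun i j => apart_of_ne ?_) _ _).map M.toPerm
      fin_cases i <;> fin_cases j <;> simp [pairChart, g0, g1, g2, h0, h1, h2]
    have e : t * c.perm (finRotate 3) * t⁻¹ = t * T * c.perm (finRotate 3) * (t * T)⁻¹ := by
      rw [mul_assoc t T, hcomm.eq]
      simp [mul_assoc]
    rw [e]
    have hmem := mul_aux_mem M inj p q U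
    exact mul_mem (mul_mem hmem (Subgroup.subset_closure ⟨c, rfl⟩)) (inv_mem hmem)
  | one => simp
  | mul x y _ _ hx hy =>
    have := mul_mem hx hy
    simpa [mul_assoc] using this
  | inv x _ hx =>
    have := inv_mem hx
    simpa [mul_assoc] using this

theorem altGroup_normal : ((altGroup Cell X m).subgroupOf M.toPerm.range).Normal := by
  refine ⟨fun n hn r => ?_⟩
  obtain ⟨_, g, rfl⟩ := r
  rw [Subgroup.mem_subgroupOf] at hn ⊢
  simp only [Subgroup.coe_mul, Subgroup.coe_inv]
  revert n
  have hg : g ∈ Subgroup.closure {g | ∃ a b p q U, a ≠ b ∧ g = M.move a b p q U} := by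
    rw [M.generated]; trivial
  induction hg using Subgroup.closure_induction'' with
  | mem x hx =>
    obtain ⟨a, b, p, q, U, hab, rfl⟩ := hx
    exact fun n hn => conj_move_mem M hm hab p q U hn
  | inv_mem x hx =>
    obtain ⟨a, b, p, q, U, hab, rfl⟩ := hx
    rw [inv_eq_of_mul_eq_one_right (M.move_sq _ _ hab p q U)]
    exact fun n hn => conj_move_mem M hm hab p q U hn
  | one => simp
  | mul x y _ _ hx hy =>
    intro n hn
    have h2 := hx ⟨M.toPerm y * n * (M.toPerm y)⁻¹,
      mul_mem (mul_mem ⟨y, rfl⟩ n.2) (inv_mem ⟨y, rfl⟩)⟩ (hy n hn)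
    simpa [map_mul, mul_assoc] using h2

/-- The alternating full group is finitely presented if the range of finitely generated moves
is. -/
theorem fp_altGroup
    (hfg : ∃ S : Set G, S.Finite ∧
      (∀ s ∈ S, ∃ a b p q U, a ≠ b ∧ s = M.move a b p q U) ∧ Subgroup.closure S = ⊤)
    [Group.IsFinitelyPresented M.toPerm.range] :
    Group.IsFinitelyPresented (altGroup Cell X m) := by
  obtain ⟨S, hS, hmove, hgen⟩ := hfg
  have := altGroup_normal M hm
  have hA := fp_of_involutions ((altGroup Cell X m).subgroupOf M.toPerm.range)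
    (M.toPerm.rangeRestrict '' S) (hS.image _) ?_ ?_ ?_
  · exact Group.IsFinitelyPresented.equiv
      (Subgroup.subgroupOfEquivOfLe (altGroup_le_range M hm))
  · rw [← MonoidHom.map_closure, hgen]
    exact Subgroup.map_top_of_surjective _ M.toPerm.rangeRestrict_surjective
  · rintro _ ⟨x, hx, rfl⟩
    obtain ⟨a, b, p, q, U, hab, rfl⟩ := hmove x hx
    rw [← map_mul, M.move_sq _ _ hab, map_one]
    exact one_mem _
  · rintro _ ⟨x, hx, rfl⟩ _ ⟨y, hy, rfl⟩
    obtain ⟨a, b, p, q, U, hab, rfl⟩ := hmove x hx
    obtain ⟨a', b', p', q', U', hab', rfl⟩ := hmove y hy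
    rw [Subgroup.mem_subgroupOf]
    simp only [Subgroup.coe_mul, Subgroup.coe_inv, MonoidHom.coe_rangeRestrict]
    obtain ⟨g, hg⟩ := exists_fresh [a, b, a', b'] (by simp; omega)
    obtain ⟨h, hh⟩ := exists_fresh [a, b, a', b', g] (by simp; omega)
    simp only [List.mem_cons, List.not_mem_nil, or_false, not_or] at hg hh
    obtain ⟨ga, gb, ga', gb'⟩ := hg
    obtain ⟨ha, hb, ha', hb', hgh⟩ := hh
    have inj : Function.Injective ![a, b, g, h] := by
      intro i j e
      fin_cases i <;> fin_cases j <;> simp at e ⊢ <;>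
        first
          | exact hab e | exact hab e.symm | exact ga e | exact ga e.symm | exact gb e
          | exact gb e.symm | exact ha e | exact ha e.symm | exact hb e | exact hb e.symm
          | exact hgh e | exact hgh e.symm
    have hc : Commute (M.toPerm (M.move g h 0 0 U)) (M.toPerm (M.move a' b' p' q' U')) :=
      (M.mv_comm (x := ((0 : Cell), g)) (y := ((0 : Cell), h)) (z := (p', a')) (t := (q', b'))
        (Ne.symm hgh) hab' (apart_of_ne ga') (apart_of_ne gb') (apart_of_ne ha')
        (apart_of_ne hb')).map M.toPerm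
    set t := M.toPerm (M.move a b p q U) with ht
    set t' := M.toPerm (M.move a' b' p' q' U') with ht'
    set T := M.toPerm (M.move g h 0 0 U) with hT
    have hTsq : T * T = 1 := by rw [hT, ← map_mul, M.move_sq _ _ (Ne.symm hgh), map_one]
    have hTi : T⁻¹ = T := inv_eq_of_mul_eq_one_right hTsq
    have hmem : t * T ∈ altGroup Cell X m := mul_aux_mem M inj p q U
    have e : t * t' * t⁻¹ * t'⁻¹ = (t * T) * (t' * (t * T)⁻¹ * t'⁻¹) := by
      calc t * t' * t⁻¹ * t'⁻¹ = t * (T * T) * t' * t⁻¹ * t'⁻¹ := by rw [hTsq, mul_one]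
        _ = t * T * (T * t') * t⁻¹ * t'⁻¹ := by simp only [mul_assoc]
        _ = _ := by rw [hc.eq, mul_inv_rev, hTi]; simp only [mul_assoc]
    rw [e]
    exact mul_mem hmem (conj_move_mem M hm hab' p' q' U' (inv_mem hmem))

end Moves

end Vale.Agent.P196.Fp
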