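import Vale.Agent.P196.Fp.Bool
import Vale.Agent.P196.Sft.Basic

/-!
The one-step rigidity input of finite presentation, stated with event algebras.
-/

namespace Vale.Agent.P196.Sft

open Vale.Agent.P196.Fp

/-- The meet of the four events of a window at `a`. -/
def winEvent (E : EventAlgebra) {α : Type} (ev : Cell → α → E.B) (a : Cell) (w : Win α) : E.B :=
  E.inf (E.inf (ev a (w (0, 0))) (ev (a.1 + 1, a.2) (w (1, 0))))
    (E.inf (ev (a.1, a.2 + 1) (w (0, 1))) (ev (a.1 + 1, a.2 + 1) (w (1, 1))))

/-- Cell-colour events obeying the window rules of one level inside an event algebra. -/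
structure LocalEvents (E : EventAlgebra) {α : Type} [Fintype α] (W : Set (Win α)) where
  ev : Cell → α → E.B
  near : ∀ p q c d, |p.1 - q.1| ≤ 1 → |p.2 - q.2| ≤ 1 → E.com (ev p c) (ev q d)
  exclusive : ∀ p c d, c ≠ d → E.inf (ev p c) (ev p d) = E.bot
  /-- the colours at a cell exhaust it -/
  total : ∀ p, (Finset.univ.toList.map fun c => E.compl (ev p c)).foldr E.inf E.top = E.bot
  illegal : ∀ p w, w ∉ W → winEvent E ev p w = E.bot

namespace MacroSystem

variable (S : MacroSystem)

/-- The lower left corner of the window from which the parent of the cell `v` is drawn. -/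
def anchor (n : ℕ) (v : Cell) : Cell := (v.1 / (S.Z n : ℤ) - 1, v.2 / (S.Z n : ℤ) - 1)

/-- E6, one step: the window rules of level `n` give offset events commuting with everything and,
below each offset, events of level `n + 1` obeying the window rules, such that a window of parents
at the anchor of the cell `q + d`, `d ∈ [0, 2] ^ 2`, lies below one colour event of the cell `q`.
(For `d = 0` that colour is drawn, otherwise the last two columns and rows of a parent are
functions of the parents after them.) -/
def Rigid : Prop :=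
  ∀ (n : ℕ) (E : EventAlgebra.{0}) (L : LocalEvents E (S.W n)), ∃ o : S.Res n → E.B,
    (∀ i j, E.com (o i) (o j)) ∧ (∀ i j, i ≠ j → E.inf (o i) (o j) = E.bot) ∧
    (Finset.univ.toList.map fun i => E.compl (o i)).foldr E.inf E.top = E.bot ∧
    (∀ i p c, E.com (o i) (L.ev p c)) ∧
    ∀ i : S.Res n, ∃ L' : LocalEvents (E.below (o i)) (S.W (n + 1)),
      ∀ (q : Cell) (d : Fin 3 × Fin 3), ∀ w ∈ S.W (n + 1), ∃ c : S.C n,
        E.com (winEvent (E.below (o i)) L'.ev
            (S.anchor n (i.cell + q + ((d.1.val : ℤ), (d.2.val : ℤ)))) w).1 (L.ev q c) ∧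
          E.inf (winEvent (E.below (o i)) L'.ev
            (S.anchor n (i.cell + q + ((d.1.val : ℤ), (d.2.val : ℤ)))) w).1 (L.ev q c) =
          (winEvent (E.below (o i)) L'.ev
            (S.anchor n (i.cell + q + ((d.1.val : ℤ), (d.2.val : ℤ)))) w).1

end MacroSystem

end Vale.Agent.P196.Sft
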