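import Vale.Agent.P196.Fp.Gens
import Vale.Agent.P196.Fp.Rigid

/-!
# P196: base components, their translates, and the events of level zero
-/

namespace Vale.Agent.P196.Pres

open Equiv Simple Sft Fp TopologicalSpace

variable {S : MacroSystem} {m r : ℕ}

attribute [local instance] MacroSystem.fin

/-! ### Small sets -/

theorem small_bot : Small r (⊥ : Clopens (S.Conf 0)) := ⟨∅, Clopens.ext rfl⟩

theorem Small.compl {U : Clopens (S.Conf 0)} (h : Small r U) : Small r Uᶜ := by
  obtain ⟨s, rfl⟩ := h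
  exact ⟨sᶜ, Clopens.ext rfl⟩

theorem Small.inf {U V : Clopens (S.Conf 0)} (h : Small r U) (h' : Small r V) :
    Small r (U ⊓ V) := by
  obtain ⟨s, rfl⟩ := h
  obtain ⟨t, rfl⟩ := h'
  exact ⟨s ∩ t, Clopens.ext rfl⟩

theorem Small.sdiff {U V : Clopens (S.Conf 0)} (h : Small r U) (h' : Small r V) :
    Small r (U \ V) := by
  rw [sdiff_eq]; exact h.inf h'.compl

theorem permAt_commute {U V : Clopens (S.Conf 0)} (h : Disjoint U V) (π ρ : Perm (Fin m)) :
    permAt S m U π * permAt S m V ρ = permAt S m V ρ * permAt S m U π := by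
  classical
  refine Subtype.ext (Equiv.ext fun ⟨t, c⟩ => ?_)
  have hd : ¬ (t ∈ U ∧ t ∈ V) := fun ⟨h1, h2⟩ => by
    have h3 := disjoint_iff.1 h
    exact (show t ∉ U ⊓ V by rw [h3]; exact not_false) ⟨h1, h2⟩
  simp only [Subgroup.coe_mul, Perm.mul_apply, permAt_apply]
  by_cases hu : t ∈ U
  · have hv : t ∉ V := fun hv => hd ⟨hu, hv⟩
    simp [hv, hu, permAt_apply]
  · by_cases hv : t ∈ V <;> simp [hv, hu, permAt_apply]

/-- The lifted index permutations over a small set. -/
noncomputable def baseHom (U : Clopens (S.Conf 0)) (hU : Small r U) :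
    Perm (Fin m) →* P₁ S m r where
  toFun π := el S m r (permAt S m U π)
  map_one' := by rw [map_one, el_one]
  map_mul' π ρ := by
    rw [map_mul]
    exact el_mul (ball_permAt hU π) (ball_permAt hU ρ) (by simp [cap]; omega)

variable (hm : 18 ≤ m)

/-- The component of a small set. -/
noncomputable def base (U : Clopens (S.Conf 0)) (hU : Small r U) :
    Comp (ctx S m r hm) where
  fn σ := baseHom U hU σ.1
  conj σ τ := by simp [act_val]
  equiv π σ := el_conj (ball_permAt small_top π) (ball_permAt hU σ.1) (by simp [cap]; omega)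
    (permAt_top_conj U π σ.1)
  inv σ := by simp [triInv_val]
  cube σ := by
    rw [← map_pow]
    have h : σ.1 ^ 3 = 1 := by rw [← σ.2.orderOf]; exact pow_orderOf_eq_one σ.1
    rw [h, map_one]
  mem σ V hs _ := el_mem_sub (ball_permAt hU σ.1) (by omega) (supported_permAt U hs)

theorem base_congr {U V : Clopens (S.Conf 0)} (h : U = V) (hU : Small r U) (hV : Small r V) :
    base hm U hU = base hm V hV := by subst h; rfl

theorem base_top : base hm (⊤ : Clopens (S.Conf 0)) small_top = Fp.top (ctx S m r hm) := rfl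

theorem base_bot : base hm (⊥ : Clopens (S.Conf 0)) small_bot = Fp.bot (ctx S m r hm) :=
  Comp.ext fun σ => by
    show el S m r (permAt S m ⊥ σ.1) = 1
    rw [permAt_bot, el_one]

theorem base_orth {U V : Clopens (S.Conf 0)} (h : Disjoint U V) (hU : Small r U)
    (hV : Small r V) : Orth (base hm U hU) (base hm V hV) := fun σ τ =>
  el_commute (ball_permAt hU σ.1) (ball_permAt hV τ.1) (by simp [cap]; omega)
    (permAt_commute h σ.1 τ.1)

theorem base_split {U V : Clopens (S.Conf 0)} (h : Disjoint U V) (hU : Small r U)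
    (hV : Small r V) (hUV : Small r (U ⊔ V)) (π : Perm (Fin m)) :
    baseHom (U ⊔ V) hUV π = baseHom U hU π * baseHom V hV π := by
  show el S m r _ = el S m r _ * el S m r _
  rw [permAt_sup h, el_mul (ball_permAt hU π) (ball_permAt hV π) (by simp [cap]; omega)]

theorem base_le {U V : Clopens (S.Conf 0)} (h : V ≤ U) (hU : Small r U) (hV : Small r V) :
    Le (base hm V hV) (base hm U hU) := by
  intro κ ρ
  have e : U = V ⊔ U \ V := (sup_sdiff_cancel_right h).symm
  have hs : Small r (V ⊔ U \ V) := e ▸ hU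
  rw [base_congr hm e hU hs]
  show baseHom (V ⊔ U \ V) hs κ.1 * baseHom V hV ρ.1 * (baseHom (V ⊔ U \ V) hs κ.1)⁻¹ = _
  rw [base_split disjoint_sdiff_self_right hV (hU.sdiff hV) hs]
  have c : Commute (baseHom (U \ V) (hU.sdiff hV) κ.1) (baseHom V hV ρ.1) :=
    base_orth hm disjoint_sdiff_self_left (hU.sdiff hV) hV κ ρ
  calc _ = baseHom V hV κ.1 * (baseHom (U \ V) (hU.sdiff hV) κ.1 * baseHom V hV ρ.1) *
        (baseHom (U \ V) (hU.sdiff hV) κ.1)⁻¹ * (baseHom V hV κ.1)⁻¹ := by group
    _ = baseHom V hV κ.1 * baseHom V hV ρ.1 * (baseHom V hV κ.1)⁻¹ := by rw [c.eq]; group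
    _ = _ := (base hm V hV).conj κ ρ

theorem base_diff {U V : Clopens (S.Conf 0)} (h : V ≤ U) (hU : Small r U) (hV : Small r V) :
    diff (base hm U hU) (base hm V hV) (base_le hm h hU hV) = base hm (U \ V) (hU.sdiff hV) := by
  refine Comp.ext fun σ => ?_
  have e : U = U \ V ⊔ V := (sdiff_sup_cancel h).symm
  show baseHom U hU σ.1 * (baseHom V hV σ.1)⁻¹ = baseHom (U \ V) (hU.sdiff hV) σ.1
  rw [show baseHom U hU σ.1 = baseHom (U \ V ⊔ V) (e ▸ hU) σ.1 from
    congrArg (fun W => el S m r (permAt S m W σ.1)) e,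
    base_split disjoint_sdiff_self_left (hU.sdiff hV) hV (e ▸ hU)]
  group

theorem base_compl {U : Clopens (S.Conf 0)} (hU : Small r U) :
    Fp.compl (base hm U hU) = base hm Uᶜ hU.compl := by
  have := base_diff hm (le_top : U ≤ ⊤) small_top hU
  rw [base_congr hm top_sdiff (small_top.sdiff hU) hU.compl] at this
  exact this

theorem base_inf {U V : Clopens (S.Conf 0)} (hU : Small r U) (hV : Small r V) :
    Com (base hm U hU) (base hm V hV) ∧
      Fp.inf (base hm U hU) (base hm V hV) = base hm (U ⊓ V) (hU.inf hV) := by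
  have h1 := base_le hm (inf_le_left : U ⊓ V ≤ U) hU (hU.inf hV)
  have h2 := base_le hm (inf_le_right : U ⊓ V ≤ V) hV (hU.inf hV)
  have o : Orth (diff _ _ h1) (diff _ _ h2) := by
    rw [base_diff hm inf_le_left hU (hU.inf hV), base_diff hm inf_le_right hV (hU.inf hV)]
    refine base_orth hm ?_ _ _
    rw [sdiff_inf_self_left, sdiff_inf_self_right]
    exact disjoint_sdiff_sdiff
  exact ⟨⟨_, h1, h2, o⟩, inf_eq h1 h2 o⟩

/-! ### Translation of components -/

/-- `u` on `s`, compensated at `c`. -/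
def spread' (s : Finset (Fin m)) (c : Fin m) (u : Cell) : Fin m → Cell :=
  fun a => if a ∈ s then u else if a = c then -(s.card • u) else 0

theorem spread'_sum {s : Finset (Fin m)} {c : Fin m} (hc : c ∉ s) (u : Cell) :
    ∑ a, spread' s c u a = 0 := by
  rw [← Finset.sum_add_sum_compl s,
    Finset.sum_congr rfl (fun a ha => show spread' s c u a = u by simp [spread', ha]),
    Finset.sum_congr (rfl : sᶜ = sᶜ) (fun a ha => show spread' s c u a =
      if a = c then -(s.card • u) else 0 by simp [spread', Finset.mem_compl.1 ha])]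
  simp [hc]

theorem exists_notMem (s : Finset (Fin m)) (hs : s.card < m) : ∃ c, c ∉ s := by
  by_contra! h
  have := Finset.card_le_card (s := Finset.univ) fun a _ => h a
  simp at this
  omega

theorem exists_shift (s : Finset (Fin m)) (hs : s.card < m) (u : Cell) :
    ∃ v : Fin m → Cell, ∑ a, v a = 0 ∧ ∀ a ∈ s, v a = u := by
  obtain ⟨c, hc⟩ := exists_notMem s hs
  exact ⟨_, spread'_sum hc u, fun a ha => by simp [spread', ha]⟩

variable [NeZero m] {hm}

theorem commute_tau (e : Comp (ctx S m r hm)) (σ : Tri m) {v : Fin m → Cell}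
    (hv : ∑ a, v a = 0) (h : ∀ a ∈ σ.1.support, v a = 0) :
    Commute (e.fn σ) (tau S m r v) := by
  classical
  obtain ⟨c, hc⟩ := exists_notMem σ.1.support (by rw [σ.2.card_support]; omega)
  refine zeroSum_induction (p := fun v => Commute (e.fn σ) (tau S m r v))
    (U := σ.1.supportᶜ) (c := c) (Finset.mem_compl.2 hc) ?_ ?_ ?_ ?_ hv
    fun a ha => h a (by simpa using ha)
  · rw [tau_zero]; exact Commute.one_right _
  · intro v w h1 h2; rw [tau_add]; exact h1.mul_right h2
  · intro k v h; rw [tau_zsmul]; exact h.zpow_right k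
  · intro a ha j
    rw [tau_pvec]
    refine sub_commute (U := ({c, a} : Finset (Fin m))ᶜ) disjoint_compl_left (e.mem σ _ ?_ ?_)
      (el_mem_sub (ball_pvec c a j) (by omega) (supported_pvec (by simp) (by simp) _))
    · intro x hx
      simp only [Finset.mem_compl, Finset.mem_insert, Finset.mem_singleton, not_or]
      exact ⟨fun he => hc (he ▸ hx), fun he => Finset.mem_compl.1 ha (he ▸ hx)⟩
    · have := Finset.card_le_two (a := c) (b := a)
      rw [Finset.card_compl, Fintype.card_fin]; omega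

theorem conj_tau_eq (e : Comp (ctx S m r hm)) (σ : Tri m) {v w : Fin m → Cell}
    (hv : ∑ a, v a = 0) (hw : ∑ a, w a = 0) (h : ∀ a ∈ σ.1.support, v a = w a) :
    tau S m r v * e.fn σ * (tau S m r v)⁻¹ = tau S m r w * e.fn σ * (tau S m r w)⁻¹ := by
  have c := commute_tau e σ (v := v - w) (by simp [hv, hw]) fun a ha => by simp [h a ha]
  rw [show v = w + (v - w) by abel, tau_add]
  calc _ = tau S m r w * (tau S m r (v - w) * e.fn σ) * (tau S m r (v - w))⁻¹ *
        (tau S m r w)⁻¹ := by group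
    _ = _ := by rw [← c.eq]; group

omit [NeZero m] in
theorem card_support_lt (σ : Tri m) (hm : 18 ≤ m) : σ.1.support.card < m := by
  rw [σ.2.card_support]; omega

omit [NeZero m] in
theorem card_union_lt (σ τ : Tri m) (hm : 18 ≤ m) :
    (σ.1.support ∪ τ.1.support).card < m := by
  have := Finset.card_union_le σ.1.support τ.1.support
  rw [σ.2.card_support, τ.2.card_support] at this
  omega

/-- The lift translated by `u`. -/
noncomputable def trFn (u : Cell) (e : Comp (ctx S m r hm)) (σ : Tri m) : P₁ S m r :=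
  tau S m r (exists_shift σ.1.support (card_support_lt σ hm) u).choose * e.fn σ *
    (tau S m r (exists_shift σ.1.support (card_support_lt σ hm) u).choose)⁻¹

theorem trFn_eq {u : Cell} (e : Comp (ctx S m r hm)) (σ : Tri m) {v : Fin m → Cell}
    (hv : ∑ a, v a = 0) (h : ∀ a ∈ σ.1.support, v a = u) :
    trFn u e σ = tau S m r v * e.fn σ * (tau S m r v)⁻¹ :=
  have hs := (exists_shift σ.1.support (card_support_lt σ hm) u).choose_spec
  conj_tau_eq e σ hs.1 hv fun a ha => by rw [hs.2 a ha, h a ha]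

omit [NeZero m] in
theorem support_act (π : Perm (Fin m)) (σ : Tri m) {a : Fin m} :
    a ∈ (act π σ).1.support ↔ π⁻¹ a ∈ σ.1.support := by
  simp only [act_val, Perm.mem_support, Perm.mul_apply]
  exact not_congr ⟨fun h => π.injective (by simpa using h), fun h => by rw [h]; simp⟩

omit [NeZero m] in
theorem sum_comp_inv (π : Perm (Fin m)) (v : Fin m → Cell) : ∑ a, v (π⁻¹ a) = ∑ a, v a :=
  Equiv.sum_comp π⁻¹ v

variable (hm) in
/-- The translate of a component by `u`. -/
noncomputable def Tr (u : Cell) (e : Comp (ctx S m r hm)) : Comp (ctx S m r hm) where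
  fn := trFn u e
  conj σ τ := by
    obtain ⟨v, hv, hu⟩ := exists_shift _ (card_union_lt σ τ hm) u
    have hsub : ∀ a ∈ (act σ.1 τ).1.support, v a = u := fun a ha => hu a <| by
      by_cases hσ : a ∈ σ.1.support
      · exact Finset.mem_union_left _ hσ
      · have hf : σ.1⁻¹ a = a := Perm.inv_eq_iff_eq.2 (Perm.notMem_support.1 hσ).symm
        rw [support_act, hf] at ha
        exact Finset.mem_union_right _ ha
    rw [trFn_eq e σ hv fun a ha => hu a (Finset.mem_union_left _ ha),
      trFn_eq e τ hv fun a ha => hu a (Finset.mem_union_right _ ha),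
      trFn_eq e (act σ.1 τ) hv hsub, ← e.conj]
    group
  equiv π σ := by
    obtain ⟨v, hv, hu⟩ := exists_shift σ.1.support (card_support_lt σ hm) u
    rw [trFn_eq e σ hv hu, trFn_eq e (act π σ) (v := fun a => v (π⁻¹ a))
      (by rw [sum_comp_inv, hv]) fun a ha => hu _ (support_act π σ |>.1 ha), ← e.equiv π σ,
      ← sym_tau π hv]
    show sym S r π * _ * (sym S r π)⁻¹ = _ * (sym S r π * _ * (sym S r π)⁻¹) * _
    group
  inv σ := by
    obtain ⟨v, hv, hu⟩ := exists_shift σ.1.support (card_support_lt σ hm) u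
    rw [trFn_eq e σ hv hu, trFn_eq e (triInv σ) hv (by simpa using hu), e.inv]
    group
  cube σ := by
    obtain ⟨v, hv, hu⟩ := exists_shift σ.1.support (card_support_lt σ hm) u
    rw [trFn_eq e σ hv hu, conj_pow, e.cube]; group
  mem σ U hs hU := by
    obtain ⟨c, hc⟩ : ∃ c ∈ U, c ∉ σ.1.support := by
      by_contra! h
      have := Finset.card_le_card (s := U) (t := σ.1.support) h
      rw [σ.2.card_support] at this; omega
    have hv := spread'_sum hc.2 u
    rw [trFn_eq e σ hv fun a ha => by simp [spread', ha]]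
    have ht : tau S m r (spread' σ.1.support c u) ∈ sub S r U :=
      tau_mem_sub hv fun a ha => by
        rw [spread', if_neg fun h => ha (hs h), if_neg fun h : a = c => ha (h ▸ hc.1)]
    exact mul_mem (mul_mem ht (e.mem σ U hs hU)) (inv_mem ht)

theorem Tr_fn {u : Cell} (e : Comp (ctx S m r hm)) (σ : Tri m) {v : Fin m → Cell}
    (hv : ∑ a, v a = 0) (h : ∀ a ∈ σ.1.support, v a = u) :
    (Tr hm u e).fn σ = tau S m r v * e.fn σ * (tau S m r v)⁻¹ := trFn_eq e σ hv h

theorem Tr_top (u : Cell) : Tr hm u (Fp.top (ctx S m r hm)) = Fp.top (ctx S m r hm) := by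
  refine Comp.ext fun σ => ?_
  obtain ⟨v, hv, hu⟩ := exists_shift σ.1.support (card_support_lt σ hm) u
  rw [Tr_fn _ σ hv hu]
  show tau S m r v * sym S r σ.1 * (tau S m r v)⁻¹ = sym S r σ.1
  have h := sym_tau (S := S) (r := r) σ.1 hv
  have e : (fun a => v (σ.1⁻¹ a)) = v := funext fun a => by
    by_cases ha : a ∈ σ.1.support
    · rw [hu a ha, hu _ (by rw [← Perm.apply_mem_support]; simpa using ha)]
    · rw [Perm.inv_eq_iff_eq.2 (Perm.notMem_support.1 ha).symm]
  rw [e] at h
  rw [← conj_eq h]; group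

theorem Tr_bot (u : Cell) : Tr hm u (Fp.bot (ctx S m r hm)) = Fp.bot (ctx S m r hm) := by
  refine Comp.ext fun σ => ?_
  obtain ⟨v, hv, hu⟩ := exists_shift σ.1.support (card_support_lt σ hm) u
  rw [Tr_fn _ σ hv hu]
  simp [Fp.bot]

theorem Tr_zero (e : Comp (ctx S m r hm)) : Tr hm 0 e = e := by
  refine Comp.ext fun σ => ?_
  rw [Tr_fn (u := 0) e σ (v := 0) (by simp) fun _ _ => rfl, tau_zero]
  group

theorem Tr_Tr (u w : Cell) (e : Comp (ctx S m r hm)) :
    Tr hm u (Tr hm w e) = Tr hm (u + w) e := by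
  refine Comp.ext fun σ => ?_
  obtain ⟨v, hv, hu⟩ := exists_shift σ.1.support (card_support_lt σ hm) u
  obtain ⟨v', hv', hw⟩ := exists_shift σ.1.support (card_support_lt σ hm) w
  rw [Tr_fn _ σ hv hu, Tr_fn _ σ hv' hw, Tr_fn e σ (v := v + v')
    (by simp [Finset.sum_add_distrib, hv, hv']) fun a ha => by simp [hu a ha, hw a ha], tau_add]
  group

theorem Tr_le (u : Cell) {p a : Comp (ctx S m r hm)} (h : Le p a) :
    Le (Tr hm u p) (Tr hm u a) := by
  intro κ ρ
  obtain ⟨v, hv, hu⟩ := exists_shift _ (card_union_lt κ ρ hm) u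
  have hsub : ∀ b ∈ (act κ.1 ρ).1.support, v b = u := fun b hb => hu b <| by
    by_cases hκ : b ∈ κ.1.support
    · exact Finset.mem_union_left _ hκ
    · have hf : κ.1⁻¹ b = b := Perm.inv_eq_iff_eq.2 (Perm.notMem_support.1 hκ).symm
      rw [support_act, hf] at hb
      exact Finset.mem_union_right _ hb
  rw [Tr_fn a κ hv fun b hb => hu b (Finset.mem_union_left _ hb),
    Tr_fn p ρ hv fun b hb => hu b (Finset.mem_union_right _ hb),
    Tr_fn p _ hv hsub, ← h κ ρ]
  group

theorem Tr_orth (u : Cell) {p a : Comp (ctx S m r hm)} (h : Orth p a) :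
    Orth (Tr hm u p) (Tr hm u a) := by
  intro σ τ
  obtain ⟨v, hv, hu⟩ := exists_shift _ (card_union_lt σ τ hm) u
  rw [Tr_fn p σ hv fun b hb => hu b (Finset.mem_union_left _ hb),
    Tr_fn a τ hv fun b hb => hu b (Finset.mem_union_right _ hb)]
  exact (Commute.conj_iff _).2 (h σ τ)

theorem Tr_diff (u : Cell) {p a : Comp (ctx S m r hm)} (h : Le p a) :
    Tr hm u (diff a p h) = diff (Tr hm u a) (Tr hm u p) (Tr_le u h) := by
  refine Comp.ext fun σ => ?_
  obtain ⟨v, hv, hu⟩ := exists_shift σ.1.support (card_support_lt σ hm) u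
  show trFn u _ σ = (Tr hm u a).fn σ * ((Tr hm u p).fn σ)⁻¹
  rw [trFn_eq _ σ hv hu, Tr_fn a σ hv hu, Tr_fn p σ hv hu]
  show tau S m r v * (a.fn σ * (p.fn σ)⁻¹) * _ = _
  group

theorem Tr_compl (u : Cell) (e : Comp (ctx S m r hm)) :
    Tr hm u (Fp.compl e) = Fp.compl (Tr hm u e) := by
  refine Comp.ext fun σ => ?_
  unfold Fp.compl
  rw [Tr_diff]
  show (Tr hm u (Fp.top _)).fn σ * _ = _
  rw [Tr_top]
  rfl

theorem Tr_inf (u : Cell) {e f : Comp (ctx S m r hm)} (h : Com e f) :
    Com (Tr hm u e) (Tr hm u f) ∧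
      Fp.inf (Tr hm u e) (Tr hm u f) = Tr hm u (Fp.inf e f) := by
  obtain ⟨g, h1, h2, o⟩ := h
  have o' : Orth (diff _ _ (Tr_le u h1)) (diff _ _ (Tr_le u h2)) := by
    rw [← Tr_diff u h1, ← Tr_diff u h2]; exact Tr_orth u o
  rw [inf_eq h1 h2 o]
  exact ⟨⟨_, Tr_le u h1, Tr_le u h2, o'⟩, inf_eq (Tr_le u h1) (Tr_le u h2) o'⟩

theorem Tr_base (j : Fin 3) {U : Clopens (S.Conf 0)} (hU : Small r U)
    (hU' : Small r (tr (dir j) U)) :
    Tr hm (dir j) (base hm U hU) = base hm (tr (dir j) U) hU' := by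
  refine Comp.ext fun σ => ?_
  obtain ⟨c, hc⟩ := exists_notMem σ.1.support (card_support_lt σ hm)
  obtain ⟨x, y, i, hxyz, rfl⟩ := exists_cyc σ
  rw [cyc_support] at hc
  simp only [Finset.mem_insert, Finset.mem_singleton, not_or] at hc
  obtain ⟨cx, cy, ci⟩ := hc
  let v := pvec m c x (dir j) + pvec m c y (dir j) + pvec m c i (dir j)
  have hp : ∀ a b, ∑ q, pvec m a b (dir j) q = 0 := fun a b => by simp [pvec]
  have hv : ∑ q, v q = 0 := by simp [v, Finset.sum_add_distrib, hp]
  have hu : ∀ a ∈ (cyc x y i hxyz).1.support, v a = dir j := by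
    intro a ha
    rw [cyc_support] at ha
    simp only [Finset.mem_insert, Finset.mem_singleton] at ha
    obtain ⟨xy, yi, xi⟩ := hxyz
    rcases ha with rfl | rfl | rfl <;>
      simp [v, pvec, Ne.symm cx, Ne.symm cy, Ne.symm ci, xy, yi, xi, Ne.symm xy, Ne.symm yi,
        Ne.symm xi]
  rw [Tr_fn _ _ hv hu]
  have b2 := fun a => ball_pvec (S := S) (r := r) c a j
  have hb : Ball S m r (2 + 2 + 2) (sh S m v) := by
    simp only [v, sh_add]; exact ((b2 x).mul (b2 y)).mul (b2 i)
  have ht : tau S m r v = el S m r (sh S m v) := by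
    simp only [v, tau_add, tau_pvec, sh_add]
    rw [el_mul ((b2 x).mul (b2 y)) (b2 i) (by simp [cap]; omega),
      el_mul (b2 x) (b2 y) (by simp [cap]; omega)]
  show _ * el S m r (permAt S m U _) * _ = el S m r (permAt S m (tr (dir j) U) _)
  rw [ht]
  exact el_conj hb (ball_permAt hU _) (by simp [cap]; omega)
    (sh_conj_permAt v (dir j) U _ fun a ha => hu a (Perm.mem_support.2 ha))

/-! ### Events -/

/-- The configurations with colour `c` at `p`. -/
def cellSet (p : Cell) (c : S.C 0) : Clopens (S.Conf 0) :=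
  ⟨(fun t => t.1 p) ⁻¹' {c},
    (isClopen_discrete {c}).preimage ((continuous_apply p).comp continuous_subtype_val)⟩

theorem mem_cellSet {p : Cell} {c : S.C 0} {t : S.Conf 0} : t ∈ cellSet p c ↔ t.1 p = c := Iff.rfl

theorem clopens_ext {U V : Clopens (S.Conf 0)} (h : ∀ t, t ∈ U ↔ t ∈ V) : U = V :=
  Clopens.ext (Set.ext h)

theorem small_cellSet {p : Cell} (h1 : |p.1| ≤ r) (h2 : |p.2| ≤ r) (c : S.C 0) :
    Small r (cellSet p c) := by
  rw [abs_le] at h1 h2
  refine ⟨{q | q (⟨(p.1 + r).toNat, by omega⟩, ⟨(p.2 + r).toNat, by omega⟩) = c},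
    clopens_ext fun t => ?_⟩
  rw [mem_cellSet]
  show pat S r t _ = c ↔ _
  simp only [pat]
  rw [Int.toNat_of_nonneg (by omega), Int.toNat_of_nonneg (by omega)]
  simp

theorem tr_cellSet (x p : Cell) (c : S.C 0) : tr x (cellSet p c) = cellSet (p - x) c := by
  refine clopens_ext fun t => ?_
  rw [mem_tr, mem_cellSet, mem_cellSet]
  show t.1 (p.1 + (-x).1, p.2 + (-x).2) = c ↔ t.1 (p - x) = c
  rw [show (p.1 + (-x).1, p.2 + (-x).2) = p - x from Prod.ext (by simp [sub_eq_add_neg])
    (by simp [sub_eq_add_neg])]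

variable (hm)

theorem small_cellSet_zero (c : S.C 0) : Small r (cellSet (0 : Cell) c) :=
  small_cellSet (by simp) (by simp) c

/-- The event of colour `c` at `p`. -/
noncomputable def ev (p : Cell) (c : S.C 0) : Comp (ctx S m r hm) :=
  Tr hm (-p) (base hm (cellSet 0 c) (small_cellSet_zero c))

theorem ev_add (p q : Cell) (c : S.C 0) : ev hm (p + q) c = Tr hm (-p) (ev (r := r) hm q c) := by
  rw [ev, ev, Tr_Tr, neg_add]

theorem ev_base {p : Cell} (h1 : |p.1| ≤ r) (h2 : |p.2| ≤ r) (c : S.C 0) :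
    ev hm p c = base hm (cellSet p c) (small_cellSet h1 h2 c) := by
  suffices h : ∀ k : ℕ, ∀ p : Cell, ∀ (h1 : |p.1| ≤ r) (h2 : |p.2| ≤ r),
      p.1.natAbs + p.2.natAbs ≤ k →
      ev hm p c = base hm (cellSet p c) (small_cellSet h1 h2 c) from h _ p h1 h2 le_rfl
  intro k
  induction k with
  | zero =>
    intro p h1 h2 hk
    obtain rfl : p = 0 := Prod.ext (by simp; omega) (by simp; omega)
    rw [ev, neg_zero, Tr_zero]
  | succ k ih =>
    intro p h1 h2 hk
    have up : ∀ (j : Fin 3), (p.1 - (dir j).1).natAbs + (p.2 - (dir j).2).natAbs ≤ k →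
        |p.1 - (dir j).1| ≤ r → |p.2 - (dir j).2| ≤ r →
        ev hm p c = base hm (cellSet p c) (small_cellSet h1 h2 c) := by
      intro j hj g1 g2
      have e := ih (p - dir j) g1 g2 hj
      have t := Tr_base (hm := hm) j (small_cellSet (S := S) h1 h2 c)
        (by rw [tr_cellSet]; exact small_cellSet g1 g2 c)
      rw [base_congr hm (tr_cellSet (dir j) p c) _ (small_cellSet g1 g2 c), ← e] at t
      calc ev hm p c = ev hm (dir j + (p - dir j)) c := by rw [add_sub_cancel]
        _ = _ := by rw [ev_add, ← t, Tr_Tr, neg_add_cancel, Tr_zero]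
    have down : ∀ (j : Fin 3), (p.1 + (dir j).1).natAbs + (p.2 + (dir j).2).natAbs ≤ k →
        |p.1 + (dir j).1| ≤ r → |p.2 + (dir j).2| ≤ r →
        ev hm p c = base hm (cellSet p c) (small_cellSet h1 h2 c) := by
      intro j hj g1 g2
      have e := ih (p + dir j) g1 g2 hj
      have hs : Small r (tr (dir j) (cellSet (p + dir j) c)) := by
        rw [tr_cellSet, add_sub_cancel_right]; exact small_cellSet h1 h2 c
      have t := Tr_base (hm := hm) j (small_cellSet (S := S) (p := p + dir j) g1 g2 c) hs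
      rw [← e, base_congr hm (by rw [tr_cellSet, add_sub_cancel_right]) hs
        (small_cellSet h1 h2 c), add_comm p (dir j), ev_add, Tr_Tr, add_neg_cancel, Tr_zero] at t
      exact t
    have d1 : dir 1 = ((1, 0) : Cell) := rfl
    have d2 : dir 2 = ((0, 1) : Cell) := rfl
    rw [abs_le] at h1 h2
    rcases lt_trichotomy p.1 0 with hp | hp | hp
    · exact down 1 (by rw [d1]; simp; omega) (by rw [d1, abs_le]; simp; omega)
        (by rw [d1, abs_le]; simp; omega)
    · rcases lt_trichotomy p.2 0 with hq | hq | hq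
      · exact down 2 (by rw [d2]; simp; omega) (by rw [d2, abs_le]; simp; omega)
          (by rw [d2, abs_le]; simp; omega)
      · exact ih p (abs_le.2 h1) (abs_le.2 h2) (by omega)
      · exact up 2 (by rw [d2]; simp; omega) (by rw [d2, abs_le]; simp; omega)
          (by rw [d2, abs_le]; simp; omega)
    · exact up 1 (by rw [d1]; simp; omega) (by rw [d1, abs_le]; simp; omega)
        (by rw [d1, abs_le]; simp; omega)

/-- An event near `p` is the translate of a base component. -/
theorem ev_rel (p q : Cell) (h1 : |q.1 - p.1| ≤ r) (h2 : |q.2 - p.2| ≤ r) (c : S.C 0) :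
    ev hm q c = Tr hm (-p)
      (base hm (cellSet (q - p) c) (small_cellSet (p := q - p) h1 h2 c)) := by
  conv_lhs => rw [show q = p + (q - p) by abel]
  rw [ev_add, ev_base hm (p := q - p) h1 h2]

variable (S r) in
/-- The local events of level `0`. -/
noncomputable def events (hr : 1 ≤ r) :
    LocalEvents (componentAlgebra (ctx S m r hm)) (S.W 0) where
  ev := ev hm
  near p q c d h1 h2 := by
    have z : |p.1 - p.1| ≤ (r : ℤ) ∧ |p.2 - p.2| ≤ (r : ℤ) := by simp
    have g : |q.1 - p.1| ≤ (r : ℤ) ∧ |q.2 - p.2| ≤ (r : ℤ) := by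
      rw [abs_sub_comm q.1, abs_sub_comm q.2]; omega
    show Com _ _
    rw [ev_rel hm p p z.1 z.2, ev_rel hm p q g.1 g.2]
    exact (Tr_inf _ (base_inf hm _ _).1).1
  exclusive p c d hcd := by
    show Fp.inf _ _ = Fp.bot _
    rw [ev, ev, (Tr_inf _ (base_inf hm _ _).1).2, (base_inf hm _ _).2,
      base_congr hm (V := ⊥) ?_ _ small_bot, base_bot, Tr_bot]
    refine clopens_ext fun t => ⟨fun h => ?_, fun h => h.elim⟩
    exact absurd ((mem_cellSet.1 h.1).symm.trans (mem_cellSet.1 h.2)) hcd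
  total p := by
    classical
    have key : ∀ l : List (S.C 0), ∃ U : Clopens (S.Conf 0), ∃ hU : Small r U,
        (∀ t, t ∈ U ↔ t.1 0 ∉ l) ∧
        (l.map fun c => (componentAlgebra (ctx S m r hm)).compl (ev hm p c)).foldr
          (componentAlgebra (ctx S m r hm)).inf (componentAlgebra (ctx S m r hm)).top =
          Tr hm (-p) (base hm U hU) := by
      intro l
      induction l with
      | nil =>
        refine ⟨⊤, small_top, fun t => iff_of_true trivial List.not_mem_nil, ?_⟩
        rw [base_top, Tr_top]; rfl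
      | cons c l ih =>
        obtain ⟨U, hU, hmem, e⟩ := ih
        refine ⟨(cellSet 0 c)ᶜ ⊓ U, (small_cellSet_zero c).compl.inf hU, fun t => ?_, ?_⟩
        · rw [List.mem_cons, not_or, ← hmem t]
          exact ⟨fun h => ⟨fun e => h.1 (mem_cellSet.2 e), h.2⟩,
            fun h => ⟨fun e => h.1 (mem_cellSet.1 e), h.2⟩⟩
        rw [List.map_cons, List.foldr_cons, e]
        show Fp.inf (Fp.compl (ev hm p c)) _ = _
        rw [ev, ← Tr_compl, base_compl, (Tr_inf _ (base_inf hm _ _).1).2, (base_inf hm _ _).2]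
    obtain ⟨U, hU, hmem, e⟩ := key Finset.univ.toList
    rw [e, base_congr hm (V := ⊥) ?_ hU small_bot, base_bot, Tr_bot]
    · rfl
    exact clopens_ext fun t => ⟨fun h => absurd (by simp) ((hmem t).1 h), fun h => h.elim⟩
  illegal p w hw := by
    have g : ∀ a b : ℤ, 0 ≤ a → a ≤ 1 → |p.1 + a - p.1| ≤ (r : ℤ) ∧ (0 ≤ b → b ≤ 1 →
        |p.2 + b - p.2| ≤ (r : ℤ)) := fun a b ha ha' => by
      rw [abs_le, abs_le]; omega
    show Fp.inf (Fp.inf (ev hm p _) (ev hm (p.1 + 1, p.2) _))
      (Fp.inf (ev hm (p.1, p.2 + 1) _) (ev hm (p.1 + 1, p.2 + 1) _)) = Fp.bot _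
    rw [ev_rel hm p p (by simp) (by simp),
      ev_rel hm p (p.1 + 1, p.2) (g 1 0 (by omega) (by omega)).1 (by simp),
      ev_rel hm p (p.1, p.2 + 1) (by simp) ((g 0 1 (by omega) (by omega)).2 (by omega) (by omega)),
      ev_rel hm p (p.1 + 1, p.2 + 1) (g 1 1 (by omega) (by omega)).1
        ((g 1 1 (by omega) (by omega)).2 (by omega) (by omega)),
      (Tr_inf _ (base_inf hm _ _).1).2, (base_inf hm _ _).2,
      (Tr_inf _ (base_inf hm _ _).1).2, (base_inf hm _ _).2,
      (Tr_inf _ (base_inf hm _ _).1).2, (base_inf hm _ _).2,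
      base_congr hm (V := ⊥) ?_ _ small_bot, base_bot, Tr_bot]
    refine clopens_ext fun t => ⟨fun h => absurd ?_ hw, fun h => h.elim⟩
    obtain ⟨⟨h00, h10⟩, h01, h11⟩ := h
    have h00 := mem_cellSet.1 h00
    have h10 := mem_cellSet.1 h10
    have h01 := mem_cellSet.1 h01
    have h11 := mem_cellSet.1 h11
    have q : ∀ a b : ℤ, ((p.1 + a, p.2 + b) : Cell) - p = (a, b) := fun a b =>
      Prod.ext (by simp) (by simp)
    have q10 := q 1 0; have q01 := q 0 1; have q11 := q 1 1
    simp only [add_zero] at q10 q01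
    rw [q10] at h10; rw [q01] at h01; rw [q11] at h11; rw [sub_self] at h00
    have e : windowAt t.1 (0, 0) = w := by
      funext d
      obtain ⟨d1, d2⟩ := d
      fin_cases d1 <;> fin_cases d2 <;> simp [windowAt]
      exacts [h00, h01, h10, h11]
    exact e ▸ t.2 (0, 0)

end Vale.Agent.P196.Pres
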