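import Mathlib

/-!
# P196: homomorphisms out of a finite symmetric group

A family indexed by pairs that is symmetric, of order two, commutes on disjoint pairs and obeys
the triangle relation extends to a homomorphism of the symmetric group.
-/

namespace Vale.Agent.P196.Fp

open Equiv

variable {T : Type*} {G : Type*} [Group G]

/-- The relations of transpositions. -/
structure SwapRel (s : T → T → G) : Prop where
  diag : ∀ a, s a a = 1
  symm : ∀ a b, s b a = s a b
  sq : ∀ a b, s a b * s a b = 1
  comm : ∀ a b c d, a ≠ c → a ≠ d → b ≠ c → b ≠ d → Commute (s a b) (s c d)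
  tri : ∀ a b c, a ≠ b → b ≠ c → a ≠ c → s a b * s b c * s a b = s a c

/-- Moving a pair past the pair through `a`. -/
theorem SwapRel.past {s : T → T → G} (h : SwapRel s) {x y a : T} (hxy : x ≠ y) (hx : x ≠ a)
    (hy : y ≠ a) : s x y * s a x = s a y * s x y := by
  have t := h.tri y x a hxy.symm hx hy
  rw [h.symm a x, h.symm x y, h.symm a y] at t
  calc s x y * s a x = s x y * s a x * (s x y * s x y) := by rw [h.sq, mul_one]
    _ = s a y * s x y := by rw [← mul_assoc, t]

variable [DecidableEq T]

/-- The swaps with the elements assigned to them. -/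
def swapGraph (s : T → T → G) (A : Finset T) : Subgroup (Perm T × G) :=
  Subgroup.closure {p | ∃ a ∈ A, ∃ b ∈ A, p = (swap a b, s a b)}

theorem swapRel_graph {s : T → T → G} (h : SwapRel s) :
    SwapRel fun a b => ((swap a b, s a b) : Perm T × G) where
  diag a := by simp [h.diag, ← Equiv.Perm.one_def]
  symm a b := by rw [Equiv.swap_comm, h.symm]
  sq a b := by simp [h.sq]
  comm a b c d h1 h2 h3 h4 := by
    refine Prod.ext ?_ (h.comm a b c d h1 h2 h3 h4)
    exact (Equiv.Perm.Disjoint.commute fun x => by
      rcases eq_or_ne x a with rfl | hxa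
      · exact Or.inr (swap_apply_of_ne_of_ne h1 h2)
      rcases eq_or_ne x b with rfl | hxb
      · exact Or.inr (swap_apply_of_ne_of_ne h3 h4)
      exact Or.inl (swap_apply_of_ne_of_ne hxa hxb))
  tri a b c h1 h2 h3 := Prod.ext
    (by
      show swap a b * swap b c * swap a b = swap a c
      have := Equiv.swap_apply_apply (swap a b) b c
      rw [swap_apply_right, swap_apply_of_ne_of_ne h3.symm h2.symm, swap_inv] at this
      exact this.symm)
    (h.tri a b c h1 h2 h3)

/-- Nothing but the identity lies over the identity. -/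
theorem swapGraph_inj {s : T → T → G} (h : SwapRel s) (A : Finset T) :
    ∀ p ∈ swapGraph s A, (∀ x ∉ A, p.1 x = x) ∧ (p.1 = 1 → p.2 = 1) := by
  induction A using Finset.induction_on with
  | empty =>
    intro p hp
    induction hp using Subgroup.closure_induction with
    | mem p hp => simp at hp
    | one => simp
    | mul p q _ _ hp hq =>
      refine ⟨fun x hx => by simp [hp.1 x hx, hq.1 x hx], fun _ => ?_⟩
      have e : ∀ r : Perm T × G, (∀ x ∉ (∅ : Finset T), r.1 x = x) → r.1 = 1 :=
        fun r hr => Equiv.ext fun x => hr x (Finset.notMem_empty x)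
      simp [hp.2 (e p hp.1), hq.2 (e q hq.1)]
    | inv p _ hp =>
      refine ⟨fun x hx => ?_, fun he => ?_⟩
      · rw [Prod.fst_inv, Perm.inv_eq_iff_eq, hp.1 x hx]
      · rw [Prod.fst_inv, inv_eq_one] at he
        simp [hp.2 he]
  | insert a B ha ih =>
    intro p hp
    set P : T → T → Perm T × G := fun x y => (swap x y, s x y) with hP
    have hR : SwapRel P := swapRel_graph h
    let U : Set (Perm T × G) := {p | ∃ b ∈ insert a B, ∃ q ∈ swapGraph s B, p = P a b * q}
    have hgen : ∀ x ∈ B, ∀ y ∈ B, P x y ∈ swapGraph s B := fun x hx y hy =>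
      Subgroup.subset_closure ⟨x, hx, y, hy, rfl⟩
    have hmul : ∀ x ∈ insert a B, ∀ y ∈ insert a B, ∀ u ∈ U, P x y * u ∈ U := by
      have first : ∀ y ∈ B, ∀ u ∈ U, P a y * u ∈ U := by
        rintro y hy _ ⟨b, hb, q, hq, rfl⟩
        have hay : a ≠ y := fun e => ha (e ▸ hy)
        rcases Finset.mem_insert.1 hb with rfl | hb
        · exact ⟨y, Finset.mem_insert_of_mem hy, q, hq, by rw [hR.diag, one_mul]⟩
        rcases eq_or_ne b y with rfl | hby
        · exact ⟨a, Finset.mem_insert_self a B, q, hq, by rw [← mul_assoc, hR.sq, hR.diag]⟩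
        · have hab : a ≠ b := fun e => ha (e ▸ hb)
          refine ⟨b, Finset.mem_insert_of_mem hb, P b y * q, mul_mem (hgen b hb y hy) hq, ?_⟩
          have t := hR.tri b a y hab.symm hay hby
          rw [hR.symm a b] at t
          rw [← mul_assoc, ← mul_assoc, ← t, ← mul_assoc, ← mul_assoc, hR.sq, one_mul]
      intro x hx y hy u hu
      rcases Finset.mem_insert.1 hx with ex | hx
      · rcases Finset.mem_insert.1 hy with ey | hy
        · rwa [ex, ey, hR.diag, one_mul]
        · rw [ex]; exact first y hy u hu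
      rcases Finset.mem_insert.1 hy with ey | hy
      · rw [ey, hR.symm a x]; exact first x hx u hu
      obtain ⟨b, hb, q, hq, rfl⟩ := hu
      rcases Finset.mem_insert.1 hb with eb | hb
      · exact ⟨a, Finset.mem_insert_self a B, P x y * q, mul_mem (hgen x hx y hy) hq, by
          rw [eb, hR.diag, one_mul, one_mul]⟩
      have hab : a ≠ b := fun e => ha (e ▸ hb)
      have hax : a ≠ x := fun e => ha (e ▸ hx)
      have hay : a ≠ y := fun e => ha (e ▸ hy)
      have hq' : P x y * q ∈ swapGraph s B := mul_mem (hgen x hx y hy) hq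
      rcases eq_or_ne x y with rfl | hxy
      · exact ⟨b, Finset.mem_insert_of_mem hb, q, hq, by rw [hR.diag, one_mul]⟩
      rcases eq_or_ne b x with rfl | hbx
      · exact ⟨y, Finset.mem_insert_of_mem hy, _, hq', by
          rw [← mul_assoc, hR.past hxy hax.symm hay.symm, mul_assoc]⟩
      rcases eq_or_ne b y with rfl | hby
      · exact ⟨x, Finset.mem_insert_of_mem hx, _, hq', by
          rw [← mul_assoc, ← hR.symm x b, hR.past hxy.symm hay.symm hax.symm, mul_assoc]⟩
      exact ⟨b, Finset.mem_insert_of_mem hb, _, hq', by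
        rw [← mul_assoc, (hR.comm x y a b hax.symm hbx.symm hay.symm hby.symm).eq, mul_assoc]⟩
    have hU1 : (1 : Perm T × G) ∈ U :=
      ⟨a, Finset.mem_insert_self a B, 1, one_mem _, by rw [hR.diag, one_mul]⟩
    have hsub : ∀ u ∈ U, p * u ∈ U := by
      induction hp using Subgroup.closure_induction'' with
      | mem g hg =>
        obtain ⟨x, hx, y, hy, rfl⟩ := hg
        exact hmul x hx y hy
      | inv_mem g hg =>
        obtain ⟨x, hx, y, hy, rfl⟩ := hg
        rw [inv_eq_of_mul_eq_one_right (hR.sq x y)]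
        exact hmul x hx y hy
      | one => simp
      | mul g g' _ _ hg hg' => intro u hu; rw [mul_assoc]; exact hg _ (hg' u hu)
    obtain ⟨b, hb, q, hq, e⟩ := hsub 1 hU1
    rw [mul_one] at e
    subst e
    obtain ⟨hfix, hone⟩ := ih q hq
    refine ⟨fun x hx => ?_, fun he => ?_⟩
    · simp only [Finset.mem_insert, not_or] at hx
      show swap a b (q.1 x) = x
      rw [hfix x hx.2, swap_apply_of_ne_of_ne hx.1]
      rintro rfl
      rcases Finset.mem_insert.1 hb with e | e
      · exact hx.1 e
      · exact hx.2 e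
    · have hba : b = a := by
        have : swap a b (q.1 a) = a := Equiv.congr_fun he a
        rwa [hfix a ha, swap_apply_left] at this
      subst hba
      rw [hR.diag, one_mul] at he ⊢
      exact hone he

variable [Fintype T]

theorem swapGraph_surj (s : T → T → G) (σ : Perm T) :
    ∃ g, (σ, g) ∈ swapGraph s Finset.univ := by
  have h : σ ∈ Subgroup.closure {σ : Perm T | σ.IsSwap} := by
    rw [Equiv.Perm.closure_isSwap]; trivial
  induction h using Subgroup.closure_induction with
  | mem σ hσ =>
    obtain ⟨x, y, -, rfl⟩ := hσ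
    exact ⟨s x y, Subgroup.subset_closure ⟨x, Finset.mem_univ x, y, Finset.mem_univ y, rfl⟩⟩
  | one => exact ⟨1, one_mem _⟩
  | mul σ τ _ _ hσ hτ => exact ⟨_, mul_mem hσ.choose_spec hτ.choose_spec⟩
  | inv σ _ hσ => exact ⟨_, inv_mem hσ.choose_spec⟩

/-- The homomorphism extending the family. -/
noncomputable def swapHom (s : T → T → G) (h : SwapRel s) : Perm T →* G :=
  MonoidHom.mk' (fun σ => (swapGraph_surj s σ).choose) fun σ τ => by
    obtain ⟨-, h1⟩ := swapGraph_inj h Finset.univ _
      (mul_mem (inv_mem (swapGraph_surj s (σ * τ)).choose_spec)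
        (mul_mem (swapGraph_surj s σ).choose_spec (swapGraph_surj s τ).choose_spec))
    exact inv_mul_eq_one.1 (h1 (by simp))

theorem swapHom_swap (s : T → T → G) (h : SwapRel s) (a b : T) :
    swapHom s h (swap a b) = s a b := by
  obtain ⟨-, h1⟩ := swapGraph_inj h Finset.univ _
    (mul_mem (inv_mem (swapGraph_surj s (swap a b)).choose_spec)
      (Subgroup.subset_closure ⟨a, Finset.mem_univ a, b, Finset.mem_univ b, rfl⟩ :
        ((swap a b, s a b) : Perm T × G) ∈ swapGraph s Finset.univ))
  exact inv_mul_eq_one.1 (h1 (by simp))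

/-- Two homomorphisms agreeing on all swaps are equal. -/
theorem hom_eq_of_swap {T : Type*} [DecidableEq T] [Finite T] {φ ψ : Perm T →* G}
    (h : ∀ a b, φ (swap a b) = ψ (swap a b)) : φ = ψ :=
  MonoidHom.eq_of_eqOn_dense Equiv.Perm.closure_isSwap fun σ hσ => by
    obtain ⟨x, y, -, rfl⟩ := hσ
    exact h x y

omit [Fintype T] in
theorem viaEmbedding_swap {U : Type*} [DecidableEq U] (f : T ↪ U) (a b : T) :
    Perm.viaEmbedding (swap a b) f = swap (f a) (f b) := by
  refine Equiv.ext fun u => ?_
  by_cases hu : u ∈ Set.range f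
  · obtain ⟨t, rfl⟩ := hu
    rw [Perm.viaEmbedding_apply, f.injective.swap_apply]
  · rw [Perm.viaEmbedding_apply_of_notMem _ _ _ hu, swap_apply_of_ne_of_ne]
    · rintro rfl; exact hu ⟨a, rfl⟩
    · rintro rfl; exact hu ⟨b, rfl⟩

end Vale.Agent.P196.Fp
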