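import Vale.Agent.P196.Fp.Moves
import Vale.Agent.P196.Fp.SwapHom

/-!
# P196: from two-slot moves to lifts of all charts

An exchange inside one index is a product of three moves through a fresh index; conjugating slots
to fresh indices then gives all relations of transpositions, so every chart gets a homomorphism.
-/

namespace Vale.Agent.P196.Fp

open Equiv Simple TopologicalSpace
open Vale.Agent.P196.Flux (Cell)

variable {X : Type} [TopologicalSpace X] [AddAction Cell X] {m : ℕ}

/-- A translation and an index. -/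
abbrev Slot (m : ℕ) : Type := Cell × Fin m

/-- The slots `x` over `U` and `y` over `V` have no common point. -/
def Apart (x : Slot m) (U : Clopens X) (y : Slot m) (V : Clopens X) : Prop :=
  ∀ u ∈ U, ∀ v ∈ V, x.2 = y.2 → x.1 +ᵥ u ≠ y.1 +ᵥ v

theorem apart_of_ne {x y : Slot m} {U V : Clopens X} (h : x.2 ≠ y.2) : Apart x U y V :=
  fun _ _ _ _ e => absurd e h

theorem Apart.symm {x y : Slot m} {U V : Clopens X} (h : Apart x U y V) : Apart y V x U :=
  fun v hv u hu e e' => h u hu v hv e.symm e'.symm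

theorem apart_self {x : Slot m} {U V : Clopens X} (h : Disjoint U V) : Apart x U x V := by
  intro u hu v hv _ e
  have huv : u = v := (vadd_left_cancel_iff _).1 e
  subst huv
  exact Set.disjoint_left.1 (Clopens.coe_disjoint.2 h) hu hv

theorem exists_fresh (l : List (Fin m)) (h : l.length < m) : ∃ z : Fin m, z ∉ l := by
  obtain ⟨z, -, hz⟩ := Finset.exists_mem_notMem_of_card_lt_card (s := l.toFinset)
    (t := (Finset.univ : Finset (Fin m))) (by
      simpa using (List.toFinset_card_le l).trans_lt h)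
  exact ⟨z, by simpa using hz⟩

variable {G : Type*} [Group G] (M : Moves X m G)

namespace Moves

/-- A move written with slots. -/
def mv (x y : Slot m) (U : Clopens X) : G := M.move x.2 y.2 x.1 y.1 U

theorem mv_symm {x y : Slot m} (h : x.2 ≠ y.2) (U : Clopens X) : M.mv y x U = M.mv x y U :=
  M.move_symm _ _ h _ _ U

theorem mv_sq {x y : Slot m} (h : x.2 ≠ y.2) (U : Clopens X) : M.mv x y U * M.mv x y U = 1 :=
  M.move_sq _ _ h _ _ U

theorem mv_tri {x y z : Slot m} (h1 : x.2 ≠ y.2) (h2 : y.2 ≠ z.2) (h3 : x.2 ≠ z.2)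
    (U : Clopens X) : M.mv x y U * M.mv y z U * M.mv x y U = M.mv x z U :=
  M.move_triangle _ _ _ h1 h2 h3 _ _ _ U

theorem mv_comm {x y z t : Slot m} {U V : Clopens X} (hxy : x.2 ≠ y.2) (hzt : z.2 ≠ t.2)
    (h1 : Apart x U z V) (h2 : Apart x U t V) (h3 : Apart y U z V) (h4 : Apart y U t V) :
    Commute (M.mv x y U) (M.mv z t V) := by
  refine M.move_comm _ _ _ _ hxy hzt _ _ _ _ U V fun i j u hu v hv e => ?_
  simp only [Chart.pt, pairChart, Prod.ext_iff] at e
  fin_cases i <;> fin_cases j <;> simp at e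
  · exact h1 u hu v hv e.2 e.1
  · exact h2 u hu v hv e.2 e.1
  · exact h3 u hu v hv e.2 e.1
  · exact h4 u hu v hv e.2 e.1

theorem mv_bot {x y : Slot m} (h : x.2 ≠ y.2) : M.mv x y ⊥ = 1 := by
  have := M.move_sup _ _ h x.1 y.1 ⊥ ⊥ disjoint_bot_left
  rw [sup_idem] at this
  exact mul_eq_right.1 this.symm

theorem conj_mul {u : G} (hu : u * u = 1) (a b : G) : u * (a * b) * u = (u * a * u) * (u * b * u) := by
  calc u * (a * b) * u = u * a * (u * u) * b * u := by rw [hu, mul_one, mul_assoc u a b]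
    _ = _ := by simp only [mul_assoc]

theorem conj_eq {u a : G} (hu : u * u = 1) (h : Commute u a) : u * a * u = a := by
  rw [h.eq, mul_assoc, hu, mul_one]

theorem conj_inj {u a b : G} (h : u * a * u = u * b * u) : a = b :=
  mul_left_cancel (mul_right_cancel h)

/-- The exchange of two slots of one index through a third slot. -/
def thru (x y z : Slot m) (U : Clopens X) : G := M.mv x z U * M.mv z y U * M.mv x z U

open Classical in
/-- An index different from a given one. -/
noncomputable def other (i : Fin m) : Fin m := if h : ∃ z, z ≠ i then h.choose else i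

theorem other_ne (hm : 18 ≤ m) (i : Fin m) : other i ≠ i := by
  obtain ⟨z, hz⟩ := exists_fresh [i] (by simp; omega)
  have h : ∃ z, z ≠ i := ⟨z, by simpa using hz⟩
  rw [other, dif_pos h]
  exact h.choose_spec

/-- The exchange of any two slots. -/
noncomputable def ex (x y : Slot m) (U : Clopens X) : G :=
  if x.2 ≠ y.2 then M.mv x y U else M.thru x y (0, other x.2) U

theorem ex_of_ne {x y : Slot m} (h : x.2 ≠ y.2) (U : Clopens X) : M.ex x y U = M.mv x y U :=
  if_pos h

variable (hm : 18 ≤ m)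
include hm

/-- The exchange does not depend on the third slot. -/
theorem ex_eq_thru {x y z : Slot m} {U : Clopens X} (hxy : x.2 = y.2) (hz : z.2 ≠ x.2)
    (hd : Apart x U y U) : M.ex x y U = M.thru x y z U := by
  have step : ∀ z z' : Slot m, z.2 ≠ x.2 → z'.2 ≠ x.2 → z.2 ≠ z'.2 →
      M.thru x y z U = M.thru x y z' U := by
    intro z z' hz hz' hne
    have hy : z.2 ≠ y.2 := hxy ▸ hz
    have hy' : z'.2 ≠ y.2 := hxy ▸ hz'
    have ta : M.mv x z U = M.mv x z' U * M.mv z z' U * M.mv x z' U := by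
      rw [← M.mv_symm hne, M.mv_tri hz'.symm hne.symm hz.symm]
    have td : M.mv z z' U * M.mv z y U * M.mv z z' U = M.mv z' y U := by
      rw [← M.mv_symm hne, M.mv_tri hne.symm hy hy']
    have hc : Commute (M.mv x z' U) (M.mv z y U) :=
      M.mv_comm hz'.symm hy (apart_of_ne hz.symm) hd (apart_of_ne hne.symm) (apart_of_ne hy')
    show M.mv x z U * M.mv z y U * M.mv x z U = M.mv x z' U * M.mv z' y U * M.mv x z' U
    rw [ta, ← td]
    calc M.mv x z' U * M.mv z z' U * M.mv x z' U * M.mv z y U *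
          (M.mv x z' U * M.mv z z' U * M.mv x z' U)
        = M.mv x z' U * M.mv z z' U * (M.mv x z' U * M.mv z y U * M.mv x z' U) * M.mv z z' U *
          M.mv x z' U := by simp only [mul_assoc]
      _ = _ := by
          rw [conj_eq (M.mv_sq hz'.symm U) hc]
          simp only [mul_assoc]
  rw [ex, if_neg (not_not.2 hxy)]
  obtain ⟨w, hw⟩ := exists_fresh [x.2, z.2, other x.2] (by simp; omega)
  simp only [List.mem_cons, List.not_mem_nil, or_false, not_or] at hw
  exact (step (0, other x.2) (0, w) (other_ne hm _) hw.1 (Ne.symm hw.2.2)).trans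
    (step (0, w) z hw.1 hz hw.2.1)

theorem ex_sq (x y : Slot m) (U : Clopens X) : M.ex x y U * M.ex x y U = 1 := by
  by_cases h : x.2 = y.2
  · have hz := other_ne hm x.2
    rw [ex, if_neg (not_not.2 h)]
    set a := M.mv x (0, other x.2) U with ha
    set b := M.mv (0, other x.2) y U with hb
    calc a * b * a * (a * b * a) = a * b * (a * a) * b * a := by simp only [mul_assoc]
      _ = 1 := by
          rw [M.mv_sq (show x.2 ≠ (0, other x.2).2 from hz.symm), mul_one, mul_assoc a b b,
            M.mv_sq (show (0, other x.2).2 ≠ y.2 from h ▸ hz), mul_one,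
            M.mv_sq (show x.2 ≠ (0, other x.2).2 from hz.symm)]
  · rw [M.ex_of_ne h]; exact M.mv_sq h U

/-- Exchanges with no common point commute. -/
theorem ex_comm {x y z t : Slot m} {U V : Clopens X} (hxy : Apart x U y U) (hzt : Apart z V t V)
    (h1 : Apart x U z V) (h2 : Apart x U t V) (h3 : Apart y U z V) (h4 : Apart y U t V) :
    Commute (M.ex x y U) (M.ex z t V) := by
  obtain ⟨v, hv⟩ := exists_fresh [x.2, y.2, z.2, t.2] (by simp; omega)
  obtain ⟨w, hw⟩ := exists_fresh [x.2, y.2, z.2, t.2, v] (by simp; omega)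
  simp only [List.mem_cons, List.not_mem_nil, or_false, not_or] at hv hw
  obtain ⟨vx, vy, vz, vt⟩ := hv
  obtain ⟨wx, wy, wz, wt, wv⟩ := hw
  have inner : ∀ a b : Slot m, a.2 ≠ b.2 → Apart a U z V → Apart a U t V → Apart b U z V →
      Apart b U t V → a.2 ≠ w → b.2 ≠ w → Commute (M.mv a b U) (M.ex z t V) := by
    intro a b hab a1 a2 b1 b2 aw bw
    by_cases h : z.2 = t.2
    · rw [M.ex_eq_thru hm (z := (0, w)) h wz hzt]
      have c1 := M.mv_comm (U := U) (V := V) hab (Ne.symm wz : z.2 ≠ ((0, w) : Slot m).2)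
        a1 (apart_of_ne aw) b1 (apart_of_ne bw)
      have c2 := M.mv_comm (U := U) (V := V) hab (show ((0, w) : Slot m).2 ≠ t.2 from wt)
        (apart_of_ne aw) a2 (apart_of_ne bw) b2
      exact (c1.mul_right c2).mul_right c1
    · rw [M.ex_of_ne h]
      exact M.mv_comm hab h a1 a2 b1 b2
  by_cases h : x.2 = y.2
  · rw [M.ex_eq_thru hm (z := (0, v)) h vx hxy]
    have c1 := inner x (0, v) (Ne.symm vx) h1 h2 (apart_of_ne vz) (apart_of_ne vt) (Ne.symm wx)
      (Ne.symm wv)
    have c2 := inner (0, v) y vy (apart_of_ne vz) (apart_of_ne vt) h3 h4 (Ne.symm wv) (Ne.symm wy)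
    exact (c1.mul_left c2).mul_left c1
  · rw [M.ex_of_ne h]
    exact inner x y h h1 h2 h3 h4 (Ne.symm wx) (Ne.symm wy)

/-- A slot is moved to a fresh index. -/
theorem conj_left {x z w : Slot m} {U : Clopens X} (hd : Apart x U z U) (hwx : w.2 ≠ x.2)
    (hwz : w.2 ≠ z.2) : M.mv x w U * M.ex x z U * M.mv x w U = M.mv w z U := by
  by_cases h : x.2 = z.2
  · obtain ⟨v, hv⟩ := exists_fresh [x.2, w.2] (by simp; omega)
    simp only [List.mem_cons, List.not_mem_nil, or_false, not_or] at hv
    obtain ⟨vx, vw⟩ := hv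
    have vz : ((0, v) : Slot m).2 ≠ z.2 := h ▸ vx
    rw [M.ex_eq_thru hm (z := (0, v)) h vx hd, thru, conj_mul (M.mv_sq hwx.symm U),
      conj_mul (M.mv_sq hwx.symm U), ← M.mv_symm hwx.symm,
      M.mv_tri hwx (Ne.symm vx : x.2 ≠ ((0, v) : Slot m).2) (Ne.symm vw : w.2 ≠ ((0, v) : Slot m).2),
      conj_eq (M.mv_sq hwx U)
        (M.mv_comm hwx vz (apart_of_ne (Ne.symm vw)) (apart_of_ne hwz) (apart_of_ne (Ne.symm vx)) hd),
      M.mv_tri (Ne.symm vw : w.2 ≠ ((0, v) : Slot m).2) vz hwz]
  · rw [M.ex_of_ne h, ← M.mv_symm hwx.symm, M.mv_tri hwx h hwz]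

theorem ex_symm {x y : Slot m} {U : Clopens X} (hd : Apart x U y U) :
    M.ex y x U = M.ex x y U := by
  by_cases h : x.2 = y.2
  · obtain ⟨v, hv⟩ := exists_fresh [x.2] (by simp; omega)
    simp only [List.mem_cons, List.not_mem_nil, or_false] at hv
    obtain ⟨w, hw⟩ := exists_fresh [x.2, v] (by simp; omega)
    simp only [List.mem_cons, List.not_mem_nil, or_false, not_or] at hw
    have vy : v ≠ y.2 := h ▸ hv
    have wy : w ≠ y.2 := h ▸ hw.1
    have hyv : y.2 ≠ ((0, v) : Slot m).2 := Ne.symm vy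
    rw [M.ex_eq_thru hm (z := (0, v)) h.symm vy hd.symm]
    refine conj_inj (u := M.mv x (0, w) U) ?_
    rw [conj_left M hm hd hw.1 wy, thru,
      conj_mul (M.mv_sq (Ne.symm hw.1) U), conj_mul (M.mv_sq (Ne.symm hw.1) U),
      conj_eq (M.mv_sq (Ne.symm hw.1) U) (M.mv_comm (Ne.symm hw.1) hyv hd
        (apart_of_ne (Ne.symm hv)) (apart_of_ne wy) (apart_of_ne hw.2))]
    have t : M.mv x (0, w) U * M.mv (0, v) x U * M.mv x (0, w) U = M.mv (0, v) (0, w) U := by
      rw [← M.mv_symm (Ne.symm hw.1 : x.2 ≠ ((0, w) : Slot m).2),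
        ← M.mv_symm (show ((0, v) : Slot m).2 ≠ x.2 from hv),
        M.mv_tri (hw.1 : ((0, w) : Slot m).2 ≠ x.2) (Ne.symm hv : x.2 ≠ ((0, v) : Slot m).2)
          (hw.2 : ((0, w) : Slot m).2 ≠ ((0, v) : Slot m).2)]
      exact (M.mv_symm (show ((0, w) : Slot m).2 ≠ ((0, v) : Slot m).2 from hw.2) U).symm
    rw [t, M.mv_tri hyv (Ne.symm hw.2 : ((0, v) : Slot m).2 ≠ ((0, w) : Slot m).2)
      (Ne.symm wy : y.2 ≠ ((0, w) : Slot m).2)]
    exact M.mv_symm (show ((0, w) : Slot m).2 ≠ y.2 from wy) U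
  · rw [M.ex_of_ne h, M.ex_of_ne (Ne.symm h)]
    exact M.mv_symm h U

theorem ex_tri {x y z : Slot m} {U : Clopens X} (hxy : Apart x U y U) (hyz : Apart y U z U)
    (hxz : Apart x U z U) : M.ex x y U * M.ex y z U * M.ex x y U = M.ex x z U := by
  obtain ⟨a, ha⟩ := exists_fresh [x.2, y.2, z.2] (by simp; omega)
  obtain ⟨b, hb⟩ := exists_fresh [x.2, y.2, z.2, a] (by simp; omega)
  simp only [List.mem_cons, List.not_mem_nil, or_false, not_or] at ha hb
  set u := M.mv x (0, a) U with hu
  set u' := M.mv y (0, b) U with hu'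
  have hu2 : u * u = 1 := M.mv_sq (Ne.symm ha.1) U
  have hu2' : u' * u' = 1 := M.mv_sq (Ne.symm hb.2.1) U
  have e1 : u * M.ex y z U * u = M.ex y z U := by
    rw [hu, ← M.ex_of_ne (Ne.symm ha.1 : x.2 ≠ ((0, a) : Slot m).2)]
    exact conj_eq (M.ex_sq hm _ _ _) (M.ex_comm hm (apart_of_ne (Ne.symm ha.1)) hyz hxy hxz
      (apart_of_ne ha.2.1) (apart_of_ne ha.2.2))
  have e2 : u' * M.mv (0, a) z U * u' = M.mv (0, a) z U :=
    conj_eq hu2' (M.mv_comm (Ne.symm hb.2.1) ha.2.2 (apart_of_ne (Ne.symm ha.2.1)) hyz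
      (apart_of_ne hb.2.2.2) (apart_of_ne hb.2.2.1))
  have e3 : u' * M.mv (0, a) y U * u' = M.mv (0, a) (0, b) U := by
    rw [hu', ← M.mv_symm (Ne.symm hb.2.1 : y.2 ≠ ((0, b) : Slot m).2),
      ← M.mv_symm (show ((0, a) : Slot m).2 ≠ y.2 from ha.2.1),
      M.mv_tri (hb.2.1 : ((0, b) : Slot m).2 ≠ y.2) (Ne.symm ha.2.1 : y.2 ≠ ((0, a) : Slot m).2)
        (hb.2.2.2 : ((0, b) : Slot m).2 ≠ ((0, a) : Slot m).2)]
    exact (M.mv_symm (show ((0, b) : Slot m).2 ≠ ((0, a) : Slot m).2 from hb.2.2.2) U).symm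
  refine conj_inj (u := u) (conj_inj (u := u') ?_)
  rw [conj_mul hu2, conj_mul hu2, conj_mul hu2', conj_mul hu2', e1,
    conj_left M hm hxy ha.1 ha.2.1, conj_left M hm hxz ha.1 ha.2.2, e2, e3,
    conj_left M hm hyz hb.2.1 hb.2.2.1]
  exact M.mv_tri (Ne.symm hb.2.2.2 : ((0, a) : Slot m).2 ≠ ((0, b) : Slot m).2) hb.2.2.1 ha.2.2 U

theorem ex_bot (x y : Slot m) : M.ex x y (⊥ : Clopens X) = 1 := by
  by_cases h : x.2 = y.2
  · have hz := other_ne hm x.2
    rw [ex, if_neg (not_not.2 h), thru, M.mv_bot (show x.2 ≠ (0, other x.2).2 from hz.symm),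
      M.mv_bot (show (0, other x.2).2 ≠ y.2 from h ▸ hz)]
    simp
  · rw [M.ex_of_ne h, M.mv_bot h]

theorem ex_sup {x y : Slot m} {U V : Clopens X} (hd : Apart x (U ⊔ V) y (U ⊔ V))
    (hUV : Disjoint U V) : M.ex x y (U ⊔ V) = M.ex x y U * M.ex x y V := by
  by_cases h : x.2 = y.2
  · obtain ⟨v, hv⟩ := exists_fresh [x.2] (by simp; omega)
    simp only [List.mem_cons, List.not_mem_nil, or_false] at hv
    have vy : v ≠ y.2 := h ▸ hv
    have hxv : x.2 ≠ ((0, v) : Slot m).2 := Ne.symm hv
    have dU : Apart x U y U := fun a ha b hb => hd a (Or.inl ha) b (Or.inl hb)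
    have dV : Apart x V y V := fun a ha b hb => hd a (Or.inr ha) b (Or.inr hb)
    have dUV : Apart x U y V := fun a ha b hb => hd a (Or.inl ha) b (Or.inr hb)
    have dVU : Apart x V y U := fun a ha b hb => hd a (Or.inr ha) b (Or.inl hb)
    rw [M.ex_eq_thru hm (z := (0, v)) h hv hd, M.ex_eq_thru hm (z := (0, v)) h hv dU,
      M.ex_eq_thru hm (z := (0, v)) h hv dV]
    have sa : M.mv x (0, v) (U ⊔ V) = M.mv x (0, v) U * M.mv x (0, v) V :=
      M.move_sup _ _ hxv _ _ U V hUV
    have sb : M.mv (0, v) y (U ⊔ V) = M.mv (0, v) y U * M.mv (0, v) y V :=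
      M.move_sup _ _ vy _ _ U V hUV
    have caa : Commute (M.mv x (0, v) U) (M.mv x (0, v) V) :=
      M.mv_comm hxv hxv (apart_self hUV) (apart_of_ne hxv) (apart_of_ne hv) (apart_self hUV)
    have cba : Commute (M.mv (0, v) y U) (M.mv x (0, v) V) :=
      M.mv_comm vy hxv (apart_of_ne hv) (apart_self hUV) dVU.symm (apart_of_ne (Ne.symm vy))
    have cab : Commute (M.mv x (0, v) U) (M.mv (0, v) y V) :=
      M.mv_comm hxv vy (apart_of_ne hxv) dUV (apart_self hUV) (apart_of_ne vy)
    simp only [thru, sa, sb]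
    have c1 : Commute (M.mv x (0, v) V) (M.mv (0, v) y U) := cba.symm
    have c2 : Commute (M.mv x (0, v) V * M.mv (0, v) y V) (M.mv x (0, v) U) :=
      caa.symm.mul_left cab.symm
    calc M.mv x (0, v) U * M.mv x (0, v) V * (M.mv (0, v) y U * M.mv (0, v) y V) *
          (M.mv x (0, v) U * M.mv x (0, v) V)
        = M.mv x (0, v) U * (M.mv x (0, v) V * M.mv (0, v) y U) *
          (M.mv (0, v) y V * M.mv x (0, v) U) * M.mv x (0, v) V := by simp only [mul_assoc]
      _ = M.mv x (0, v) U * M.mv (0, v) y U *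
          ((M.mv x (0, v) V * M.mv (0, v) y V) * M.mv x (0, v) U) * M.mv x (0, v) V := by
            rw [c1.eq]; simp only [mul_assoc]
      _ = _ := by rw [c2.eq]; simp only [mul_assoc]
  · simp only [M.ex_of_ne h]
    exact M.move_sup _ _ h _ _ U V hUV

theorem ex_shift {x y x' y' : Slot m} (v : Cell) {U V : Clopens X}
    (hUV : ∀ a : X, a ∈ U ↔ v +ᵥ a ∈ V) (hd : Apart x U y U)
    (hx : x = (x'.1 + v, x'.2)) (hy : y = (y'.1 + v, y'.2)) : M.ex x y U = M.ex x' y' V := by
  have hs : ∀ a b : Slot m, a.2 ≠ b.2 → M.mv (a.1 + v, a.2) (b.1 + v, b.2) U = M.mv a b V :=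
    fun a b h => M.move_shift _ _ h _ _ v U V hUV
  subst hx hy
  by_cases h : x'.2 = y'.2
  · obtain ⟨z, hz⟩ := exists_fresh [x'.2] (by simp; omega)
    simp only [List.mem_cons, List.not_mem_nil, or_false] at hz
    have zy : z ≠ y'.2 := h ▸ hz
    have hd' : Apart x' V y' V := by
      intro a ha b hb e ne
      have ha' : -v +ᵥ a ∈ U := (hUV _).2 (by rwa [vadd_neg_vadd])
      have hb' : -v +ᵥ b ∈ U := (hUV _).2 (by rwa [vadd_neg_vadd])
      exact hd _ ha' _ hb' e (by rwa [add_vadd, add_vadd, vadd_neg_vadd, vadd_neg_vadd])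
    rw [M.ex_eq_thru hm (x := (x'.1 + v, x'.2)) (y := (y'.1 + v, y'.2)) (z := ((0 : Cell) + v, z)) h hz hd,
      M.ex_eq_thru hm (z := (0, z)) h hz hd', thru, thru,
      hs x' (0, z) (Ne.symm hz), hs (0, z) y' zy]
  · rw [M.ex_of_ne (x := (x'.1 + v, x'.2)) (y := (y'.1 + v, y'.2)) h, M.ex_of_ne h]
    exact hs _ _ h

section Lift

variable {T : Type} (c : Chart Cell X m T)

omit hm in
/-- The base of a chart as a clopen set. -/
def baseC : Clopens X := ⟨c.base, c.clopen⟩

omit hm in
theorem apart_chart {a b : T} (h : a ≠ b) :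
    Apart (c.slot a) (baseC c) (c.slot b) (baseC c) :=
  fun u hu v hv e e' => h (c.disj a b u hu v hv e e')

open Classical in
/-- The exchange of two slots of a chart. -/
noncomputable def exT (a b : T) : G :=
  if a = b then 1 else M.ex (c.slot a) (c.slot b) (baseC c)

theorem exT_rel : SwapRel (M.exT c) where
  diag a := if_pos rfl
  symm a b := by
    by_cases h : a = b
    · simp [exT, h]
    · simp only [exT, if_neg h, if_neg (Ne.symm h)]
      exact M.ex_symm hm (apart_chart c h)
  sq a b := by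
    by_cases h : a = b
    · simp [exT, h]
    · simp only [exT, if_neg h]; exact M.ex_sq hm _ _ _
  comm a b p q h1 h2 h3 h4 := by
    by_cases h : a = b
    · simp [exT, h]
    by_cases h' : p = q
    · simp [exT, h']
    simp only [exT, if_neg h, if_neg h']
    exact M.ex_comm hm (apart_chart c h) (apart_chart c h') (apart_chart c h1) (apart_chart c h2)
      (apart_chart c h3) (apart_chart c h4)
  tri a b p h1 h2 h3 := by
    simp only [exT, if_neg h1, if_neg h2, if_neg h3]
    exact M.ex_tri hm (apart_chart c h1) (apart_chart c h2) (apart_chart c h3)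

/-- The lift of the slot permutations of a chart. -/
noncomputable def liftChart [Finite T] : Perm T →* G :=
  @swapHom T G _ (Classical.decEq T) (Fintype.ofFinite T) (M.exT c) (M.exT_rel hm c)

theorem liftChart_swap [Finite T] [DecidableEq T] (a b : T) :
    M.liftChart hm c (swap a b) = M.exT c a b := by
  obtain rfl : ‹DecidableEq T› = Classical.decEq T := Subsingleton.elim _ _
  exact @swapHom_swap T G _ (Classical.decEq T) (Fintype.ofFinite T) _ _ a b

omit hm in
theorem pairChart_perm [DecidableEq T] {a b : T} (h : (c.slot a).2 ≠ (c.slot b).2) :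
    M.toPerm (M.mv (c.slot a) (c.slot b) (baseC c)) = c.perm (swap a b) := by
  rw [mv, M.toPerm_move _ _ h]
  have hab : a ≠ b := fun e => h (e ▸ rfl)
  let f : Fin 2 ↪ T := ⟨![a, b], fun i j => by fin_cases i <;> fin_cases j <;> simp [hab, hab.symm]⟩
  have hf : Perm.viaEmbedding (swap (0 : Fin 2) 1) f = swap a b := viaEmbedding_swap f 0 1
  rw [← hf, ← c.perm_comap]
  refine DFunLike.congr_fun (Chart.perm_congr (pairChart _ _ h _ _ (baseC c)) (c.comap f) rfl
    (funext fun i => ?_)) _
  fin_cases i <;> rfl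

theorem toPerm_exT [DecidableEq T] (a b : T) : M.toPerm (M.exT c a b) = c.perm (swap a b) := by
  by_cases h : a = b
  · subst h; simp [exT, ← Equiv.Perm.one_def]
  simp only [exT, if_neg h]
  by_cases hi : (c.slot a).2 = (c.slot b).2
  · obtain ⟨v, hv⟩ := exists_fresh [(c.slot a).2] (by simp; omega)
    simp only [List.mem_cons, List.not_mem_nil, or_false] at hv
    let d : Chart Cell X m (Fin 3) :=
      { base := c.base
        clopen := c.clopen
        slot := ![c.slot a, (0, v), c.slot b]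
        disj := fun i j x hx y hy e e' => by
          fin_cases i <;> fin_cases j <;> simp at e e' ⊢
          · exact hv e.symm
          · exact h (c.disj a b x hx y hy e e')
          · exact hv e
          · exact hv (e.trans hi.symm)
          · exact h (c.disj b a x hx y hy e e').symm
          · exact hv (e.symm.trans hi.symm) }
    rw [M.ex_eq_thru hm (z := (0, v)) hi hv (apart_chart c h), thru, map_mul, map_mul]
    have e1 : M.toPerm (M.mv (c.slot a) (0, v) (baseC c)) = d.perm (swap 0 1) :=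
      pairChart_perm M d (a := 0) (b := 1) (Ne.symm hv)
    have e2 : M.toPerm (M.mv (0, v) (c.slot b) (baseC c)) = d.perm (swap 1 2) :=
      pairChart_perm M d (a := 1) (b := 2) (fun e => hv (e.trans hi.symm))
    rw [e1, e2, ← map_mul, ← map_mul,
      show swap (0 : Fin 3) 1 * swap 1 2 * swap 0 1 = swap 0 2 by decide]
    let f : Fin 2 ↪ T := ⟨![a, b], fun i j => by fin_cases i <;> fin_cases j <;> simp [h, Ne.symm h]⟩
    let g : Fin 2 ↪ Fin 3 := ⟨![0, 2], by decide⟩
    have hf : Perm.viaEmbedding (swap (0 : Fin 2) 1) f = swap a b := viaEmbedding_swap f 0 1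
    have hg : Perm.viaEmbedding (swap (0 : Fin 2) 1) g = swap 0 2 := viaEmbedding_swap g 0 1
    rw [← hg, ← hf, ← d.perm_comap, ← c.perm_comap]
    refine DFunLike.congr_fun (Chart.perm_congr (d.comap g) (c.comap f) rfl
      (funext fun i => ?_)) _
    fin_cases i <;> rfl
  · rw [M.ex_of_ne hi]
    exact pairChart_perm M c hi

theorem toPerm_liftChart [Finite T] (σ : Perm T) : M.toPerm (M.liftChart hm c σ) = c.perm σ := by
  classical
  refine DFunLike.congr_fun (hom_eq_of_swap (φ := M.toPerm.comp (M.liftChart hm c)) fun a b => ?_) σ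
  rw [MonoidHom.comp_apply, liftChart_swap, toPerm_exT M hm c]

theorem liftChart_comap {S : Type} [Finite S] [Finite T] (f : S ↪ T) (σ : Perm S) :
    M.liftChart hm (c.comap f) σ = M.liftChart hm c (Perm.viaEmbedding σ f) := by
  classical
  refine DFunLike.congr_fun (hom_eq_of_swap
    (ψ := (M.liftChart hm c).comp (Perm.viaEmbeddingHom f)) fun a b => ?_) σ
  rw [MonoidHom.comp_apply, liftChart_swap, Perm.viaEmbeddingHom_apply, viaEmbedding_swap,
    liftChart_swap]
  simp only [exT, f.injective.eq_iff]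
  rfl

/-- Charts with no common point have commuting lifts. -/
theorem commute_liftChart {S : Type} [Finite S] [Finite T] (d : Chart Cell X m S)
    (h : ∀ a b, Apart (c.slot a) (baseC c) (d.slot b) (baseC d)) (σ : Perm T) (τ : Perm S) :
    Commute (M.liftChart hm c σ) (M.liftChart hm d τ) := by
  classical
  have hσ : σ ∈ Subgroup.closure {σ : Perm T | σ.IsSwap} := by
    rw [Equiv.Perm.closure_isSwap]; trivial
  have hτ : τ ∈ Subgroup.closure {τ : Perm S | τ.IsSwap} := by
    rw [Equiv.Perm.closure_isSwap]; trivial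
  induction hσ using Subgroup.closure_induction with
  | mem σ hσ =>
    obtain ⟨a, b, hab, rfl⟩ := hσ
    induction hτ using Subgroup.closure_induction with
    | mem τ hτ =>
      obtain ⟨p, q, hpq, rfl⟩ := hτ
      simp only [liftChart_swap, exT, if_neg hab, if_neg hpq]
      exact M.ex_comm hm (apart_chart c hab) (apart_chart d hpq) (h a p) (h a q) (h b p) (h b q)
    | one => simp
    | mul τ τ' _ _ h1 h2 => rw [map_mul]; exact h1.mul_right h2
    | inv τ _ h1 => rw [map_inv]; exact h1.inv_right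
  | one => simp
  | mul σ σ' _ _ h1 h2 => rw [map_mul]; exact h1.mul_left h2
  | inv σ _ h1 => rw [map_inv]; exact h1.inv_left

theorem liftChart_split [Finite T] (U : Set X) (hU : IsClopen U) (σ : Perm T) :
    M.liftChart hm c σ =
      M.liftChart hm (c.restrict (c.base ∩ U) (c.clopen.inter hU) Set.inter_subset_left) σ *
      M.liftChart hm
        (c.restrict (c.base ∩ Uᶜ) (c.clopen.inter hU.compl) Set.inter_subset_left) σ := by
  classical
  set c₁ := c.restrict (c.base ∩ U) (c.clopen.inter hU) Set.inter_subset_left with h₁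
  set c₂ := c.restrict (c.base ∩ Uᶜ) (c.clopen.inter hU.compl) Set.inter_subset_left with h₂
  have hdis : Disjoint (baseC c₁) (baseC c₂) :=
    Clopens.coe_disjoint.1 (Set.disjoint_left.2 fun x hx hx' => hx'.2 hx.2)
  have hap : ∀ a b, Apart (c₁.slot a) (baseC c₁) (c₂.slot b) (baseC c₂) := fun a b => by
    by_cases h : a = b
    · subst h; exact apart_self hdis
    · exact fun u hu v hv => apart_chart c h u hu.1 v hv.1
  let φ : Perm T →* G :=
    MonoidHom.mk' (fun σ => M.liftChart hm c₁ σ * M.liftChart hm c₂ σ) fun σ τ => by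
      simp only [map_mul]
      exact (commute_liftChart M hm c₁ c₂ hap τ σ).mul_mul_mul_comm _ _
  refine DFunLike.congr_fun (hom_eq_of_swap (φ := M.liftChart hm c) (ψ := φ) fun a b => ?_) σ
  show _ = M.liftChart hm c₁ (swap a b) * M.liftChart hm c₂ (swap a b)
  simp only [liftChart_swap, exT]
  split_ifs with h
  · simp
  have e : baseC c = baseC c₁ ⊔ baseC c₂ :=
    Clopens.ext (Set.inter_union_compl c.base U).symm
  rw [e]
  exact M.ex_sup hm (e ▸ apart_chart c h) hdis

theorem liftChart_shift [Finite T] (d : Chart Cell X m T) (v : Cell)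
    (hb : d.base = (fun x => v +ᵥ x) '' c.base)
    (hs : ∀ a, d.slot a = ((c.slot a).1 - v, (c.slot a).2)) :
    M.liftChart hm d = M.liftChart hm c := by
  classical
  refine hom_eq_of_swap fun a b => ?_
  simp only [liftChart_swap, exT]
  split_ifs with h
  · rfl
  refine (M.ex_shift hm v (U := baseC c) (V := baseC d) (fun x => ?_) (apart_chart c h) ?_ ?_).symm
  · show x ∈ c.base ↔ v +ᵥ x ∈ d.base
    rw [hb]
    exact ⟨fun hx => ⟨x, hx, rfl⟩, fun ⟨y, hy, e⟩ => (vadd_left_cancel_iff v).1 e ▸ hy⟩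
  · rw [hs]; ext <;> simp
  · rw [hs]; ext <;> simp

end Lift

open Classical in
/-- Moves give lifts of all charts. -/
noncomputable def toLift : Flux.Lift X m G where
  toPerm := M.toPerm
  lift c := M.liftChart hm c
  toPerm_lift c σ := M.toPerm_liftChart hm c σ
  lift_comap c f σ := M.liftChart_comap hm c f σ
  lift_split c U hU σ := M.liftChart_split hm c U hU σ
  lift_shift c d v hb hs := M.liftChart_shift hm c d v hb hs
  lift_commute {S T} _ _ c d σ τ h := by
    let f : {a // σ a ≠ a} ↪ S := Function.Embedding.subtype _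
    let g : {b // τ b ≠ b} ↪ T := Function.Embedding.subtype _
    have hf : Perm.viaEmbedding (σ.subtypePerm fun a => by simp) f = σ := by
      refine Equiv.ext fun a => ?_
      by_cases ha : σ a ≠ a
      · exact Perm.viaEmbedding_apply _ f ⟨a, ha⟩
      · rw [Perm.viaEmbedding_apply_of_notMem _ _ _ (by
          rintro ⟨⟨b, hb⟩, rfl⟩; exact ha hb)]
        exact (not_not.1 ha).symm
    have hg : Perm.viaEmbedding (τ.subtypePerm fun b => by simp) g = τ := by
      refine Equiv.ext fun a => ?_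
      by_cases ha : τ a ≠ a
      · exact Perm.viaEmbedding_apply _ g ⟨a, ha⟩
      · rw [Perm.viaEmbedding_apply_of_notMem _ _ _ (by
          rintro ⟨⟨b, hb⟩, rfl⟩; exact ha hb)]
        exact (not_not.1 ha).symm
    rw [← hf, ← hg, ← M.liftChart_comap hm c f, ← M.liftChart_comap hm d g]
    exact M.commute_liftChart hm (c.comap f) (d.comap g)
      (fun a b u hu v hv e e' => h a b a.2 b.2 u hu v hv (Prod.ext e' e)) _ _
  generated := by
    refine eq_top_iff.2 (M.generated.ge.trans ((Subgroup.closure_le _).2 ?_))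
    rintro _ ⟨a, b, p, q, U, hab, rfl⟩
    refine Subgroup.subset_closure ⟨pairChart a b hab p q U, ?_⟩
    rw [M.liftChart_swap hm, exT, if_neg (by decide), M.ex_of_ne (show _ ≠ _ from hab)]
    rfl

theorem toLift_toPerm : (M.toLift hm).toPerm = M.toPerm := rfl

end Moves

end Vale.Agent.P196.Fp
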