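import Vale.Agent.P196.Fp.Base
import Vale.Agent.P196.Fp.AllCom

/-!
# P196: a component for every clopen set

All events of level zero commute and absent patterns vanish, so the events give a Boolean
homomorphism from the clopen sets of the shift.
-/

namespace Vale.Agent.P196.Pres

open Equiv Simple Sft Fp TopologicalSpace
open scoped commutatorElement

variable {S : MacroSystem}

attribute [local instance] MacroSystem.fin

/-- The cell of an index of the box of radius `R`. -/
def boxCell (R : ℕ) (i : Fin (2 * R + 1) × Fin (2 * R + 1)) : Cell :=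
  ((i.1.val : ℤ) - R, (i.2.val : ℤ) - R)

theorem pat_apply (R : ℕ) (t : S.Conf 0) (i) : pat S R t i = t.1 (boxCell R i) := rfl

theorem exists_boxCell {R : ℕ} {p : Cell} (h1 : |p.1| ≤ R) (h2 : |p.2| ≤ R) :
    ∃ i, boxCell R i = p := by
  rw [abs_le] at h1 h2
  exact ⟨(⟨(p.1 + R).toNat, by omega⟩, ⟨(p.2 + R).toNat, by omega⟩),
    Prod.ext (by simp [boxCell]; omega) (by simp [boxCell]; omega)⟩

theorem abs_boxCell {R : ℕ} (i) : |(boxCell R i).1| ≤ R ∧ |(boxCell R i).2| ≤ R := by
  have := i.1.isLt; have := i.2.isLt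
  simp only [boxCell, abs_le]; omega

theorem boxCell_injective (R : ℕ) : Function.Injective (boxCell R) := fun i j e => by
  simp only [boxCell, Prod.mk.injEq, sub_left_inj, Nat.cast_inj] at e
  exact Prod.ext (Fin.ext e.1) (Fin.ext e.2)

theorem exists_cyl (U : Clopens (S.Conf 0)) :
    ∃ R, ∃ s : Set (Pat S R), cyl S R s = U := by
  classical
  obtain ⟨R, hR⟩ := S.exists_radius (fun t => decide (t ∈ U)) <| by
    refine (IsLocallyConstant.iff_eventually_eq _).2 fun t => ?_
    by_cases ht : t ∈ U
    · filter_upwards [U.isClopen.isOpen.mem_nhds ht] with s hs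
      exact decide_eq_decide.2 (iff_of_true hs ht)
    · filter_upwards [U.isClopen.compl.isOpen.mem_nhds ht] with s hs
      exact decide_eq_decide.2 (iff_of_false hs ht)
  refine ⟨R, pat S R '' U, clopens_ext fun t => ⟨?_, fun ht => ⟨t, ht, rfl⟩⟩⟩
  rintro ⟨t', ht', e⟩
  refine (decide_eq_decide.1 (hR t t' fun v h1 h2 => ?_)).2 ht'
  obtain ⟨i, rfl⟩ := exists_boxCell h1 h2
  exact (congrFun e i).symm

/-- Properties of clopen sets closed under meets and complements and true of cells. -/
theorem cyl_induction {p : Clopens (S.Conf 0) → Prop} (R : ℕ)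
    (hinf : ∀ U V, p U → p V → p (U ⊓ V)) (hcompl : ∀ U, p U → p Uᶜ)
    (hcell : ∀ q : Cell, |q.1| ≤ R → |q.2| ≤ R → ∀ c, p (cellSet q c))
    (s : Set (Pat S R)) : p (cyl S R s) := by
  classical
  obtain ⟨t₀, ht₀⟩ := S.legal_nonempty 0
  have hb : p ⊥ := by
    have h := hcell 0 (by simp) (by simp) (t₀ 0)
    simpa [inf_compl_eq_bot] using hinf _ _ h (hcompl _ h)
  have ht : p ⊤ := by simpa using hcompl _ hb
  have hsup : ∀ U V, p U → p V → p (U ⊔ V) := fun U V hU hV => by
    simpa using hcompl _ (hinf _ _ (hcompl _ hU) (hcompl _ hV))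
  have hs : cyl S R s = s.toFinset.sup fun g => cyl S R {g} := by
    refine clopens_ext fun t => ?_
    have aux : ∀ F : Finset (Pat S R), t ∈ F.sup (fun g => cyl S R {g}) ↔ pat S R t ∈ F := by
      intro F
      induction F using Finset.induction_on with
      | empty => simp; exact fun h => h.elim
      | insert g F _ ih =>
        rw [Finset.sup_insert, Finset.mem_insert, ← ih]
        exact Iff.rfl
    rw [aux, Set.mem_toFinset]
    exact Iff.rfl
  rw [hs]
  refine Finset.sup_induction hb (fun U hU V hV => hsup U V hU hV) fun g _ => ?_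
  have hg : cyl S R {g} = Finset.univ.inf fun i => cellSet (boxCell R i) (g i) := by
    refine clopens_ext fun t => ?_
    have aux : ∀ F : Finset (Fin (2 * R + 1) × Fin (2 * R + 1)),
        t ∈ F.inf (fun i => cellSet (boxCell R i) (g i)) ↔ ∀ i ∈ F, pat S R t i = g i := by
      intro F
      induction F using Finset.induction_on with
      | empty => simp; trivial
      | insert i F _ ih =>
        rw [Finset.inf_insert, Finset.forall_mem_insert, ← ih]
        exact Iff.rfl
    rw [aux]
    exact ⟨fun h i _ => congrFun h i, fun h => funext fun i => h i (Finset.mem_univ i)⟩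
  rw [hg]
  exact Finset.inf_induction ht (fun U hU V hV => hinf U V hU hV)
    fun i _ => hcell _ (abs_boxCell i).1 (abs_boxCell i).2 (g i)

theorem clopen_induction {p : Clopens (S.Conf 0) → Prop}
    (hinf : ∀ U V, p U → p V → p (U ⊓ V)) (hcompl : ∀ U, p U → p Uᶜ)
    (hcell : ∀ q c, p (cellSet q c)) (U : Clopens (S.Conf 0)) : p U := by
  obtain ⟨R, s, rfl⟩ := exists_cyl U
  exact cyl_induction R hinf hcompl (fun q _ _ c => hcell q c) s

/-! ### The homomorphism given by commuting events -/

section events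

variable {E : EventAlgebra} (L : LocalEvents E (S.W 0))
  (h : ∀ p q c d, E.com (L.ev p c) (L.ev q d))

/-- The event of a pattern. -/
def atomP (R : ℕ) (g : Pat S R) : (L.block h).Elem :=
  Finset.univ.inf fun i => L.elem h (boxCell R i) (g i)

open Classical in
/-- The patterns of a set, as a finite set. -/
noncomputable def pats {R : ℕ} (s : Set (Pat S R)) : Finset (Pat S R) :=
  Finset.univ.filter fun g => g ∈ s

theorem mem_pats {R : ℕ} {s : Set (Pat S R)} {g : Pat S R} : g ∈ pats s ↔ g ∈ s := by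
  simp [pats]

theorem pats_union {R : ℕ} (s t : Set (Pat S R)) [DecidableEq (Pat S R)] :
    pats (s ∪ t) = pats s ∪ pats t := by
  ext g; simp [mem_pats]

theorem pats_univ {R : ℕ} : pats (Set.univ : Set (Pat S R)) = Finset.univ := by
  ext g; simp [mem_pats]

theorem pats_empty {R : ℕ} : pats (∅ : Set (Pat S R)) = ∅ := by
  ext g; simp [mem_pats]

/-- The event of a set of patterns. -/
noncomputable def evP (R : ℕ) (s : Set (Pat S R)) : (L.block h).Elem :=
  (pats s).sup (atomP L h R)

theorem atomP_disjoint {R : ℕ} {g g' : Pat S R} (hg : g ≠ g') :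
    atomP L h R g ⊓ atomP L h R g' = ⊥ := by
  obtain ⟨i, hi⟩ := Function.ne_iff.1 hg
  rw [← _root_.le_bot_iff, ← L.elem_exclusive h (boxCell R i) hi]
  exact inf_le_inf (Finset.inf_le (Finset.mem_univ i)) (Finset.inf_le (Finset.mem_univ i))

theorem mem_evP_inf {R : ℕ} (g : Pat S R) (s : Set (Pat S R)) :
    atomP L h R g ⊓ evP L h R s = by classical exact if g ∈ s then atomP L h R g else ⊥ := by
  classical
  rw [evP, Finset.sup_inf_distrib_left]
  split_ifs with hg
  · refine _root_.le_antisymm (Finset.sup_le fun g' _ => _root_.inf_le_left) ?_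
    exact (_root_.le_inf le_rfl le_rfl).trans (Finset.le_sup (f := fun g' => atomP L h R g ⊓ atomP L h R g')
      (mem_pats.2 hg))
  · refine _root_.le_bot_iff.1 (Finset.sup_le fun g' hg' => le_of_eq (atomP_disjoint L h ?_))
    rintro rfl
    exact hg (mem_pats.1 hg')

theorem sup_atomP (R : ℕ) : evP L h R Set.univ = ⊤ := by
  classical
  rw [← compl_eq_bot]
  obtain ⟨t₀, ht₀⟩ := S.legal_nonempty 0
  refine EventAlgebra.eq_bot_of_patterns (Finset.univ.image (boxCell R)) (L.elem h) _ t₀
    (fun p _ => by rw [L.sup_elem]; exact _root_.le_top) fun g => ?_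
  rw [Finset.inf_image, ← _root_.le_bot_iff, ← compl_inf_eq_bot (a := evP L h R Set.univ)]
  refine inf_le_inf_left _ ?_
  exact Finset.le_sup (f := atomP L h R) (b := fun i => g (boxCell R i))
    (mem_pats.2 (Set.mem_univ _))

theorem eq_sup_atomP (R : ℕ) (x : (L.block h).Elem) :
    x = Finset.univ.sup fun g => x ⊓ atomP L h R g := by
  classical
  conv_lhs => rw [← inf_top_eq x, ← sup_atomP L h R, evP, Finset.sup_inf_distrib_left]
  rw [pats_univ]

theorem evP_inf (R : ℕ) (s t : Set (Pat S R)) :
    evP L h R s ⊓ evP L h R t = evP L h R (s ∩ t) := by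
  classical
  conv_lhs => rw [eq_sup_atomP L h R (evP L h R s ⊓ evP L h R t)]
  conv_rhs => rw [eq_sup_atomP L h R (evP L h R (s ∩ t))]
  refine Finset.sup_congr rfl fun g _ => ?_
  rw [_root_.inf_comm, _root_.inf_comm (evP L h R (s ∩ t)), ← _root_.inf_assoc, mem_evP_inf, mem_evP_inf]
  by_cases hs : g ∈ s
  · rw [if_pos hs, mem_evP_inf]
    by_cases ht : g ∈ t <;> simp [hs, ht]
  · simp [hs]

theorem evP_compl (R : ℕ) (s : Set (Pat S R)) : evP L h R sᶜ = (evP L h R s)ᶜ := by
  classical
  refine (IsCompl.compl_eq (a := evP L h R s) (b := evP L h R sᶜ) ⟨?_, ?_⟩).symm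
  · rw [disjoint_iff, evP_inf, Set.inter_compl_self, evP, pats_empty, Finset.sup_empty]
  · rw [codisjoint_iff, evP, evP, ← Finset.sup_union, ← pats_union, Set.union_compl_self]
    exact sup_atomP L h R

theorem elem_eq_evP {R : ℕ} (i) (c : S.C 0) :
    L.elem h (boxCell R i) c = evP L h R {g | g i = c} := by
  classical
  conv_lhs => rw [eq_sup_atomP L h R (L.elem h (boxCell R i) c)]
  conv_rhs => rw [eq_sup_atomP L h R (evP L h R {g | g i = c})]
  refine Finset.sup_congr rfl fun g _ => ?_
  have hle : atomP L h R g ≤ L.elem h (boxCell R i) (g i) := Finset.inf_le (Finset.mem_univ i)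
  rw [_root_.inf_comm (evP L h R _), mem_evP_inf]
  by_cases hg : g i = c
  · rw [if_pos (show g ∈ {g : Pat S R | g i = c} from hg), inf_eq_right, ← hg]; exact hle
  · rw [if_neg (show g ∉ {g : Pat S R | g i = c} from hg), ← _root_.le_bot_iff,
      ← L.elem_exclusive h (boxCell R i) (Ne.symm hg)]
    exact inf_le_inf_left _ hle

theorem evP_congr (R : ℕ) {s t : Set (Pat S R)} (e : cyl S R s = cyl S R t) :
    evP L h R s = evP L h R t := by
  classical
  rw [eq_sup_atomP L h R (evP L h R s), eq_sup_atomP L h R (evP L h R t)]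
  refine Finset.sup_congr rfl fun g _ => ?_
  by_cases hg : ∃ u : S.Conf 0, pat S R u = g
  · obtain ⟨u, rfl⟩ := hg
    rw [_root_.inf_comm, mem_evP_inf, _root_.inf_comm, mem_evP_inf]
    have : pat S R u ∈ s ↔ pat S R u ∈ t := by
      show u ∈ cyl S R s ↔ u ∈ cyl S R t
      rw [e]
    by_cases hs : pat S R u ∈ s <;> simp [hs, ← this]
  · have h0 : atomP L h R g = ⊥ := by
      obtain ⟨t₀, ht₀⟩ := S.legal_nonempty 0
      have hp := L.pattern_eq_bot h (Finset.univ.image (boxCell R))
        (fun p => if hp : ∃ i, boxCell R i = p then g hp.choose else t₀ p) fun u hu => by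
          by_contra! hall
          refine hg ⟨⟨u, hu⟩, funext fun i => ?_⟩
          have := hall _ (Finset.mem_image_of_mem _ (Finset.mem_univ i))
          have hi : ∃ j, boxCell R j = boxCell R i := ⟨i, rfl⟩
          rw [dif_pos hi] at this
          rw [pat_apply]
          refine this.trans ?_
          exact congrArg g (boxCell_injective R hi.choose_spec)
      rw [Finset.inf_image] at hp
      rw [← hp, atomP]
      refine Finset.inf_congr rfl fun i _ => ?_
      have hi : ∃ j, boxCell R j = boxCell R i := ⟨i, rfl⟩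
      simp only [Function.comp_apply, dif_pos hi]
      congr 2
      exact (boxCell_injective R hi.choose_spec).symm
    simp [h0]

/-- The clopen set of a pattern set, seen in a larger box, has the same event. -/
theorem evP_refine {R R' : ℕ} (hRR : R ≤ R') (s : Set (Pat S R)) :
    ∃ s' : Set (Pat S R'), cyl S R' s' = cyl S R s ∧ evP L h R' s' = evP L h R s := by
  classical
  have hex : ∀ i, ∃ j, boxCell R' j = boxCell R i := fun i =>
    exists_boxCell ((abs_boxCell i).1.trans (by exact_mod_cast hRR))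
      ((abs_boxCell i).2.trans (by exact_mod_cast hRR))
  choose j hj using hex
  refine ⟨(fun g' : Pat S R' => fun i => g' (j i)) ⁻¹' s, clopens_ext fun t => ?_, ?_⟩
  · show (fun i => pat S R' t (j i)) ∈ s ↔ pat S R t ∈ s
    simp only [pat_apply, hj]
    rfl
  have ha : ∀ g : Pat S R, atomP L h R g =
      evP L h R' {g' | (fun i => g' (j i)) = g} := by
    intro g
    have hF : ∀ F : Finset (Fin (2 * R + 1) × Fin (2 * R + 1)),
        F.inf (fun i => L.elem h (boxCell R i) (g i)) =
          evP L h R' {g' | ∀ i ∈ F, g' (j i) = g i} := by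
      intro F
      induction F using Finset.induction_on with
      | empty => simp [← sup_atomP L h R', evP, pats_univ]
      | insert i F _ ih =>
        rw [Finset.inf_insert, ih, ← hj i, elem_eq_evP, evP_inf]
        congr 1
        ext g'; simp
    rw [atomP, hF]
    congr 1
    ext g'; simp [funext_iff]
  have hu : ∀ F : Finset (Pat S R), F.sup (atomP L h R) =
      evP L h R' {g' | (fun i => g' (j i)) ∈ F} := by
    intro F
    induction F using Finset.induction_on with
    | empty => simp [evP, pats_empty]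
    | insert g F _ ih =>
      rw [Finset.sup_insert, ih, ha g, evP, evP, evP, ← Finset.sup_union, ← pats_union]
      congr 2
      ext g'; simp
  show evP L h R' _ = (pats s).sup _
  rw [hu]
  congr 1
  ext g'; simp [mem_pats]

/-- The event of a clopen set. -/
noncomputable def evC (U : Clopens (S.Conf 0)) : (L.block h).Elem :=
  evP L h (exists_cyl U).choose (exists_cyl U).choose_spec.choose

theorem evC_cyl (R : ℕ) (s : Set (Pat S R)) : evC L h (cyl S R s) = evP L h R s := by
  set U := cyl S R s
  obtain ⟨a, ha, ha'⟩ := evP_refine L h (le_max_left (exists_cyl U).choose R)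
    (exists_cyl U).choose_spec.choose
  obtain ⟨b, hb, hb'⟩ := evP_refine L h (le_max_right (exists_cyl U).choose R) s
  rw [evC, ← ha', ← hb']
  exact evP_congr L h _ (by rw [ha, hb, (exists_cyl U).choose_spec.choose_spec])

theorem evC_inf (U V : Clopens (S.Conf 0)) : evC L h (U ⊓ V) = evC L h U ⊓ evC L h V := by
  obtain ⟨R, s, rfl⟩ := exists_cyl U
  obtain ⟨R', t, rfl⟩ := exists_cyl V
  obtain ⟨a, ha, ha'⟩ := evP_refine L h (le_max_left R R') s
  obtain ⟨b, hb, hb'⟩ := evP_refine L h (le_max_right R R') t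
  rw [evC_cyl, evC_cyl, ← ha', ← hb', evP_inf, ← evC_cyl, ← ha, ← hb]
  exact congrArg (evC L h) (clopens_ext fun t => Iff.rfl)

theorem evC_compl (U : Clopens (S.Conf 0)) : evC L h Uᶜ = (evC L h U)ᶜ := by
  obtain ⟨R, s, rfl⟩ := exists_cyl U
  rw [show (cyl S R s)ᶜ = cyl S R sᶜ from clopens_ext fun t => Iff.rfl, evC_cyl, evC_cyl, evP_compl]

theorem evC_cell (p : Cell) (c : S.C 0) : evC L h (cellSet p c) = L.elem h p c := by
  obtain ⟨i, hi⟩ := exists_boxCell (R := p.1.natAbs + p.2.natAbs) (p := p)
    (by rw [abs_le]; omega) (by rw [abs_le]; omega)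
  conv_rhs => rw [← hi, elem_eq_evP, ← evC_cyl]
  refine congrArg (evC L h) (clopens_ext fun t => ?_)
  rw [mem_cellSet]
  show t.1 p = c ↔ pat S _ t i = c
  rw [pat_apply, hi]

end events

/-! ### The components -/

theorem compl_fn {n : ℕ} {G : Type*} [Group G] {C : Ctx G n} (e : Comp C) (σ : Tri n) :
    (Fp.compl e).fn σ = C.d σ.1 * (e.fn σ)⁻¹ := rfl

theorem ctx_d {m r : ℕ} [NeZero m] (hm : 18 ≤ m) (π : Perm (Fin m)) :
    (ctx S m r hm).d π = sym S r π := rfl

variable {m r : ℕ} [NeZero m] (hm : 18 ≤ m) (hr : 1 ≤ r) (hR : S.Rigid)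

include hR in
theorem events_com (p q : Cell) (c d : S.C 0) :
    (componentAlgebra (ctx S m r hm)).com ((events S r hm hr).ev p c) ((events S r hm hr).ev q d) :=
  S.all_com hR ((p.1 - q.1).natAbs + (p.2 - q.2).natAbs) 0 _ _ p q c d
    (by rw [abs_le]; omega) (by rw [abs_le]; omega)

/-- The component of a clopen set. -/
noncomputable def comp (U : Clopens (S.Conf 0)) : Comp (ctx S m r hm) :=
  (evC (events S r hm hr) (events_com hm hr hR) U).1

theorem comp_com (U V : Clopens (S.Conf 0)) : Com (comp hm hr hR U) (comp hm hr hR V) :=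
  (evC (events S r hm hr) (events_com hm hr hR) U).com (evC _ _ V)

theorem comp_inf (U V : Clopens (S.Conf 0)) :
    comp hm hr hR (U ⊓ V) = Fp.inf (comp hm hr hR U) (comp hm hr hR V) :=
  congrArg Subtype.val (evC_inf (events S r hm hr) (events_com hm hr hR) U V)

theorem comp_compl (U : Clopens (S.Conf 0)) :
    comp hm hr hR Uᶜ = Fp.compl (comp hm hr hR U) :=
  congrArg Subtype.val (evC_compl (events S r hm hr) (events_com hm hr hR) U)

theorem comp_cell (p : Cell) (c : S.C 0) : comp hm hr hR (cellSet p c) = ev hm p c :=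
  congrArg Subtype.val (evC_cell (events S r hm hr) (events_com hm hr hR) p c)

theorem comp_bot : comp hm hr hR ⊥ = Fp.bot (ctx S m r hm) := by
  rw [show (⊥ : Clopens (S.Conf 0)) = ⊤ ⊓ ⊤ᶜ from inf_compl_eq_bot.symm, comp_inf, comp_compl]
  exact Fp.inf_compl _

theorem comp_top : comp hm hr hR ⊤ = Fp.top (ctx S m r hm) := by
  rw [show (⊤ : Clopens (S.Conf 0)) = ⊥ᶜ from compl_bot.symm, comp_compl, comp_bot,
    ← Fp.compl_top, Fp.compl_compl]

theorem Tr_comp (x : Cell) (U : Clopens (S.Conf 0)) :
    Tr hm x (comp hm hr hR U) = comp hm hr hR (tr x U) := by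
  refine clopen_induction (p := fun U => Tr hm x (comp hm hr hR U) = comp hm hr hR (tr x U))
    ?_ ?_ ?_ U
  · intro U V hU hV
    rw [show tr x (U ⊓ V) = tr x U ⊓ tr x V from clopens_ext fun t => Iff.rfl, comp_inf, comp_inf,
      ← hU, ← hV]
    exact ((Tr_inf x (comp_com hm hr hR U V)).2).symm
  · intro U hU
    rw [show tr x Uᶜ = (tr x U)ᶜ from clopens_ext fun t => Iff.rfl, comp_compl, comp_compl,
      Tr_compl, hU]
  · intro q c
    rw [comp_cell, tr_cellSet, comp_cell, show q - x = -x + q by abel, ev_add, neg_neg]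

theorem comp_small {U : Clopens (S.Conf 0)} (hU : Small r U) :
    comp hm hr hR U = base hm U hU := by
  obtain ⟨s, rfl⟩ := hU
  suffices h : ∃ hU, comp hm hr hR (cyl S r s) = base hm (cyl S r s) hU from h.2
  refine cyl_induction (p := fun U => ∃ hU, comp hm hr hR U = base hm U hU) r ?_ ?_ ?_ s
  · rintro U V ⟨hU, eU⟩ ⟨hV, eV⟩
    exact ⟨hU.inf hV, by rw [comp_inf, eU, eV, (base_inf hm hU hV).2]⟩
  · rintro U ⟨hU, eU⟩
    exact ⟨hU.compl, by rw [comp_compl, eU, base_compl]⟩
  · intro q h1 h2 c
    exact ⟨small_cellSet h1 h2 c, by rw [comp_cell, ev_base hm h1 h2]⟩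

theorem permAt_bracket (U V : Clopens (S.Conf 0)) (a b : Perm (Fin m)) :
    ⁅permAt S m U a, permAt S m V b⁆ = permAt S m (U ⊓ V) ⁅a, b⁆ := by
  classical
  rw [commutatorElement_def, commutatorElement_def, ← map_inv (permAt S m U),
    ← map_inv (permAt S m V)]
  refine Subtype.ext (Equiv.ext fun ⟨t, c⟩ => ?_)
  simp only [Subgroup.coe_mul, Perm.mul_apply, permAt_apply]
  by_cases hu : t ∈ U <;> by_cases hv : t ∈ V
  · simp only [hu, hv, show t ∈ U ⊓ V from ⟨hu, hv⟩, if_true, permAt_apply, Perm.mul_apply]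
  · simp only [hu, hv, show t ∉ U ⊓ V from fun h => hv h.2, if_true, if_false, permAt_apply,
      Perm.coe_inv, Equiv.apply_symm_apply]
  · simp only [hu, hv, show t ∉ U ⊓ V from fun h => hu h.1, if_true, if_false, permAt_apply,
      Perm.coe_inv, Equiv.apply_symm_apply]
  · simp only [hu, hv, show t ∉ U ⊓ V from fun h => hv h.2, if_false, permAt_apply]

/-- A component acts as the index permutations over its set. -/
theorem phi_comp (U : Clopens (S.Conf 0)) (σ : Tri m) :
    phi S m r ((comp hm hr hR U).fn σ) = permAt S m U σ.1 := by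
  revert σ
  refine clopen_induction
    (p := fun U => ∀ σ : Tri m, phi S m r ((comp hm hr hR U).fn σ) = permAt S m U σ.1) ?_ ?_ ?_ U
  · intro U V hU hV σ
    obtain ⟨x, a, c, h, rfl⟩ := exists_cyc σ
    obtain ⟨q, rfl, rfl, rfl, -⟩ := exists_five x a c h ∅ (by simp; omega)
    obtain ⟨g, h1, h2, o⟩ := comp_com hm hr hR U V
    have e : comp hm hr hR (U ⊓ V) = g := by rw [comp_inf, inf_eq h1 h2 o]
    show phi S m r ((comp hm hr hR (U ⊓ V)).fn q.rho) = permAt S m (U ⊓ V) q.rho.1
    rw [e, meet_formula h1 h2 o q, map_pow, map_commutatorElement, hU, hV, permAt_bracket,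
      ← map_pow, q.commutator]
    have h3 : q.rho.1 ^ 3 = 1 := by rw [← q.rho.2.orderOf]; exact pow_orderOf_eq_one _
    rw [pow_succ, h3, one_mul]
  · intro U hU σ
    rw [comp_compl, compl_fn, ctx_d]
    rw [map_mul, map_inv, hU, show phi S m r (sym S r σ.1) = permAt S m ⊤ σ.1 from
      phi_el (ball_permAt small_top σ.1) (by simp [cap]; omega), mul_inv_eq_iff_eq_mul,
      ← permAt_sup disjoint_compl_left, compl_sup_eq_top]
  · intro q c σ
    obtain ⟨v, hv, hu⟩ := exists_shift σ.1.support (card_support_lt σ hm) (-q)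
    rw [comp_cell, ev, Tr_fn _ σ hv hu, map_mul, map_mul, map_inv, phi_tau hv]
    show _ * phi S m r (el S m r (permAt S m (cellSet 0 c) σ.1)) * _ = _
    rw [phi_el (ball_permAt (small_cellSet_zero c) σ.1) (by simp [cap]; omega),
      sh_conj_permAt v (-q) _ _ fun a ha => hu a (Perm.mem_support.2 ha), tr_cellSet, zero_sub,
      neg_neg]

end Vale.Agent.P196.Pres
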