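import Mathlib

/-!
Components: families of lifted three-cycles inside a group with an index symmetry.
-/

namespace Vale.Agent.P196.Fp

open Equiv Finset
open scoped commutatorElement

variable {n : ℕ}

/-- Three-cycles on the indices. -/
abbrev Tri (n : ℕ) := {σ : Perm (Fin n) // σ.IsThreeCycle}

/-- Conjugation of a three-cycle. -/
def act (π : Perm (Fin n)) (σ : Tri n) : Tri n :=
  ⟨π * σ.1 * π⁻¹, by
    unfold Perm.IsThreeCycle
    rw [Perm.cycleType_conj]
    exact σ.2⟩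

/-- The inverse three-cycle. -/
def triInv (σ : Tri n) : Tri n := ⟨σ.1⁻¹, σ.2.inv⟩

/-- The three-cycle sending `x` to `a` to `c`. -/
def cyc (x a c : Fin n) (h : x ≠ a ∧ a ≠ c ∧ x ≠ c) : Tri n :=
  ⟨swap x a * swap a c, by
    rw [swap_comm x a]
    exact Perm.isThreeCycle_swap_mul_swap_same h.1.symm h.2.1 h.2.2⟩

@[simp] theorem act_val (π : Perm (Fin n)) (σ : Tri n) : (act π σ).1 = π * σ.1 * π⁻¹ := rfl

@[simp] theorem triInv_val (σ : Tri n) : (triInv σ).1 = σ.1⁻¹ := rfl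

theorem act_act (π ρ : Perm (Fin n)) (σ : Tri n) : act π (act ρ σ) = act (π * ρ) σ := by
  ext1; simp [mul_assoc]

theorem act_inv_self (π : Perm (Fin n)) (σ : Tri n) : act π⁻¹ (act π σ) = σ := by
  ext1; simp [mul_assoc]

theorem act_self (σ : Tri n) : act σ.1 σ = σ := by
  ext1; simp

/-- A group with an index symmetry in which disjointly supported index sets commute. -/
structure Ctx (G : Type*) [Group G] (n : ℕ) where
  le : 18 ≤ n
  d : Perm (Fin n) →* G
  K : Finset (Fin n) → Subgroup G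
  disj : ∀ U V, Disjoint U V → ∀ x ∈ K U, ∀ y ∈ K V, Commute x y
  d_mem : ∀ (σ : Tri n) U, σ.1.support ⊆ U → 9 ≤ U.card → d σ.1 ∈ K U

variable {G : Type*} [Group G] {C : Ctx G n}

/-- A component: equivariant lifts of all three-cycles. -/
structure Comp (C : Ctx G n) where
  fn : Tri n → G
  conj : ∀ σ τ, fn σ * fn τ * (fn σ)⁻¹ = fn (act σ.1 τ)
  equiv : ∀ π σ, C.d π * fn σ * (C.d π)⁻¹ = fn (act π σ)
  inv : ∀ σ, fn (triInv σ) = (fn σ)⁻¹
  cube : ∀ σ, fn σ ^ 3 = 1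
  mem : ∀ σ U, σ.1.support ⊆ U → 9 ≤ U.card → fn σ ∈ C.K U

@[ext] theorem Comp.ext {e f : Comp C} (h : ∀ σ, e.fn σ = f.fn σ) : e = f := by
  cases e; cases f; simp only [Comp.mk.injEq]; exact funext h

/-- Orthogonal components commute elementwise. -/
def Orth (e f : Comp C) : Prop := ∀ σ τ, Commute (e.fn σ) (f.fn τ)

/-- `m` lies below `a`. -/
def Le (m a : Comp C) : Prop :=
  ∀ κ ρ, a.fn κ * m.fn ρ * (a.fn κ)⁻¹ = m.fn (act κ.1 ρ)

theorem Orth.symm {e f : Comp C} (h : Orth e f) : Orth f e := fun σ τ => (h τ σ).symm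

theorem Le.refl (e : Comp C) : Le e e := e.conj

theorem conj_inv (e : Comp C) (σ τ : Tri n) :
    (e.fn σ)⁻¹ * e.fn τ * e.fn σ = e.fn (act σ.1⁻¹ τ) := by
  have := e.conj (triInv σ) τ
  rwa [e.inv, inv_inv, triInv_val] at this

/-- Conjugation in the forward direction, as a rewriting rule. -/
theorem conj_eq {x a b : G} (h : x * a * x⁻¹ = b) : x * a = b * x := by
  rw [← h]; group

/-- The full component. -/
def top (C : Ctx G n) : Comp C where
  fn σ := C.d σ.1
  conj σ τ := by simp [act_val]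
  equiv π σ := by simp [act_val]
  inv σ := by simp [triInv_val]
  cube σ := by
    rw [← map_pow]
    have h : σ.1 ^ 3 = 1 := by rw [← σ.2.orderOf]; exact pow_orderOf_eq_one σ.1
    rw [h, map_one]
  mem := C.d_mem

/-- The empty component. -/
def bot (C : Ctx G n) : Comp C where
  fn _ := 1
  conj _ _ := by simp
  equiv _ _ := by simp
  inv _ := by simp
  cube _ := by simp
  mem _ U _ _ := one_mem (C.K U)

theorem le_top (e : Comp C) : Le e (top C) := fun κ ρ => e.equiv κ.1 ρ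

theorem bot_le (e : Comp C) : Le (bot C) e := fun κ ρ => by simp [bot]

theorem Le.fn_commute {m a : Comp C} (h : Le m a) (σ : Tri n) :
    Commute (a.fn σ) (m.fn σ) := by
  have := h σ σ
  rw [act_self] at this
  exact conj_eq this

/-- The part of `a` outside `m`. -/
def diff (a m : Comp C) (h : Le m a) : Comp C where
  fn σ := a.fn σ * (m.fn σ)⁻¹
  equiv π σ := by
    rw [← a.equiv π σ, ← m.equiv π σ]; group
  inv σ := by
    rw [a.inv, m.inv, inv_inv, mul_inv_rev, inv_inv, (h.fn_commute σ).inv_left.eq]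
  cube σ := by
    rw [(h.fn_commute σ).inv_right.mul_pow, inv_pow, a.cube, m.cube]; simp
  mem σ U hs hU := mul_mem (a.mem σ U hs hU) (inv_mem (m.mem σ U hs hU))
  conj σ τ := by
    set τ' := act σ.1 τ with hτ
    have e1 := a.conj σ τ
    have e2 := h σ τ
    have e3 := m.conj σ τ
    have e4 := h τ' (triInv σ)
    have e5 := m.conj τ' (triInv σ)
    rw [← hτ] at e1 e2 e3
    rw [m.inv] at e4 e5
    rw [← e5] at e4
    have ca := (h.fn_commute σ).eq
    calc a.fn σ * (m.fn σ)⁻¹ * (a.fn τ * (m.fn τ)⁻¹) * (a.fn σ * (m.fn σ)⁻¹)⁻¹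
        = (m.fn σ)⁻¹ * (a.fn σ * a.fn τ * (a.fn σ)⁻¹) * (a.fn σ * (m.fn τ)⁻¹ * (a.fn σ)⁻¹)
            * m.fn σ := by
          rw [(h.fn_commute σ).inv_right.eq]; group
      _ = (m.fn σ)⁻¹ * a.fn τ' * (m.fn τ')⁻¹ * m.fn σ := by
          rw [e1, ← e2]; group
      _ = a.fn τ' * (m.fn τ')⁻¹ := by
          have k : (m.fn σ)⁻¹ * a.fn τ' * (m.fn τ')⁻¹ * m.fn σ =
              a.fn τ' * ((a.fn τ')⁻¹ * (m.fn σ)⁻¹ * a.fn τ') * ((m.fn τ')⁻¹ * m.fn σ) := by group
          have l : (a.fn τ')⁻¹ * (m.fn σ)⁻¹ * a.fn τ' = (m.fn τ')⁻¹ * (m.fn σ)⁻¹ * m.fn τ' := by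
            have u := h (triInv τ') (triInv σ)
            have v := m.conj (triInv τ') (triInv σ)
            rw [a.inv, m.inv, inv_inv] at u
            rw [m.inv τ', m.inv σ, inv_inv] at v
            rw [u, v]
          rw [k, l]; group

theorem orth_diff {a m : Comp C} (h : Le m a) : Orth m (diff a m h) := by
  intro ρ κ
  refine Commute.symm (conj_eq ?_)
  have e1 := conj_inv m κ ρ
  have e2 := h κ (act κ.1⁻¹ ρ)
  rw [← e1, act_act, mul_inv_cancel] at e2
  rw [show act 1 ρ = ρ by ext1; simp] at e2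
  simp only [diff]
  calc _ = a.fn κ * ((m.fn κ)⁻¹ * m.fn ρ * m.fn κ) * (a.fn κ)⁻¹ := by group
    _ = _ := e2

/-- The sum of two orthogonal components. -/
def sum (e f : Comp C) (h : Orth e f) : Comp C where
  fn σ := e.fn σ * f.fn σ
  equiv π σ := by rw [← e.equiv π σ, ← f.equiv π σ]; group
  inv σ := by
    rw [e.inv, f.inv, mul_inv_rev, ((h σ σ).inv_inv).eq]
  cube σ := by rw [(h σ σ).mul_pow, e.cube, f.cube, one_mul]
  mem σ U hs hU := mul_mem (e.mem σ U hs hU) (f.mem σ U hs hU)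
  conj σ τ := by
    have h1 : f.fn σ * e.fn τ = e.fn τ * f.fn σ := ((h τ σ).symm).eq
    have h2 : (e.fn σ) * (f.fn (act σ.1 τ)) = f.fn (act σ.1 τ) * e.fn σ := (h σ _).eq
    calc e.fn σ * f.fn σ * (e.fn τ * f.fn τ) * (e.fn σ * f.fn σ)⁻¹
        = e.fn σ * (f.fn σ * e.fn τ) * f.fn τ * (f.fn σ)⁻¹ * (e.fn σ)⁻¹ := by group
      _ = e.fn σ * e.fn τ * (f.fn σ * f.fn τ * (f.fn σ)⁻¹) * (e.fn σ)⁻¹ := by rw [h1]; group
      _ = e.fn (act σ.1 τ) * f.fn (act σ.1 τ) := by
          rw [f.conj, mul_assoc _ (f.fn (act σ.1 τ)),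
            (show Commute (e.fn σ) (f.fn (act σ.1 τ)) from h2).inv_left.symm.eq, ← e.conj σ τ]
          group

theorem le_sum_left {e f : Comp C} (h : Orth e f) : Le e (sum e f h) := by
  intro κ ρ
  simp only [sum]
  rw [← e.conj κ ρ]
  have h1 := ((h ρ κ).symm).eq
  calc _ = e.fn κ * (f.fn κ * e.fn ρ) * (f.fn κ)⁻¹ * (e.fn κ)⁻¹ := by group
    _ = _ := by rw [h1]; group

end Vale.Agent.P196.Fp
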