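import Vale.Agent.P196.Fp.Moves
import Vale.Agent.P196.Simple.Sft

/-!
# P196: elements of the full group used by the presentation

Two-slot moves, permutations of the indices over a clopen set, and shifts of the indices.
-/

namespace Vale.Agent.P196.Pres

open Equiv Simple Sft Fp TopologicalSpace

variable (S : MacroSystem) (m : ℕ)

attribute [local instance] MacroSystem.fin

/-- A local translation with a local translation as inverse is in the full group. -/
theorem mem_fullGroup {g : Perm (S.Pt m)} (h : IsLocTrans Cell (S.Conf 0) m g)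
    (h' : IsLocTrans Cell (S.Conf 0) m g⁻¹) : g ∈ S.fullGroup m := by
  have key : ∀ g : Perm (S.Pt m), IsLocTrans Cell (S.Conf 0) m g → ∃ d, S.IsDisp g d := by
    intro g hg
    have h : ∀ p : S.Pt m, ∃ v : Cell, (g p).1 = v +ᵥ p.1 := fun p => by
      obtain ⟨U, -, hp, q, hq⟩ := hg p
      exact ⟨q.1, congrArg Prod.fst (hq p.1 hp)⟩
    choose d hd using h
    have loc : ∀ p : S.Pt m, ∀ᶠ y in nhds p, d y = d p ∧ (g y).2 = (g p).2 := by
      intro p
      obtain ⟨U, hU, hp, q, hq⟩ := hg p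
      filter_upwards [(hU.prod (isOpen_discrete {p.2})).mem_nhds ⟨hp, rfl⟩] with y hy
      obtain ⟨y1, y2⟩ := y
      obtain ⟨hy1, rfl⟩ := hy
      have f : ∀ z : S.Pt m, g z = (q.1 +ᵥ z.1, q.2) → d z = q.1 := fun z hz =>
        S.vadd_injective z.1 ((hd z).symm.trans (congrArg Prod.fst hz))
      exact ⟨(f _ (hq y1 hy1)).trans (f p (hq p.1 hp)).symm,
        (congrArg Prod.snd (hq y1 hy1)).trans (congrArg Prod.snd (hq p.1 hp)).symm⟩
    exact ⟨d, (IsLocallyConstant.iff_eventually_eq _).2 fun p => (loc p).mono fun _ h => h.1,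
      (IsLocallyConstant.iff_eventually_eq _).2 fun p => (loc p).mono fun _ h => h.2, hd⟩
  exact ⟨key g h, key g⁻¹ h'⟩

theorem chart_mem {T : Type} [Finite T] (c : Chart Cell (S.Conf 0) m T) (σ : Perm T) :
    c.perm σ ∈ S.fullGroup m :=
  mem_fullGroup S m (c.perm_isLocTrans σ) (by rw [← map_inv]; exact c.perm_isLocTrans σ⁻¹)

/-- The exchange of the slots `(p, a)` and `(q, b)` over `U`. -/
noncomputable def moveEl (a b : Fin m) (hab : a ≠ b) (p q : Cell) (U : Clopens (S.Conf 0)) :
    S.fullGroup m :=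
  ⟨(pairChart a b hab p q U).perm (swap 0 1), chart_mem S m _ _⟩

/-- The chart of all indices over `U`. -/
noncomputable def permAt (U : Clopens (S.Conf 0)) : Perm (Fin m) →* S.fullGroup m :=
  MonoidHom.codRestrict (plainChart (V := Cell) (m := m) (U : Set (S.Conf 0)) U.isClopen).perm _
    fun σ => chart_mem S m _ σ

variable {S m}

theorem plainChart_pt (U : Set (S.Conf 0)) (hU : IsClopen U) (b : Fin m) (y : S.Conf 0) :
    (plainChart (V := Cell) U hU).pt b y = (y, b) :=
  Prod.ext (zero_vadd Cell y) rfl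

theorem permAt_of_mem {U : Clopens (S.Conf 0)} (π : Perm (Fin m)) {t : S.Conf 0} (ht : t ∈ U)
    (a : Fin m) : (permAt S m U π).1 (t, a) = (t, π a) := by
  have h := (plainChart (V := Cell) (m := m) (U : Set (S.Conf 0)) U.isClopen).perm_pt π a
    (x := t) ht
  rw [plainChart_pt, plainChart_pt] at h
  exact h

theorem permAt_of_notMem {U : Clopens (S.Conf 0)} (π : Perm (Fin m)) {t : S.Conf 0} (ht : t ∉ U)
    (a : Fin m) : (permAt S m U π).1 (t, a) = (t, a) := by
  refine (plainChart (V := Cell) (m := m) (U : Set (S.Conf 0)) U.isClopen).perm_of_not π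
    fun b y hy h => ht ?_
  rw [plainChart_pt, Prod.mk.injEq] at h
  rw [← h.1]; exact hy

open Classical in
theorem permAt_apply (U : Clopens (S.Conf 0)) (π : Perm (Fin m)) (t : S.Conf 0) (a : Fin m) :
    (permAt S m U π).1 (t, a) = if t ∈ U then (t, π a) else (t, a) := by
  split_ifs with h
  · exact permAt_of_mem π h a
  · exact permAt_of_notMem π h a

theorem moveEl_fst (a b : Fin m) (hab : a ≠ b) (p q : Cell) (U : Clopens (S.Conf 0))
    {t : S.Conf 0} (ht : t ∈ U) :
    (moveEl S m a b hab p q U).1 (p +ᵥ t, a) = (q +ᵥ t, b) := by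
  have h := (pairChart a b hab p q U).perm_pt (swap 0 1) 0 (x := t) ht
  simp [Chart.pt, pairChart] at h
  exact h

theorem moveEl_snd (a b : Fin m) (hab : a ≠ b) (p q : Cell) (U : Clopens (S.Conf 0))
    {t : S.Conf 0} (ht : t ∈ U) :
    (moveEl S m a b hab p q U).1 (q +ᵥ t, b) = (p +ᵥ t, a) := by
  have h := (pairChart a b hab p q U).perm_pt (swap 0 1) 1 (x := t) ht
  simp [Chart.pt, pairChart] at h
  exact h

theorem moveEl_of_not (a b : Fin m) (hab : a ≠ b) (p q : Cell) (U : Clopens (S.Conf 0))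
    {t : S.Conf 0} {c : Fin m} (ha : c = a → -p +ᵥ t ∉ U) (hb : c = b → -q +ᵥ t ∉ U) :
    (moveEl S m a b hab p q U).1 (t, c) = (t, c) := by
  refine (pairChart a b hab p q U).perm_of_not _ fun i y hy h => ?_
  fin_cases i <;> simp [Chart.pt, pairChart] at h
  · exact ha h.2.symm (by rw [← h.1, neg_vadd_vadd]; exact hy)
  · exact hb h.2.symm (by rw [← h.1, neg_vadd_vadd]; exact hy)

theorem moveEl_zero (a b : Fin m) (hab : a ≠ b) (U : Clopens (S.Conf 0)) :
    moveEl S m a b hab 0 0 U = permAt S m U (swap a b) := by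
  refine Subtype.ext (Equiv.ext fun ⟨t, c⟩ => ?_)
  by_cases ht : t ∈ U
  · rw [permAt_of_mem _ ht]
    by_cases ha : c = a
    · subst ha
      have := moveEl_fst c b hab 0 0 U ht
      simpa using this
    by_cases hb : c = b
    · subst hb
      have := moveEl_snd a c hab 0 0 U ht
      simpa using this
    rw [moveEl_of_not a b hab 0 0 U (fun h => absurd h ha) (fun h => absurd h hb),
      swap_apply_of_ne_of_ne ha hb]
  · rw [permAt_of_notMem _ ht,
      moveEl_of_not a b hab 0 0 U (fun _ => by simpa using ht) (fun _ => by simpa using ht)]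

theorem permAt_top_conj (U : Clopens (S.Conf 0)) (π σ : Perm (Fin m)) :
    permAt S m ⊤ π * permAt S m U σ * (permAt S m ⊤ π)⁻¹ = permAt S m U (π * σ * π⁻¹) := by
  refine mul_inv_eq_of_eq_mul (Subtype.ext (Equiv.ext fun ⟨t, c⟩ => ?_))
  have top : ∀ (ρ : Perm (Fin m)) (d : Fin m), (permAt S m ⊤ ρ).1 (t, d) = (t, ρ d) := fun ρ d =>
    permAt_of_mem ρ (show t ∈ (⊤ : Clopens (S.Conf 0)) from trivial) d
  simp only [Subgroup.coe_mul, Perm.mul_apply, top]
  by_cases ht : t ∈ U
  · rw [permAt_of_mem _ ht, top, permAt_of_mem _ ht]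
    simp
  · rw [permAt_of_notMem _ ht, top, permAt_of_notMem _ ht]

theorem permAt_bot (π : Perm (Fin m)) : permAt S m ⊥ π = 1 :=
  Subtype.ext (Equiv.ext fun ⟨t, c⟩ =>
    permAt_of_notMem π (show t ∉ (⊥ : Clopens (S.Conf 0)) from not_false) c)

theorem permAt_sup {U V : Clopens (S.Conf 0)} (h : Disjoint U V) (π : Perm (Fin m)) :
    permAt S m (U ⊔ V) π = permAt S m U π * permAt S m V π := by
  refine Subtype.ext (Equiv.ext fun ⟨t, c⟩ => ?_)
  have hd : ¬ (t ∈ U ∧ t ∈ V) := fun ⟨h1, h2⟩ => by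
    have h3 := disjoint_iff.1 h
    exact (show t ∉ U ⊓ V by rw [h3]; exact not_false) ⟨h1, h2⟩
  by_cases hu : t ∈ U
  · have hv : t ∉ V := fun hv => hd ⟨hu, hv⟩
    rw [permAt_of_mem π (show t ∈ U ⊔ V from Or.inl hu)]
    simp [permAt_of_notMem π hv, permAt_of_mem π hu]
  · by_cases hv : t ∈ V
    · rw [permAt_of_mem π (show t ∈ U ⊔ V from Or.inr hv)]
      simp [permAt_of_mem π hv, permAt_of_notMem π hu]
    · rw [permAt_of_notMem π (show t ∉ U ⊔ V from fun h => h.elim hu hv)]
      simp [permAt_of_notMem π hv, permAt_of_notMem π hu]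

variable (S m)

/-- The shift of every index by its own vector. -/
noncomputable def sh (v : Fin m → Cell) : S.fullGroup m :=
  ⟨{ toFun := fun x => (v x.2 +ᵥ x.1, x.2)
     invFun := fun x => (-v x.2 +ᵥ x.1, x.2)
     left_inv := fun x => by simp
     right_inv := fun x => by simp },
    ⟨fun x => v x.2,
      ((IsLocallyConstant.iff_continuous _).2 continuous_snd).comp v,
      (IsLocallyConstant.iff_continuous _).2 continuous_snd, fun _ => rfl⟩,
    ⟨fun x => -v x.2,
      ((IsLocallyConstant.iff_continuous _).2 continuous_snd).comp fun a => -v a,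
      (IsLocallyConstant.iff_continuous _).2 continuous_snd, fun _ => rfl⟩⟩

variable {S m}

theorem sh_apply (v : Fin m → Cell) (t : S.Conf 0) (a : Fin m) :
    (sh S m v).1 (t, a) = (v a +ᵥ t, a) := rfl

variable (S m)

/-- Shifts form a homomorphism. -/
noncomputable def shHom : Multiplicative (Fin m → Cell) →* S.fullGroup m where
  toFun v := sh S m v.toAdd
  map_one' := Subtype.ext (Equiv.ext fun ⟨t, a⟩ => by simp [sh_apply])
  map_mul' v w := Subtype.ext (Equiv.ext fun ⟨t, a⟩ => by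
    simp [sh_apply, add_vadd])

/-- The vector moving `a` by `x` and `c` by `-x`. -/
def pvec (c a : Fin m) (x : Cell) : Fin m → Cell := Pi.single a x - Pi.single c x

variable {S m}

theorem sh_zero : sh S m 0 = 1 := (shHom S m).map_one

theorem sh_add (v w : Fin m → Cell) : sh S m (v + w) = sh S m v * sh S m w :=
  (shHom S m).map_mul (Multiplicative.ofAdd v) (Multiplicative.ofAdd w)

theorem sh_neg (v : Fin m → Cell) : sh S m (-v) = (sh S m v)⁻¹ :=
  (shHom S m).map_inv (Multiplicative.ofAdd v)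

theorem sh_pvec (a b : Fin m) (hab : a ≠ b) (x : Cell) :
    sh S m (pvec m a b x) = moveEl S m a b hab 0 x ⊤ * moveEl S m a b hab 0 0 ⊤ := by
  refine Subtype.ext (Equiv.ext fun ⟨t, c⟩ => ?_)
  rw [Subgroup.coe_mul, Perm.mul_apply, moveEl_zero, permAt_of_mem _ (show t ∈ (⊤ : Clopens _) from
    trivial), sh_apply]
  by_cases ha : c = a
  · subst ha
    rw [swap_apply_left]
    have h := moveEl_snd (S := S) c b hab 0 x ⊤ (t := -x +ᵥ t) trivial
    simp only [vadd_neg_vadd, zero_vadd] at h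
    rw [h]
    simp [pvec, hab]
  by_cases hb : c = b
  · subst hb
    rw [swap_apply_right]
    have h := moveEl_fst (S := S) a c hab 0 x ⊤ (t := t) trivial
    simp only [zero_vadd] at h
    rw [h]
    simp [pvec, Ne.symm hab]
  rw [swap_apply_of_ne_of_ne ha hb, moveEl_of_not a b hab 0 x ⊤ (fun h => absurd h ha)
    (fun h => absurd h hb)]
  simp [pvec, ha, hb]

theorem permAt_top_sh (π : Perm (Fin m)) (v : Fin m → Cell) :
    permAt S m ⊤ π * sh S m v * (permAt S m ⊤ π)⁻¹ = sh S m (fun a => v (π⁻¹ a)) := by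
  refine mul_inv_eq_of_eq_mul (Subtype.ext (Equiv.ext fun ⟨t, c⟩ => ?_))
  have top : ∀ (t : S.Conf 0) (d : Fin m), (permAt S m ⊤ π).1 (t, d) = (t, π d) := fun t d =>
    permAt_of_mem π (show t ∈ (⊤ : Clopens (S.Conf 0)) from trivial) d
  simp [top, sh_apply]

/-- The translate of a clopen set. -/
noncomputable def tr (x : Cell) (U : Clopens (S.Conf 0)) : Clopens (S.Conf 0) :=
  ⟨(fun t => -x +ᵥ t) ⁻¹' U, U.isClopen.preimage (continuous_const_vadd _)⟩

theorem mem_tr {x : Cell} {U : Clopens (S.Conf 0)} {t : S.Conf 0} :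
    t ∈ tr x U ↔ -x +ᵥ t ∈ U := Iff.rfl

theorem sh_conj_permAt (v : Fin m → Cell) (x : Cell) (U : Clopens (S.Conf 0))
    (σ : Perm (Fin m)) (hv : ∀ a, σ a ≠ a → v a = x) :
    sh S m v * permAt S m U σ * (sh S m v)⁻¹ = permAt S m (tr x U) σ := by
  refine mul_inv_eq_of_eq_mul (Subtype.ext (Equiv.ext fun ⟨t, c⟩ => ?_))
  simp only [Subgroup.coe_mul, Perm.mul_apply, sh_apply]
  by_cases hc : σ c = c
  · have fix : ∀ (W : Clopens (S.Conf 0)) (s : S.Conf 0), (permAt S m W σ).1 (s, c) = (s, c) :=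
      fun W s => by
        classical
        rw [permAt_apply, hc, ite_self]
    rw [fix, fix, sh_apply]
  · have h2 : σ (σ c) ≠ σ c := fun h => hc (σ.injective h)
    have iff : v c +ᵥ t ∈ tr x U ↔ t ∈ U := by rw [mem_tr, hv c hc, neg_vadd_vadd]
    by_cases ht : t ∈ U
    · rw [permAt_of_mem _ ht, permAt_of_mem _ (iff.2 ht), sh_apply, hv c hc, hv _ h2]
    · rw [permAt_of_notMem _ ht, permAt_of_notMem _ (fun h => ht (iff.1 h)), sh_apply]

/-- `g` fixes all indices outside `U`. -/
def Supported (U : Finset (Fin m)) (g : S.fullGroup m) : Prop :=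
  ∀ x : S.Pt m, x.2 ∉ U → g.1 x = x

theorem Supported.mul {U : Finset (Fin m)} {g h : S.fullGroup m} (h1 : Supported U g)
    (h2 : Supported U h) : Supported U (g * h) := fun x hx => by
  rw [Subgroup.coe_mul, Perm.mul_apply, h2 x hx, h1 x hx]

theorem Supported.commute {U V : Finset (Fin m)} (hd : Disjoint U V) {g h : S.fullGroup m}
    (h1 : Supported U g) (h2 : Supported V h) : g * h = h * g := by
  have inv : ∀ {W : Finset (Fin m)} {k : S.fullGroup m}, Supported W k →
      ∀ x : S.Pt m, x.2 ∈ W → (k.1 x).2 ∈ W := fun {W k} hk x hx => by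
    by_contra hn
    exact hn (by rwa [k.1.injective (hk _ hn)])
  refine Subtype.ext (Equiv.ext fun x => ?_)
  simp only [Subgroup.coe_mul, Perm.mul_apply]
  by_cases hu : x.2 ∈ U
  · rw [h2 x (Finset.disjoint_left.1 hd hu), h2 _ (Finset.disjoint_left.1 hd (inv h1 x hu))]
  · rw [h1 x hu]
    by_cases hv : x.2 ∈ V
    · rw [h1 _ fun h => Finset.disjoint_left.1 hd h (inv h2 x hv)]
    · rw [h2 x hv, h1 x hu]

theorem supported_permAt (U : Clopens (S.Conf 0)) {V : Finset (Fin m)} {σ : Perm (Fin m)}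
    (h : σ.support ⊆ V) : Supported V (permAt S m U σ) := fun ⟨t, a⟩ ha => by
  classical
  rw [permAt_apply, Perm.notMem_support.1 fun h' => ha (h h'), ite_self]

theorem supported_pvec {V : Finset (Fin m)} {a b : Fin m} (ha : a ∈ V) (hb : b ∈ V) (x : Cell) :
    Supported V (sh S m (pvec m a b x)) := fun ⟨t, c⟩ hc => by
  have h1 : c ≠ a := fun h => hc (h ▸ ha)
  have h2 : c ≠ b := fun h => hc (h ▸ hb)
  simp [sh_apply, pvec, h1, h2]

end Vale.Agent.P196.Pres
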