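import Vale.Agent.P196.Fp.AltIndex
import Vale.Agent.P196.Flux.Sft
import Vale.Agent.P196.Main.Assembly

/-!
# P196: wiring of the finite presentation half

Moves on a finitely presented group give a lift of all charts; by the flux theorem the kernel is
finitely generated, so the range is finitely presented, and with it the alternating full group.
-/

namespace Vale.Agent.P196.Fp

open Equiv Sft

/-- A homomorphism with finitely generated kernel out of a finitely presented group has a finitely
presented range. -/
theorem fp_range_of_ker_fg {G H : Type*} [Group G] [Group H] [Group.IsFinitelyPresented G]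
    (f : G →* H) (h : f.ker.FG) : Group.IsFinitelyPresented f.range := by
  obtain ⟨R, hR⟩ := h
  refine fp_of_ker_eq_normalClosure f.rangeRestrict f.rangeRestrict_surjective (R : Set G)
    R.finite_toSet ?_
  rw [MonoidHom.ker_rangeRestrict, ← hR]
  exact le_antisymm Subgroup.closure_le_normalClosure
    (hR ▸ Subgroup.normalClosure_le_normal (by rw [← hR]; exact Subgroup.subset_closure))

variable (S : MacroSystem) {m : ℕ} {G : Type*} [Group G]

/-- Moves of the shift on a finitely presented group generated by finitely many of them present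
the alternating full group. -/
theorem fp_altGroup_of_moves (M : Moves (S.Conf 0) m G) (hm : 18 ≤ m)
    [Group.IsFinitelyPresented G]
    (hfg : ∃ R : Set G, R.Finite ∧
      (∀ s ∈ R, ∃ a b p q U, a ≠ b ∧ s = M.move a b p q U) ∧ Subgroup.closure R = ⊤) :
    Group.IsFinitelyPresented (Simple.altGroup Cell (S.Conf 0) m) :=
  have : Group.IsFinitelyPresented M.toPerm.range :=
    fp_range_of_ker_fg M.toPerm (S.ker_central_fg (M.toLift hm) (by omega)).2
  M.fp_altGroup hm hfg

end Vale.Agent.P196.Fp

namespace Vale.Agent.P196.Main

open Sft
open scoped symmDiff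

variable {S : MacroSystem} {m : ℕ} {G : Type*} [Group G]

/-- A system with bands and moves on a finitely presented group answers Q1. -/
theorem exists_group_of_moves (H : S.HasBands) (M : Fp.Moves (S.Conf 0) m G) (hm : 18 ≤ m)
    [Group.IsFinitelyPresented G]
    (hfg : ∃ R : Set G, R.Finite ∧
      (∀ s ∈ R, ∃ a b p q U, a ≠ b ∧ s = M.move a b p q U) ∧ Subgroup.closure R = ⊤) :
    ∃ (G : Type) (_ : Group G) (_ : DecidableEq G), Infinite G ∧ IsSimpleGroup G ∧
      Group.IsFinitelyPresented G ∧ ∀ K : Finset G, ∀ ε : ℝ, 0 < ε → ∃ D : Finset G,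
        D.Nonempty ∧ ∀ g ∈ K, (((D.image (g * ·)) ∆ D).card : ℝ) < ε * D.card :=
  exists_group H (by omega) (Fp.fp_altGroup_of_moves S M hm hfg)

end Vale.Agent.P196.Main
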