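import Vale.Agent.P196.Fp.Elements
import Vale.Agent.P196.Fp.Bool

/-!
# P196: the presented group

Generators are the moves over windows of radius `r` by at most one step; relations are all true
words of bounded length. Short elements lift uniquely, hence the index symmetry, the shifts and
the subgroups of index sets form a `Ctx`.
-/

namespace Vale.Agent.P196.Pres

open Equiv Simple Sft Fp TopologicalSpace

variable (S : MacroSystem) (m r : ℕ)

attribute [local instance] MacroSystem.fin

/-- Patterns on the box of radius `r`. -/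
abbrev Pat : Type := Fin (2 * r + 1) × Fin (2 * r + 1) → S.C 0

/-- The pattern of a configuration at the origin. -/
def pat (t : S.Conf 0) : Pat S r := fun i => t.1 ((i.1.val : ℤ) - r, (i.2.val : ℤ) - r)

theorem isLocallyConstant_pat : IsLocallyConstant (pat S r) :=
  (IsLocallyConstant.iff_continuous _).2
    (continuous_pi fun _ => (continuous_apply _).comp continuous_subtype_val)

/-- The clopen set of a set of patterns. -/
def cyl (s : Set (Pat S r)) : Clopens (S.Conf 0) :=
  ⟨pat S r ⁻¹' s, ⟨⟨isLocallyConstant_pat S r sᶜ⟩, isLocallyConstant_pat S r s⟩⟩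

/-- Names of the generators. -/
abbrev Idx : Type :=
  {x : Fin m × Fin m × Fin 3 × Set (Pat S r) // x.1 ≠ x.2.1}

/-- The steps of the generators. -/
def dir : Fin 3 → Cell := ![0, (1, 0), (0, 1)]

variable {S m r}

/-- The element named by a generator. -/
noncomputable def letter (i : Idx S m r) : S.fullGroup m :=
  moveEl S m i.1.1 i.1.2.1 i.2 0 (dir i.1.2.2.1) (cyl S r i.1.2.2.2)

theorem letter_mul_self (i : Idx S m r) : letter i * letter i = 1 :=
  Subtype.ext (by
    show (pairChart _ _ i.2 0 _ _).perm (swap 0 1) * (pairChart _ _ i.2 0 _ _).perm (swap 0 1) = 1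
    rw [← map_mul, swap_mul_self, map_one])

/-- The element of a word. -/
noncomputable def evalW (l : List (Idx S m r)) : S.fullGroup m := (l.map letter).prod

theorem evalW_reverse (l : List (Idx S m r)) : evalW l.reverse = (evalW l)⁻¹ := by
  refine eq_inv_of_mul_eq_one_left ?_
  induction l with
  | nil => simp [evalW]
  | cons i l ih =>
    simp only [evalW, List.reverse_cons, List.map_append, List.map_cons, List.map_nil,
      List.prod_append, List.prod_cons, List.prod_nil, mul_one] at ih ⊢
    rw [mul_assoc, ← mul_assoc (letter i), letter_mul_self, one_mul, ih]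

variable (S m r)

/-- The length up to which elements lift. -/
def cap : ℕ := 30 * (m + 1)

/-- The true words of bounded length. -/
def rels : Set (FreeGroup (Idx S m r)) :=
  (fun l => (l.map FreeGroup.of).prod) '' {l | l.length ≤ 2 * cap m ∧ evalW l = 1}

theorem finite_rels : (rels S m r).Finite :=
  ((List.finite_length_le (Idx S m r) (2 * cap m)).subset fun _ h => h.1).image _

/-- The presented group. -/
abbrev P₁ : Type := PresentedGroup (rels S m r)

/-- The map to the full group. -/
noncomputable def phi : P₁ S m r →* S.fullGroup m :=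
  PresentedGroup.toGroup (f := letter) (by
    rintro _ ⟨l, ⟨-, hl⟩, rfl⟩
    rw [map_list_prod, List.map_map]
    rw [← hl]
    exact congrArg List.prod (List.map_congr_left fun i _ => FreeGroup.lift_apply_of))

/-- The element of a word in the presented group. -/
def word (l : List (Idx S m r)) : P₁ S m r := (l.map PresentedGroup.of).prod

/-- `g` is a word of length at most `k`. -/
def Ball (k : ℕ) (g : S.fullGroup m) : Prop :=
  ∃ l : List (Idx S m r), l.length ≤ k ∧ evalW l = g

open Classical in
/-- The lift of a short element. -/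
noncomputable def el (g : S.fullGroup m) : P₁ S m r :=
  if h : Ball S m r (cap m) g then word S m r h.choose else 1

variable {S m r}

theorem word_append (l l' : List (Idx S m r)) :
    word S m r (l ++ l') = word S m r l * word S m r l' := by simp [word]

theorem word_eq_one {l : List (Idx S m r)} (hl : l.length ≤ 2 * cap m) (h : evalW l = 1) :
    word S m r l = 1 := by
  have hmem : (l.map FreeGroup.of).prod ∈ rels S m r := ⟨l, ⟨hl, h⟩, rfl⟩
  have h1 := PresentedGroup.one_of_mem hmem
  rw [map_list_prod, List.map_map] at h1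
  exact h1

theorem two_le_cap : 2 ≤ cap m := by simp [cap]; omega

theorem word_reverse (l : List (Idx S m r)) : word S m r l.reverse = (word S m r l)⁻¹ := by
  refine eq_inv_of_mul_eq_one_left ?_
  induction l with
  | nil => simp [word]
  | cons i l ih =>
    have h2 : word S m r [i, i] = 1 :=
      word_eq_one (by have := two_le_cap (m := m); simp; omega)
        (by simp [evalW, letter_mul_self])
    simp only [word, List.map_cons, List.map_nil, List.prod_cons, List.prod_nil, mul_one] at h2
    simp only [word, List.reverse_cons, List.map_append, List.map_cons, List.map_nil,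
      List.prod_append, List.prod_cons, List.prod_nil, mul_one] at ih ⊢
    rw [mul_assoc, ← mul_assoc (PresentedGroup.of i), h2, one_mul, ih]

theorem word_congr {l l' : List (Idx S m r)} (hl : l.length + l'.length ≤ 2 * cap m)
    (h : evalW l = evalW l') : word S m r l = word S m r l' := by
  have h' : evalW (l ++ l'.reverse) = 1 := by
    have := evalW_reverse l'
    simp only [evalW, List.map_append, List.prod_append] at this h ⊢
    rw [this, h, mul_inv_cancel]
  have := word_eq_one (by simpa using hl) h'
  rw [word_append, word_reverse, mul_inv_eq_one] at this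
  exact this

theorem el_evalW {l : List (Idx S m r)} (hl : l.length ≤ cap m) :
    el S m r (evalW l) = word S m r l := by
  have h : Ball S m r (cap m) (evalW l) := ⟨l, hl, rfl⟩
  rw [el, dif_pos h]
  obtain ⟨h1, h2⟩ := h.choose_spec
  exact word_congr (by omega) h2

theorem Ball.mono {k k' : ℕ} {g : S.fullGroup m} (h : Ball S m r k g) (hk : k ≤ k') :
    Ball S m r k' g := let ⟨l, h1, h2⟩ := h; ⟨l, h1.trans hk, h2⟩

theorem ball_one (k : ℕ) : Ball S m r k 1 := ⟨[], Nat.zero_le k, rfl⟩

theorem Ball.mul {j k : ℕ} {g h : S.fullGroup m} (hg : Ball S m r j g) (hh : Ball S m r k h) :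
    Ball S m r (j + k) (g * h) := by
  obtain ⟨l, h1, rfl⟩ := hg
  obtain ⟨l', h2, rfl⟩ := hh
  exact ⟨l ++ l', by simp; omega, by simp [evalW]⟩

theorem Ball.inv {k : ℕ} {g : S.fullGroup m} (hg : Ball S m r k g) : Ball S m r k g⁻¹ := by
  obtain ⟨l, h1, rfl⟩ := hg
  exact ⟨l.reverse, by simpa using h1, evalW_reverse l⟩

theorem el_one : el S m r 1 = 1 := el_evalW (l := []) (Nat.zero_le _)

theorem el_mul {j k : ℕ} {g h : S.fullGroup m} (hg : Ball S m r j g) (hh : Ball S m r k h)
    (hjk : j + k ≤ cap m) : el S m r (g * h) = el S m r g * el S m r h := by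
  obtain ⟨l, h1, rfl⟩ := hg
  obtain ⟨l', h2, rfl⟩ := hh
  rw [show evalW l * evalW l' = evalW (l ++ l') by simp [evalW], el_evalW (by simp; omega),
    el_evalW (h1.trans (by omega)), el_evalW (h2.trans (by omega)), word_append]

theorem el_inv {k : ℕ} {g : S.fullGroup m} (hg : Ball S m r k g) (hk : k ≤ cap m) :
    el S m r g⁻¹ = (el S m r g)⁻¹ := by
  obtain ⟨l, h1, rfl⟩ := hg
  rw [← evalW_reverse, el_evalW (by simp; omega), el_evalW (h1.trans hk), word_reverse]

theorem phi_el {k : ℕ} {g : S.fullGroup m} (hg : Ball S m r k g) (hk : k ≤ cap m) :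
    phi S m r (el S m r g) = g := by
  obtain ⟨l, h1, rfl⟩ := hg
  rw [el_evalW (h1.trans hk), word, map_list_prod, List.map_map]
  exact congrArg List.prod (List.map_congr_left fun i _ => PresentedGroup.toGroup.of _)

theorem el_commute {j k : ℕ} {g h : S.fullGroup m} (hg : Ball S m r j g) (hh : Ball S m r k h)
    (hjk : j + k ≤ cap m) (e : g * h = h * g) : Commute (el S m r g) (el S m r h) := by
  show _ * _ = _ * _
  rw [← el_mul hg hh hjk, ← el_mul hh hg (by omega), e]

theorem el_conj {j k : ℕ} {g h f : S.fullGroup m} (hg : Ball S m r j g) (hh : Ball S m r k h)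
    (hjk : j + k + j ≤ cap m) (e : g * h * g⁻¹ = f) :
    el S m r g * el S m r h * (el S m r g)⁻¹ = el S m r f := by
  rw [← e, el_mul (hg.mul hh) hg.inv hjk, el_mul hg hh (by omega), el_inv hg (by omega)]

/-- Small sets: determined on the box of radius `r`. -/
def Small (r : ℕ) (U : Clopens (S.Conf 0)) : Prop := ∃ s, cyl S r s = U

theorem small_top : Small r (⊤ : Clopens (S.Conf 0)) := ⟨Set.univ, Clopens.ext rfl⟩

theorem ball_letter {a b : Fin m} (hab : a ≠ b) (j : Fin 3) {U : Clopens (S.Conf 0)}
    (hU : Small r U) : Ball S m r 1 (moveEl S m a b hab 0 (dir j) U) := by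
  obtain ⟨s, rfl⟩ := hU
  exact ⟨[⟨(a, b, j, s), hab⟩], le_rfl, by simp [evalW, letter]⟩

theorem ball_permAt {U : Clopens (S.Conf 0)} (hU : Small r U) (π : Perm (Fin m)) :
    Ball S m r m (permAt S m U π) := by
  classical
  suffices h : ∀ k (π : Perm (Fin m)), π.support.card ≤ k → Ball S m r k (permAt S m U π) from
    (h _ π le_rfl).mono ((Finset.card_le_univ _).trans (by simp))
  intro k
  induction k with
  | zero =>
    intro π hπ
    have h0 : π = 1 := Perm.support_eq_empty_iff.1
      (Finset.card_eq_zero.1 (Nat.le_zero.1 hπ))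
    rw [h0, map_one]
    exact ball_one 0
  | succ k ih =>
    intro π hπ
    rcases eq_or_ne π 1 with rfl | hne
    · rw [map_one]; exact ball_one _
    obtain ⟨x, hx⟩ : ∃ x, π x ≠ x := by
      by_contra! h
      exact hne (Equiv.ext h)
    have hlt := Perm.card_support_swap_mul hx
    have hb := ball_letter (r := r) (Ne.symm hx) 0 hU
    rw [show dir 0 = 0 from rfl, moveEl_zero] at hb
    have e : swap x (π x) * (swap x (π x) * π) = π := by rw [← mul_assoc, swap_mul_self, one_mul]
    have := (hb.mul (ih (swap x (π x) * π) (by omega))).mono (show 1 + k ≤ k + 1 by omega)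
    rwa [← map_mul, e] at this

theorem ball_pvec (a b : Fin m) (j : Fin 3) : Ball S m r 2 (sh S m (pvec m a b (dir j))) := by
  rcases eq_or_ne a b with rfl | hab
  · rw [pvec, sub_self, sh_zero]; exact ball_one 2
  · rw [sh_pvec a b hab]
    exact (ball_letter hab j small_top).mul (ball_letter hab 0 small_top)

variable (S r)

/-- The index symmetry. -/
noncomputable def sym : Perm (Fin m) →* P₁ S m r where
  toFun π := el S m r (permAt S m ⊤ π)
  map_one' := by rw [map_one, el_one]
  map_mul' π ρ := by
    rw [map_mul]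
    exact el_mul (ball_permAt small_top π) (ball_permAt small_top ρ) (by simp [cap]; omega)

/-- The subgroup of a set of indices. -/
def sub (U : Finset (Fin m)) : Subgroup (P₁ S m r) :=
  Subgroup.closure {y | ∃ g, Ball S m r (2 * m + 2) g ∧ Supported U g ∧ y = el S m r g}

variable {S r}

theorem el_mem_sub {U : Finset (Fin m)} {k : ℕ} {g : S.fullGroup m} (hg : Ball S m r k g)
    (hk : k ≤ 2 * m + 2) (hs : Supported U g) : el S m r g ∈ sub S r U :=
  Subgroup.subset_closure ⟨g, hg.mono hk, hs, rfl⟩

theorem sub_commute {U V : Finset (Fin m)} (hd : Disjoint U V) {x y : P₁ S m r}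
    (hx : x ∈ sub S r U) (hy : y ∈ sub S r V) : Commute x y := by
  induction hx using Subgroup.closure_induction with
  | mem u hu =>
    induction hy using Subgroup.closure_induction with
    | mem v hv =>
      obtain ⟨g, hg, hgs, rfl⟩ := hu
      obtain ⟨h, hh, hhs, rfl⟩ := hv
      exact el_commute hg hh (by simp [cap]; omega) (hgs.commute hd hhs)
    | one => exact Commute.one_right _
    | mul _ _ _ _ h1 h2 => exact h1.mul_right h2
    | inv _ _ h1 => exact h1.inv_right
  | one => exact Commute.one_left _
  | mul _ _ _ _ h1 h2 => exact h1.mul_left h2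
  | inv _ _ h1 => exact h1.inv_left

theorem sym_mem_sub {U : Finset (Fin m)} {π : Perm (Fin m)} (h : π.support ⊆ U) :
    sym S r π ∈ sub S r U :=
  el_mem_sub (ball_permAt small_top π) (by omega) (supported_permAt ⊤ h)

variable (S m r)

/-- The context of the presented group. -/
noncomputable def ctx (hm : 18 ≤ m) : Ctx (P₁ S m r) m where
  le := hm
  d := sym S r
  K := sub S r
  disj _ _ hd _ hx _ hy := sub_commute hd hx hy
  d_mem _ _ hs _ := sym_mem_sub hs

/-! ### Shifts -/

variable [NeZero m]

/-- The lifted unit shift of index `a` against index `0`. -/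
noncomputable def gen (a : Fin m) (j : Fin 3) : P₁ S m r :=
  el S m r (sh S m (pvec m 0 a (dir j)))

variable {S m r}

theorem gen_commute (a b : Fin m) (i j : Fin 3) : Commute (gen S m r a i) (gen S m r b j) :=
  el_commute (ball_pvec 0 a i) (ball_pvec 0 b j) (by simp [cap]; omega)
    (by rw [← sh_add, ← sh_add, add_comm])

variable (S m r)

/-- The shifts of one index against index `0`. -/
noncomputable def shiftOne (a : Fin m) : Multiplicative Cell →* P₁ S m r where
  toFun x := gen S m r a 1 ^ x.toAdd.1 * gen S m r a 2 ^ x.toAdd.2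
  map_one' := by simp
  map_mul' x y := by
    simp only [toAdd_mul, Prod.fst_add, Prod.snd_add, zpow_add]
    exact ((gen_commute a a 2 1).zpow_zpow _ _).symm.mul_mul_mul_comm _ _

/-- The lifted shifts; index `0` compensates. -/
noncomputable def tauHom : (Fin m → Multiplicative Cell) →* P₁ S m r :=
  MonoidHom.noncommPiCoprod (shiftOne S m r) fun a b _ _ _ => by
    have key : ∀ i j, ∀ k l : ℤ, Commute (gen S m r a i ^ k) (gen S m r b j ^ l) :=
      fun i j k l => (gen_commute a b i j).zpow_zpow k l
    exact ((key _ _ _ _).mul_right (key _ _ _ _)).mul_left ((key _ _ _ _).mul_right (key _ _ _ _))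

/-- The lifted shift by a vector. -/
noncomputable def tau (v : Fin m → Cell) : P₁ S m r :=
  tauHom S m r fun a => Multiplicative.ofAdd (v a)

variable {S m r}

theorem tau_zero : tau S m r 0 = 1 := (tauHom S m r).map_one

theorem tau_add (v w : Fin m → Cell) : tau S m r (v + w) = tau S m r v * tau S m r w :=
  (tauHom S m r).map_mul (fun a => Multiplicative.ofAdd (v a)) fun a => Multiplicative.ofAdd (w a)

theorem tau_neg (v : Fin m → Cell) : tau S m r (-v) = (tau S m r v)⁻¹ :=
  (tauHom S m r).map_inv fun a => Multiplicative.ofAdd (v a)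

theorem tau_zsmul (k : ℤ) (v : Fin m → Cell) : tau S m r (k • v) = tau S m r v ^ k :=
  (tauHom S m r).map_zpow (fun a => Multiplicative.ofAdd (v a)) k

theorem tau_sub (v w : Fin m → Cell) : tau S m r (v - w) = tau S m r v * (tau S m r w)⁻¹ := by
  rw [sub_eq_add_neg, tau_add, tau_neg]

theorem tau_single (a : Fin m) (j : Fin 3) :
    tau S m r (Pi.single a (dir j)) = gen S m r a j := by
  have h : (fun b => Multiplicative.ofAdd ((Pi.single a (dir j) : Fin m → Cell) b)) =
      Pi.mulSingle a (Multiplicative.ofAdd (dir j)) := by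
    funext b
    by_cases hb : b = a
    · subst hb; simp
    · simp [hb]
  rw [tau, h]
  refine (MonoidHom.noncommPiCoprod_mulSingle _ a _).trans ?_
  show gen S m r a 1 ^ (dir j).1 * gen S m r a 2 ^ (dir j).2 = _
  fin_cases j <;> simp [dir, gen, pvec, sh_zero, el_one]

theorem tau_pvec (c a : Fin m) (j : Fin 3) :
    tau S m r (pvec m c a (dir j)) = el S m r (sh S m (pvec m c a (dir j))) := by
  rw [pvec, tau_sub, tau_single, tau_single, gen, gen,
    ← el_inv (ball_pvec 0 c j) (by simp [cap]; omega),
    ← el_mul (ball_pvec 0 a j) (ball_pvec 0 c j).inv (by simp [cap]; omega), ← sh_neg, ← sh_add]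
  congr 2
  simp [pvec]

omit [NeZero m] in
/-- Induction over zero-sum vectors supported in `U`. -/
theorem zeroSum_induction {p : (Fin m → Cell) → Prop} {U : Finset (Fin m)} {c : Fin m}
    (_hc : c ∈ U) (h0 : p 0) (hadd : ∀ v w, p v → p w → p (v + w))
    (hz : ∀ (k : ℤ) v, p v → p (k • v)) (hb : ∀ a ∈ U, ∀ j, p (pvec m c a (dir j)))
    {v : Fin m → Cell} (hv : ∑ a, v a = 0) (hs : ∀ a ∉ U, v a = 0) : p v := by
  classical
  have e : v = ∑ a ∈ U, ((v a).1 • pvec m c a (dir 1) + (v a).2 • pvec m c a (dir 2)) := by
    have h1 : ∀ a, (v a).1 • pvec m c a (dir 1) + (v a).2 • pvec m c a (dir 2) =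
        Pi.single a (v a) - Pi.single c (v a) := fun a => by
      funext b
      simp only [pvec, dir, Pi.add_apply, Pi.smul_apply, Pi.sub_apply, Pi.single_apply]
      split_ifs <;> (apply Prod.ext <;> simp)
    have hsum : ∑ a ∈ U, v a = 0 := by
      rw [← hv]; exact Finset.sum_subset (Finset.subset_univ U) fun a _ ha => hs a ha
    funext b
    simp only [Finset.sum_apply, h1, Pi.sub_apply, Finset.sum_sub_distrib, Pi.single_apply]
    have h3 : ∑ a ∈ U, (if b = c then v a else 0) = 0 := by
      split_ifs <;> simp [hsum]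
    rw [h3, sub_zero, Finset.sum_ite_eq]
    split_ifs with h
    · rfl
    · exact hs b h
  rw [e]
  exact Finset.sum_induction _ p hadd h0 fun a ha =>
    hadd _ _ (hz _ _ (hb a ha 1)) (hz _ _ (hb a ha 2))

theorem tau_mem_sub {U : Finset (Fin m)} {v : Fin m → Cell} (hv : ∑ a, v a = 0)
    (hs : ∀ a ∉ U, v a = 0) : tau S m r v ∈ sub S r U := by
  rcases U.eq_empty_or_nonempty with rfl | ⟨c, hc⟩
  · rw [show v = 0 from funext fun a => hs a (Finset.notMem_empty a), tau_zero]
    exact one_mem _
  refine zeroSum_induction (p := fun v => tau S m r v ∈ sub S r U) hc ?_ ?_ ?_ ?_ hv hs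
  · rw [tau_zero]; exact one_mem _
  · intro v w h1 h2; rw [tau_add]; exact mul_mem h1 h2
  · intro k v h; rw [tau_zsmul]; exact zpow_mem h k
  · intro a ha j
    rw [tau_pvec]
    exact el_mem_sub (ball_pvec c a j) (by omega) (supported_pvec hc ha _)

theorem phi_tau {v : Fin m → Cell} (hv : ∑ a, v a = 0) : phi S m r (tau S m r v) = sh S m v := by
  refine zeroSum_induction (p := fun v => phi S m r (tau S m r v) = sh S m v)
    (U := Finset.univ) (c := 0) (Finset.mem_univ _) ?_ ?_ ?_ ?_ hv
    fun a ha => absurd (Finset.mem_univ a) ha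
  · rw [tau_zero, map_one, sh_zero]
  · intro v w h1 h2; rw [tau_add, map_mul, h1, h2, sh_add]
  · intro k v h
    rw [tau_zsmul, map_zpow, h]
    exact ((shHom S m).map_zpow (Multiplicative.ofAdd v) k).symm
  · intro a _ j
    rw [tau_pvec]
    exact phi_el (ball_pvec _ a j) (by simp [cap]; omega)

theorem sym_tau (π : Perm (Fin m)) {v : Fin m → Cell} (hv : ∑ a, v a = 0) :
    sym S r π * tau S m r v * (sym S r π)⁻¹ = tau S m r fun a => v (π⁻¹ a) := by
  refine zeroSum_induction
    (p := fun v => sym S r π * tau S m r v * (sym S r π)⁻¹ = tau S m r fun a => v (π⁻¹ a))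
    (U := Finset.univ) (c := 0) (Finset.mem_univ _) ?_ ?_ ?_ ?_ hv
    fun a ha => absurd (Finset.mem_univ a) ha
  · show _ = tau S m r 0
    simp [tau_zero]
  · intro v w h1 h2
    show _ = tau S m r ((fun a => v (π⁻¹ a)) + fun a => w (π⁻¹ a))
    rw [tau_add, tau_add, ← h1, ← h2]; group
  · intro k v h
    show _ = tau S m r (k • fun a => v (π⁻¹ a))
    rw [tau_zsmul, tau_zsmul, ← h, conj_zpow]
  · intro a _ j
    have e : (fun b => pvec m 0 a (dir j) (π⁻¹ b)) = pvec m (π 0) (π a) (dir j) := by
      funext b
      simp only [pvec, Pi.sub_apply, Pi.single_apply, Perm.inv_eq_iff_eq]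
    rw [e, tau_pvec, tau_pvec]
    refine el_conj (ball_permAt small_top π) (ball_pvec 0 a j) (by simp [cap]; omega) ?_
    rw [permAt_top_sh, e]

end Vale.Agent.P196.Pres
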