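import Vale.Agent.P196.Fp.Split

/-!
The half of a decomposed component is a component.
-/

namespace Vale.Agent.P196.Fp

open Equiv Finset
open scoped commutatorElement

variable {n : ℕ}

theorem act_of_disjoint {κ ρ : Tri n} (h : Disjoint κ.1.support ρ.1.support) : act κ.1 ρ = ρ := by
  ext1
  rw [act_val, ((Perm.disjoint_iff_disjoint_support).2 h).commute.eq]
  simp

theorem cyc_disjoint {x a c : Fin n} {h} {T : Finset (Fin n)} (hx : x ∉ T) (ha : a ∉ T)
    (hc : c ∉ T) : Disjoint (cyc x a c h).1.support T := by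
  rw [cyc_support]; simp [hx, ha, hc]

/-- A function of configurations invariant under rotation and spare moves depends only on the
triple. -/
theorem five_const {α : Type*} (F : Five n → α) (hn : 18 ≤ n)
    (hrot : ∀ q : Five n, F (q.map q.rho.1) = F q)
    (hfix : ∀ (q : Five n) (κ : Tri n), Disjoint κ.1.support q.rho.1.support →
      F (q.map κ.1) = F q) {q q' : Five n} (h : q.rho = q'.rho) : F q = F q' := by
  have mv : ∀ p p' : Five n, p.x = p'.x → p.a = p'.a → p.c = p'.c → F p = F p' := by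
    -- one spare point at a time
    have one : ∀ (p : Five n) (b : Fin n), b ∉ ({p.x, p.a, p.c, p.b, p.y} : Finset (Fin n)) →
        ∀ p' : Five n, p'.x = p.x → p'.a = p.a → p'.c = p.c →
          (p'.b = b ∧ p'.y = p.y ∨ p'.b = p.b ∧ p'.y = b) → F p' = F p := by
      intro p b hb p' e1 e2 e3 e4
      obtain ⟨w, hw⟩ : ∃ w, w ∉ ({p.x, p.a, p.c, p.b, p.y, b} : Finset (Fin n)) := by
        by_contra! hh
        have h1 := card_le_card (s := univ) (fun i _ => hh i)
        have h2 := card_le_six (a := p.x) (b := p.a) (c := p.c) (d := p.b) (e := p.y) (f := b)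
        simp only [card_univ, Fintype.card_fin] at h1; omega
      simp only [Finset.mem_insert, Finset.mem_singleton, not_or] at hb hw
      obtain ⟨b1, b2, b3, b4, b5⟩ := hb
      obtain ⟨w1, w2, w3, w4, w5, w6⟩ := hw
      obtain ⟨n1, n2, n3, n4, n5, n6, n7, n8, n9, n10⟩ := p.ne
      rcases e4 with ⟨e4, e5⟩ | ⟨e4, e5⟩
      · let κ := cyc p.b b w ⟨Ne.symm b4, Ne.symm w6, Ne.symm w4⟩
        have hp : p' = p.map κ.1 := by
          cases p'; simp only at e1 e2 e3 e4 e5; subst e1 e2 e3 e4 e5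
          simp only [Five.map, κ, Five.mk.injEq]
          rw [cyc_apply_of_ne _ _ _ _ n3 (Ne.symm b1) (Ne.symm w1),
            cyc_apply_of_ne _ _ _ _ n6 (Ne.symm b2) (Ne.symm w2),
            cyc_apply_of_ne _ _ _ _ n8 (Ne.symm b3) (Ne.symm w3), cyc_apply_fst,
            cyc_apply_of_ne _ _ _ _ n10.symm (Ne.symm b5) (Ne.symm w5)]
          simp
        rw [hp]
        refine hfix p κ (cyc_disjoint ?_ ?_ ?_) <;> rw [Five.rho, cyc_support] <;>
          simp [*, Ne.symm n3, Ne.symm n6, Ne.symm n8]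
      · let κ := cyc p.y b w ⟨Ne.symm b5, Ne.symm w6, Ne.symm w5⟩
        have hp : p' = p.map κ.1 := by
          cases p'; simp only at e1 e2 e3 e4 e5; subst e1 e2 e3 e4 e5
          simp only [Five.map, κ, Five.mk.injEq]
          rw [cyc_apply_of_ne _ _ _ _ n4 (Ne.symm b1) (Ne.symm w1),
            cyc_apply_of_ne _ _ _ _ n7 (Ne.symm b2) (Ne.symm w2),
            cyc_apply_of_ne _ _ _ _ n9 (Ne.symm b3) (Ne.symm w3),
            cyc_apply_of_ne _ _ _ _ n10 (Ne.symm b4) (Ne.symm w4), cyc_apply_fst]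
          simp
        rw [hp]
        refine hfix p κ (cyc_disjoint ?_ ?_ ?_) <;> rw [Five.rho, cyc_support] <;>
          simp [*, Ne.symm n4, Ne.symm n7, Ne.symm n9]
    intro p p' h1 h2 h3
    -- move both to common fresh spare points
    obtain ⟨r, r1, r2, r3, r4, r5⟩ := exists_five p.x p.a p.c
      ⟨p.ne.1, p.ne.2.2.2.2.1, p.ne.2.1⟩ {p.b, p.y, p'.b, p'.y}
      (by have := card_le_four (a := p.b) (b := p.y) (c := p'.b) (d := p'.y); omega)
    simp only [Finset.mem_insert, Finset.mem_singleton, not_or] at r4 r5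
    have both : ∀ s : Five n, s.x = p.x → s.a = p.a → s.c = p.c →
        r.b ≠ s.b → r.b ≠ s.y → r.y ≠ s.b → r.y ≠ s.y → F r = F s := by
      intro s s1 s2 s3 k1 k2 k3 k4
      obtain ⟨q1, q2, q3, q4, q5, q6, q7, q8, q9, q10⟩ := r.ne
      obtain ⟨t1, t2, t3, t4, t5, t6, t7, t8, t9, t10⟩ := s.ne
      rw [r1, ← s1] at q1 q2 q3 q4
      rw [r2, ← s2] at q1 q5 q6 q7
      rw [r3, ← s3] at q2 q5 q8 q9
      let m : Five n := ⟨s.x, s.a, s.c, r.b, s.y, by
        simp only [List.nodup_cons, List.mem_cons, List.not_mem_nil, or_false, not_or]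
        simp [List.nodup_nil]
        tauto⟩
      refine (one m r.y (by simp [m, Ne.symm q4, Ne.symm q7, Ne.symm q9, Ne.symm q10, k4]) r
        (r1.trans s1.symm) (r2.trans s2.symm) (r3.trans s3.symm) (Or.inr ⟨rfl, rfl⟩)).trans ?_
      exact one s r.b (by simp [Ne.symm q3, Ne.symm q6, Ne.symm q8, k1, k2]) m rfl rfl rfl
        (Or.inl ⟨rfl, rfl⟩)
    rw [← both p rfl rfl rfl r4.1 r4.2.1 r5.1 r5.2.1,
      both p' h1.symm h2.symm h3.symm r4.2.2.1 r4.2.2.2 r5.2.2.1 r5.2.2.2]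
  -- rotate until the shared points agree
  have rot : ∀ p : Five n, p.map p.rho.1 = ⟨p.a, p.c, p.x, p.b, p.y, (by
      obtain ⟨t1, t2, t3, t4, t5, t6, t7, t8, t9, t10⟩ := p.ne
      simp only [List.nodup_cons, List.mem_cons, List.not_mem_nil, or_false, not_or]
      simp [List.nodup_nil]
      tauto)⟩ := by
    intro p
    obtain ⟨t1, t2, t3, t4, t5, t6, t7, t8, t9, t10⟩ := p.ne
    simp only [Five.map, Five.rho, Five.mk.injEq]
    rw [cyc_apply_fst, cyc_apply_snd, cyc_apply_trd,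
      cyc_apply_of_ne _ _ _ _ t3.symm t6.symm t8.symm,
      cyc_apply_of_ne _ _ _ _ t4.symm t7.symm t9.symm]
    simp
  have hx : q'.x ∈ q.rho.1.support := by rw [h, Five.rho, cyc_support]; simp
  have e1 : q.rho.1 q'.x = q'.a := by rw [h, Five.rho, cyc_apply_fst]
  have e2 : q.rho.1 q'.a = q'.c := by rw [h, Five.rho, cyc_apply_snd]
  simp only [Five.rho, cyc_support, Finset.mem_insert, Finset.mem_singleton] at hx e1 e2
  rcases hx with hx | hx | hx
  · rw [hx, cyc_apply_fst] at e1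
    rw [← e1, cyc_apply_snd] at e2
    exact mv q q' hx.symm e1 e2
  · rw [hx, cyc_apply_snd] at e1
    rw [← e1, cyc_apply_trd] at e2
    rw [← hrot q]
    refine mv _ q' ?_ ?_ ?_ <;> rw [rot] <;> simp [hx, e1, e2]
  · rw [hx, cyc_apply_trd] at e1
    rw [← e1, cyc_apply_fst] at e2
    rw [← hrot q, ← hrot (q.map q.rho.1)]
    refine mv _ q' ?_ ?_ ?_ <;> rw [rot, rot] <;> simp [hx, e1, e2]

variable {G : Type*} [Group G] {C : Ctx G n} {A B g : Comp C}

theorem d_conj_dec {u x y : G} (π : Perm (Fin n)) (h : IsDec A B u x y) :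
    IsDec A B (C.d π * u * (C.d π)⁻¹) (C.d π * x * (C.d π)⁻¹) (C.d π * y * (C.d π)⁻¹) :=
  ⟨conj_mem_below A π h.1, conj_mem_below B π h.2.1, by rw [h.2.2]; group⟩

theorem conj_dec (P : Part A B) {u x y w a b : G} (hw : IsDec A B w a b) (h : IsDec A B u x y) :
    IsDec A B (w * u * w⁻¹) (a * x * a⁻¹) (b * y * b⁻¹) := by
  refine ⟨mul_mem (mul_mem hw.1 h.1) (inv_mem hw.1),
    mul_mem (mul_mem hw.2.1 h.2.1) (inv_mem hw.2.1), ?_⟩
  have c1 := (below_commute P.orth h.1 hw.2.1).eq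
  have c2 := (below_commute P.orth (inv_mem hw.1)
    (mul_mem (mul_mem hw.2.1 h.2.1) (inv_mem hw.2.1))).eq
  rw [hw.2.2, h.2.2]
  calc a * b * (x * y) * (a * b)⁻¹ = a * (b * x) * y * b⁻¹ * a⁻¹ := by group
    _ = a * x * (b * y * b⁻¹ * a⁻¹) := by rw [← c1]; group
    _ = a * x * a⁻¹ * (b * y * b⁻¹) := by rw [← c2]; group

theorem conj_of_dec (P : Part A B) {u x y x' y' : G} (h : IsDec A B u x y)
    (h' : IsDec A B u x' y') {v : G} (hv : v ∈ below A univ) :
    x' * v * x'⁻¹ = x * v * x⁻¹ := by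
  obtain ⟨z, -, cz, rfl⟩ := h.unique P h'
  calc x * z * v * (x * z)⁻¹ = x * (z * v) * z⁻¹ * x⁻¹ := by group
    _ = _ := by rw [(cz v hv).eq]; group

/-- A commutator of two elements moving `y` by central amounts fixes `y`. -/
theorem comm_fix {f s y z₁ z₂ : G} (h1 : f * y * f⁻¹ = y * z₁) (h2 : s * y * s⁻¹ = y * z₂)
    (a1 : Commute z₁ f) (a2 : Commute z₁ s) (a3 : Commute z₂ f) (a4 : Commute z₂ s)
    (a5 : Commute z₂ z₁) : Commute ⁅f, s⁆ y := by
  have fixc : ∀ {u z : G}, Commute z u → MulAut.conj u z = z := fun h => by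
    rw [MulAut.conj_apply, ← h.eq]; group
  have inv1 : ∀ {u z : G}, Commute z u → u * y * u⁻¹ = y * z → MulAut.conj u⁻¹ y = y * z⁻¹ := by
    intro u z hc e
    have : MulAut.conj u⁻¹ (y * z) = y := by rw [← e, MulAut.conj_apply]; group
    rw [map_mul, fixc hc.inv_right] at this
    exact eq_mul_inv_of_mul_eq this
  refine conj_eq ?_
  have h : MulAut.conj ⁅f, s⁆ y =
      MulAut.conj f (MulAut.conj s (MulAut.conj f⁻¹ (MulAut.conj s⁻¹ y))) := by
    simp [commutatorElement_def, mul_assoc]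
  have hs : MulAut.conj s y = y * z₂ := by rw [MulAut.conj_apply, h2]
  have hf : MulAut.conj f y = y * z₁ := by rw [MulAut.conj_apply, h1]
  rw [← MulAut.conj_apply, h, inv1 a4 h2]
  simp only [map_mul, inv1 a1 h1, fixc a3.inv_left.inv_right, hs, hf, fixc a2.inv_left,
    fixc a4.inv_left, fixc a3, fixc a3.inv_left, fixc a1.inv_left]
  calc y * z₁ * z₂ * z₁⁻¹ * z₂⁻¹ = y * z₁ * (z₂ * z₁⁻¹) * z₂⁻¹ := by group
    _ = y := by rw [a5.inv_right.eq]; group

/-- The `A`-half of a decomposed component. -/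
theorem half (P : Part A B) (hg : Decomposes g A B) :
    ∃ G₁ : Comp C, Le G₁ A ∧ ∀ (q : Five n) (x y x' y' : G),
      IsDec A B (g.fn q.fst) x y → IsDec A B (g.fn q.snd) x' y' →
      G₁.fn q.rho = (⁅x, x'⁆ ^ 4) ^ 4 := by
  have hle := C.le
  have hex : ∀ ρ : Tri n, ∃ x y, IsDec A B (g.fn ρ) x y := fun ρ => by
    obtain ⟨x, hx, y, hy, e⟩ := hg ρ univ (subset_univ _) (by simp; omega)
    exact ⟨x, y, hx, hy, e⟩
  choose m m' hm using hex
  let M : Five n → G := fun q => ⁅m q.fst, m q.snd⁆ ^ 4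
  let M' : Five n → G := fun q => ⁅m' q.fst, m' q.snd⁆ ^ 4
  have hM : ∀ q, IsDec A B (g.fn q.rho) (M q) (M' q) := fun q => by
    rw [comm4 g q]; exact (hm _).comm_dec P (hm _)
  have Md : ∀ π q, C.d π * M q * (C.d π)⁻¹ = M (q.map π) := by
    intro π q
    have d1 := d_conj_dec π (hm q.fst)
    have d2 := d_conj_dec π (hm q.snd)
    rw [g.equiv] at d1 d2
    simp only [M, Five.map_fst, Five.map_snd]
    rw [← conj_pow, conj_commutator, (hm _).comm_congr P d1 (hm _) d2]
  have Mm : ∀ κ q, m κ * M q * (m κ)⁻¹ = M (q.map κ.1) := by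
    intro κ q
    have d1 := conj_dec P (hm κ) (hm q.fst)
    have d2 := conj_dec P (hm κ) (hm q.snd)
    rw [g.conj] at d1 d2
    simp only [M, Five.map_fst, Five.map_snd]
    rw [← conj_pow, conj_commutator, (hm _).comm_congr P d1 (hm _) d2]
  have hfixz : ∀ q κ, act κ.1 q.rho = q.rho →
      ∃ z, (∀ v ∈ below A univ, Commute z v) ∧ m κ * M q * (m κ)⁻¹ = M q * z := by
    intro q κ hk
    have d1 := conj_dec P (hm κ) (hM q)
    rw [g.conj, hk] at d1
    obtain ⟨z, -, cz, e⟩ := (hM q).unique P d1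
    exact ⟨z, cz, e⟩
  have hfix : ∀ (q : Five n) (κ : Tri n), Disjoint κ.1.support q.rho.1.support → M (q.map κ.1) = M q := by
    intro q κ hk
    obtain ⟨x, a, c, hxac, rfl⟩ := exists_cyc κ
    obtain ⟨r, rfl, rfl, rfl, hb, hy⟩ := exists_five x a c hxac q.rho.1.support
      (by rw [q.rho.2.card_support]; omega)
    rw [cyc_support] at hk
    simp only [disjoint_left, Finset.mem_insert, Finset.mem_singleton, forall_eq_or_imp,
      forall_eq] at hk
    obtain ⟨k1, k2, k3⟩ := hk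
    obtain ⟨z₁, c1, e1⟩ := hfixz q r.fst (act_of_disjoint (cyc_disjoint k2 hb k1))
    obtain ⟨z₂, c2, e2⟩ := hfixz q r.snd (act_of_disjoint (cyc_disjoint k1 k3 hy))
    rw [← Mm, show cyc r.x r.a r.c hxac = r.rho from rfl, conj_of_dec P (hM r) (hm r.rho) (hM q).1]
    have e : Commute ⁅m r.fst, m r.snd⁆ (M q) := by
      have hfs := (hm r.fst).1
      have hsn := (hm r.snd).1
      have hz : z₁ ∈ below A univ := by
        rw [show z₁ = (M q)⁻¹ * (M q * z₁) by group, ← e1]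
        exact mul_mem (inv_mem (hM q).1) (mul_mem (mul_mem hfs (hM q).1) (inv_mem hfs))
      exact comm_fix e1 e2 (c1 _ hfs) (c1 _ hsn) (c2 _ hfs) (c2 _ hsn) (c2 _ hz)
    have e' := (e.pow_left 4).eq
    show M r * M q * (M r)⁻¹ = M q
    rw [show M r = ⁅m r.fst, m r.snd⁆ ^ 4 from rfl, e']
    group
  have hrot : ∀ q, M (q.map q.rho.1) = M q := by
    intro q
    obtain ⟨z, -, cz, e⟩ := (hm q.rho).unique P (hM q)
    rw [← Mm, e]
    calc _ = m q.rho * m q.rho * (z * (m q.rho)⁻¹) := by group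
      _ = _ := by rw [(cz _ (inv_mem (hm _).1)).eq]; group
  have indep : ∀ {q q'}, q.rho = q'.rho → M q = M q' := fun h => five_const M hle hrot hfix h
  have hq : ∀ ρ : Tri n, ∃ q : Five n, q.rho = ρ := fun ρ => by
    obtain ⟨x, a, c, h, rfl⟩ := exists_cyc ρ
    obtain ⟨q, rfl, rfl, rfl, -⟩ := exists_five x a c h ∅ (by simp; omega)
    exact ⟨q, rfl⟩
  choose qq hqq using hq
  let F : Tri n → G := fun ρ => M (qq ρ)
  have hF : ∀ q, F q.rho = M q := fun q => indep (hqq _)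
  have Fd : ∀ π ρ, C.d π * F ρ * (C.d π)⁻¹ = F (act π ρ) := by
    intro π ρ
    rw [← hqq ρ, hF, Md, ← Five.map_rho, hF]
  have Fc : ∀ ρ κ, F ρ * F κ * (F ρ)⁻¹ = F (act ρ.1 κ) := by
    intro ρ κ
    rw [← hqq κ, hF, ← Five.map_rho, hF, ← Mm]
    exact conj_of_dec P (hm ρ) (by rw [← hqq ρ, hF]; exact hM _) (hM _).1
  have Finv : ∀ ρ, F (triInv ρ) = (F ρ)⁻¹ := by
    intro ρ
    rw [← hqq ρ, hF, ← Five.swapped_rho, hF]
    simp only [M, Five.swapped_fst, Five.swapped_snd]
    rw [← commutatorElement_inv, inv_pow]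
  -- sixth powers vanish
  have hw : ∀ ρ κ, Commute (F ρ ^ 3) (F κ) := by
    intro ρ κ
    refine conj_eq ?_
    calc F ρ ^ 3 * F κ * (F ρ ^ 3)⁻¹
        = F ρ * (F ρ * (F ρ * F κ * (F ρ)⁻¹) * (F ρ)⁻¹) * (F ρ)⁻¹ := by
          rw [pow_succ, pow_two]; group
      _ = F κ := by
          rw [Fc, Fc, Fc, act_act, act_act]
          congr 1
          ext1
          have h : ρ.1 ^ 3 = 1 := by rw [← ρ.2.orderOf]; exact pow_orderOf_eq_one ρ.1
          rw [show ρ.1 * ρ.1 * ρ.1 = 1 by rw [← h, pow_succ, pow_two]]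
          simp
  have hwc : ∀ (ρ κ : Tri n), F (act κ.1 ρ) ^ 3 = F ρ ^ 3 := by
    intro ρ κ
    rw [← Fc, conj_pow, ← (hw ρ κ).eq]; group
  have h6 : ∀ ρ, F ρ ^ 6 = 1 := by
    intro ρ
    obtain ⟨k₁, k₂, hk⟩ := (qq ρ).swapped_eq_map
    have : F (triInv ρ) ^ 3 = F ρ ^ 3 := by
      have e : act (k₁.1 * k₂.1) ρ = triInv ρ := by
        conv_lhs => rw [← hqq ρ, ← Five.map_rho, ← hk, Five.swapped_rho, hqq]
      rw [← e, ← act_act, hwc, hwc]
    rw [Finv, inv_pow] at this
    rw [show (6 : ℕ) = 3 + 3 from rfl, pow_add]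
    nth_rewrite 1 [← this]
    group
  have F4 : ∀ ρ κ, F ρ ^ 4 * F κ * (F ρ ^ 4)⁻¹ = F (act ρ.1 κ) := by
    intro ρ κ
    rw [← Fc ρ κ]
    calc _ = F ρ ^ 3 * (F ρ * F κ * (F ρ)⁻¹) * (F ρ ^ 3)⁻¹ := by rw [pow_succ]; group
      _ = _ := by rw [Fc, (hw ρ _).eq]; group
  let G₁ : Comp C :=
    { fn := fun ρ => F ρ ^ 4
      conj := fun ρ κ => by rw [← conj_pow, F4]
      equiv := fun π ρ => by rw [← conj_pow, Fd]
      inv := fun ρ => by rw [Finv, inv_pow]
      cube := fun ρ => by rw [← pow_mul, show 4 * 3 = 6 * 2 from rfl, pow_mul, h6, one_pow]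
      mem := fun ρ U hs hU => by
        refine pow_mem ?_ 4
        obtain ⟨x, a, c, h, rfl⟩ := exists_cyc ρ
        obtain ⟨b, hb, y, hy, hby⟩ := one_lt_card.1
          (show 1 < (U \ {x, a, c}).card by
            have := le_card_sdiff {x, a, c} U
            have := card_le_three (a := x) (b := a) (c := c)
            omega)
        simp only [mem_sdiff, Finset.mem_insert, Finset.mem_singleton, not_or] at hb hy
        rw [cyc_support] at hs
        simp only [Finset.insert_subset_iff, Finset.singleton_subset_iff] at hs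
        let q : Five n := ⟨x, a, c, b, y, by
          simp only [List.nodup_cons, List.mem_cons, List.not_mem_nil, or_false, not_or]
          simp [List.nodup_nil]
          tauto⟩
        rw [show cyc x a c h = q.rho from rfl, hF]
        have s1 : q.fst.1.support ⊆ U := by
          rw [Five.fst, cyc_support]
          simp only [Finset.insert_subset_iff, Finset.singleton_subset_iff]
          exact ⟨hs.2.1, hb.1, hs.1⟩
        have s2 : q.snd.1.support ⊆ U := by
          rw [Five.snd, cyc_support]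
          simp only [Finset.insert_subset_iff, Finset.singleton_subset_iff]
          exact ⟨hs.1, hs.2.2, hy.1⟩
        obtain ⟨u, hu, v, hv, e⟩ := hg q.fst U s1 hU
        obtain ⟨u', hu', v', hv', e'⟩ := hg q.snd U s2 hU
        have d1 : IsDec A B (g.fn q.fst) u v :=
          ⟨below_mono A (subset_univ U) hu, below_mono B (subset_univ U) hv, e⟩
        have d2 : IsDec A B (g.fn q.snd) u' v' :=
          ⟨below_mono A (subset_univ U) hu', below_mono B (subset_univ U) hv', e'⟩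
        simp only [M]
        rw [← (hm _).comm_congr P d1 (hm _) d2]
        refine pow_mem (below_le_K A hU ?_) 4
        rw [commutatorElement_def]
        exact mul_mem (mul_mem (mul_mem hu hu') (inv_mem hu)) (inv_mem hu') }
  refine ⟨G₁, fun κ ρ => ?_, fun q x y x' y' d1 d2 => ?_⟩
  · show A.fn κ * F ρ ^ 4 * (A.fn κ)⁻¹ = F (act κ.1 ρ) ^ 4
    have hb : B.fn κ ∈ below B univ := fn_mem_below (Le.refl B) (subset_univ _)
    have hc := (below_commute P.orth (hM (qq ρ)).1 hb).eq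
    rw [← conj_pow, ← Fd κ.1 ρ, ← P.total κ]
    congr 1
    calc A.fn κ * F ρ * (A.fn κ)⁻¹ = A.fn κ * (F ρ * B.fn κ) * (B.fn κ)⁻¹ * (A.fn κ)⁻¹ := by group
      _ = _ := by rw [hc]; simp only [F]; group
  · show F q.rho ^ 4 = _
    rw [hF]
    simp only [M]
    rw [(hm _).comm_congr P d1 (hm _) d2]

/-- A decomposed component is the orthogonal sum of its two halves. -/
theorem split (P : Part A B) (hg : Decomposes g A B) :
    ∃ G₁ G₂ : Comp C, Le G₁ A ∧ Le G₂ B ∧ ∀ σ, g.fn σ = G₁.fn σ * G₂.fn σ := by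
  have hle := C.le
  obtain ⟨G₁, l1, e1⟩ := half P hg
  obtain ⟨G₂, l2, e2⟩ := half P.symm (hg.symm P)
  refine ⟨G₁, G₂, l1, l2, fun σ => ?_⟩
  obtain ⟨x, a, c, h, rfl⟩ := exists_cyc σ
  obtain ⟨q, rfl, rfl, rfl, -⟩ := exists_five x a c h ∅ (by simp; omega)
  obtain ⟨u, hu, v, hv, e⟩ := hg q.fst univ (subset_univ _) (by simp; omega)
  obtain ⟨u', hu', v', hv', e'⟩ := hg q.snd univ (subset_univ _) (by simp; omega)
  have d1 : IsDec A B (g.fn q.fst) u v := ⟨hu, hv, e⟩
  have d2 : IsDec A B (g.fn q.snd) u' v' := ⟨hu', hv', e'⟩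
  have d := d1.comm_dec P d2
  rw [← comm4] at d
  show g.fn q.rho = G₁.fn q.rho * G₂.fn q.rho
  rw [e1 q u v u' v' d1 d2, e2 q v u v' u'
      ⟨hv, hu, by rw [e, (below_commute P.orth hu hv).eq]⟩
      ⟨hv', hu', by rw [e', (below_commute P.orth hu' hv').eq]⟩,
    ← (below_commute P.orth d.1 d.2.1).mul_pow, ← d.2.2, pow_succ, g.cube, one_mul]

end Vale.Agent.P196.Fp
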