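import Vale.Agent.P196.Flux.Defs

/-!
# P196: two-slot moves between different indices

What the presented group supplies: an element for the exchange of the slots `(p, a)` and `(q, b)`
over every clopen base, `a ≠ b`, obeying the relations of transpositions. Exchanges inside one
index and the lifts of arbitrary charts are consequences.
-/

namespace Vale.Agent.P196.Fp

open Equiv Simple TopologicalSpace
open Vale.Agent.P196.Flux (Cell)

variable {X : Type} [TopologicalSpace X] [AddAction Cell X] {m : ℕ}

/-- The chart with the slots `(p, a)` and `(q, b)` over `U`. -/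
def pairChart (a b : Fin m) (hab : a ≠ b) (p q : Cell) (U : Clopens X) :
    Chart Cell X m (Fin 2) where
  base := U
  clopen := U.isClopen
  slot := ![(p, a), (q, b)]
  disj i j x _ y _ h _ := by
    fin_cases i <;> fin_cases j <;> simp_all

/-- Lifts of the two-slot moves between different indices. -/
structure Moves (X : Type) [TopologicalSpace X] [AddAction Cell X] (m : ℕ) (G : Type*)
    [Group G] where
  toPerm : G →* Perm (X × Fin m)
  move : Fin m → Fin m → Cell → Cell → Clopens X → G
  toPerm_move : ∀ a b (hab : a ≠ b) p q U,
    toPerm (move a b p q U) = (pairChart a b hab p q U).perm (swap 0 1)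
  move_symm : ∀ a b, a ≠ b → ∀ p q U, move b a q p U = move a b p q U
  move_shift : ∀ a b, a ≠ b → ∀ (p q v : Cell) (U V : Clopens X),
    (∀ x : X, x ∈ U ↔ v +ᵥ x ∈ V) → move a b (p + v) (q + v) U = move a b p q V
  move_sq : ∀ a b, a ≠ b → ∀ p q U, move a b p q U * move a b p q U = 1
  move_sup : ∀ a b, a ≠ b → ∀ (p q : Cell) (U V : Clopens X), Disjoint U V →
    move a b p q (U ⊔ V) = move a b p q U * move a b p q V
  move_comm : ∀ a b c e (hab : a ≠ b) (hce : c ≠ e) (p q r s : Cell) (U V : Clopens X),
    (∀ i j : Fin 2, ∀ x ∈ U, ∀ y ∈ V,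
      (pairChart a b hab p q U).pt i x ≠ (pairChart c e hce r s V).pt j y) →
    Commute (move a b p q U) (move c e r s V)
  /-- three different indices -/
  move_triangle : ∀ a b c, a ≠ b → b ≠ c → a ≠ c → ∀ (p q r : Cell) (U : Clopens X),
    move a b p q U * move b c q r U * move a b p q U = move a c p r U
  generated : Subgroup.closure {g | ∃ a b p q U, a ≠ b ∧ g = move a b p q U} = ⊤

end Vale.Agent.P196.Fp
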