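import Vale.Agent.P196.Fp.Sign

/-!
# P196: shifted pairs of transpositions

`M f A p B q` exchanges the pair `A` at offset `p` and the pair `B` at offset `q` over `f`. Two
such elements commute when their pairs are equal or disjoint; hence the boundary elements
`D u f A` form a commuting family of involutions, additive in `f`, with a cocycle rule in `u`.
-/

namespace Vale.Agent.P196.Pres

open Equiv Simple Sft Fp TopologicalSpace
open scoped symmDiff

attribute [local instance] MacroSystem.fin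

/-- The standing hypotheses of the presentation. -/
structure Hyp (S : MacroSystem) (m r : ℕ) : Prop where
  hm : 18 ≤ m
  hr : 1 ≤ r
  hR : S.Rigid
  span0 : SpanSets0 S r
  span1 : SpanSets1 S r

variable {S : MacroSystem} {m r : ℕ}

/-- Two index pairs with four different indices. -/
def Sep (A B : Fin m × Fin m) : Prop := [A.1, A.2, B.1, B.2].Nodup

theorem sep_iff {A B : Fin m × Fin m} : Sep A B ↔
    A.1 ≠ A.2 ∧ A.1 ≠ B.1 ∧ A.1 ≠ B.2 ∧ A.2 ≠ B.1 ∧ A.2 ≠ B.2 ∧ B.1 ≠ B.2 := by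
  simp [Sep]; tauto

theorem Sep.symm {A B : Fin m × Fin m} (h : Sep A B) : Sep B A := by
  rw [sep_iff] at *; obtain ⟨h1, h2, h3, h4, h5, h6⟩ := h
  exact ⟨h6, h2.symm, h4.symm, h3.symm, h5.symm, h1⟩

/-- The indices of a pair. -/
def ofPair (A : Fin m × Fin m) : Finset (Fin m) := {A.1, A.2}

theorem mem_ofPair {A : Fin m × Fin m} {i : Fin m} : i ∈ ofPair A ↔ i = A.1 ∨ i = A.2 := by
  simp [ofPair]

theorem card_ofPair (A : Fin m × Fin m) : (ofPair A).card ≤ 2 := Finset.card_le_two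

theorem exists_sep (A : Fin m × Fin m) (hA : A.1 ≠ A.2) (T : Finset (Fin m))
    (hT : T.card + 4 ≤ m) : ∃ C, Sep A C ∧ C.1 ∉ T ∧ C.2 ∉ T := by
  obtain ⟨c, d, hcd, hc, hd⟩ := exists_fresh_pair (T ∪ ofPair A) (by
    have := Finset.card_union_le T (ofPair A); have := card_ofPair A; omega)
  simp only [Finset.mem_union, mem_ofPair, not_or] at hc hd
  exact ⟨(c, d), sep_iff.2 ⟨hA, Ne.symm hc.2.1, Ne.symm hd.2.1, Ne.symm hc.2.2, Ne.symm hd.2.2,
    hcd⟩, hc.1, hd.1⟩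

theorem sep_of_notMem {A B : Fin m × Fin m} (hA : A.1 ≠ A.2) (hB : B.1 ≠ B.2)
    (h1 : B.1 ∉ ofPair A) (h2 : B.2 ∉ ofPair A) : Sep A B := by
  simp only [mem_ofPair, not_or] at h1 h2
  exact sep_iff.2 ⟨hA, Ne.symm h1.1, Ne.symm h2.1, Ne.symm h1.2, Ne.symm h2.2, hB⟩

theorem exists_vec (f : Fin m → Cell) (s : Finset (Fin m)) (hs : s.card < m) :
    ∃ v : Fin m → Cell, ∑ a, v a = 0 ∧ ∀ a ∈ s, v a = f a := by
  obtain ⟨c, hc⟩ := exists_notMem s hs
  refine ⟨fun a => if a ∈ s then f a else if a = c then -∑ b ∈ s, f b else 0, ?_,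
    fun a ha => if_pos ha⟩
  rw [← Finset.sum_add_sum_compl s, Finset.sum_congr rfl fun a ha => if_pos ha,
    Finset.sum_congr (rfl : sᶜ = sᶜ) fun a ha => if_neg (Finset.mem_compl.1 ha)]
  simp [hc]

theorem tr_tr (u w : Cell) (U : Clopens (S.Conf 0)) : tr w (tr u U) = tr (u + w) U := by
  refine clopens_ext fun t => ?_
  rw [mem_tr, mem_tr, mem_tr, ← add_vadd, neg_add]

theorem tr_zero (U : Clopens (S.Conf 0)) : tr 0 U = U := by
  refine clopens_ext fun t => ?_
  rw [mem_tr, neg_zero, zero_vadd]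

theorem tr_bot (u : Cell) : tr u (⊥ : Clopens (S.Conf 0)) = ⊥ := clopens_ext fun _ => Iff.rfl

variable [NeZero m] (H : Hyp S m r)

/-- Elements of index sets commute with shifts outside them. -/
theorem commute_tau_of_mem (h18 : 18 ≤ m) {x : P₁ S m r} {s : Finset (Fin m)} (hs : s.card ≤ 4)
    (hx : ∀ U : Finset (Fin m), s ⊆ U → 9 ≤ U.card → x ∈ sub S r U) {v : Fin m → Cell}
    (hv : ∑ a, v a = 0) (h : ∀ a ∈ s, v a = 0) : Commute x (tau S m r v) := by
  obtain ⟨c, hc⟩ := exists_notMem s (by omega)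
  refine zeroSum_induction (p := fun v => Commute x (tau S m r v))
    (U := sᶜ) (c := c) (Finset.mem_compl.2 hc) ?_ ?_ ?_ ?_ hv fun a ha => h a (by simpa using ha)
  · rw [tau_zero]; exact Commute.one_right _
  · intro v w h1 h2; rw [tau_add]; exact h1.mul_right h2
  · intro k v h; rw [tau_zsmul]; exact h.zpow_right k
  · intro a ha j
    rw [tau_pvec]
    refine sub_commute (U := ({c, a} : Finset (Fin m))ᶜ) disjoint_compl_left (hx _ ?_ ?_)
      (el_mem_sub (ball_pvec c a j) (by omega) (supported_pvec (by simp) (by simp) _))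
    · intro i hi
      simp only [Finset.mem_compl, Finset.mem_insert, Finset.mem_singleton, not_or]
      exact ⟨fun he => hc (he ▸ hi), fun he => Finset.mem_compl.1 ha (he ▸ hi)⟩
    · have := Finset.card_le_two (a := c) (b := a)
      rw [Finset.card_compl, Fintype.card_fin]; omega

include H

/-- Disjoint small index sets sit in disjoint large ones. -/
theorem Hyp.commute_of_sub {x y : P₁ S m r} {s t : Finset (Fin m)} (hd : Disjoint s t)
    (hs : s.card ≤ 9) (ht : t.card ≤ 9)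
    (hx : ∀ U : Finset (Fin m), s ⊆ U → 9 ≤ U.card → x ∈ sub S r U)
    (hy : ∀ U : Finset (Fin m), t ⊆ U → 9 ≤ U.card → y ∈ sub S r U) : Commute x y := by
  have := H.hm
  obtain ⟨E, h1, h2, h3⟩ := Finset.exists_subsuperset_card_eq (s := s) (t := tᶜ) (n := 9)
    (fun i hi => Finset.mem_compl.2 (Finset.disjoint_left.1 hd hi)) hs
    (by rw [Finset.card_compl, Fintype.card_fin]; omega)
  refine sub_commute (U := E) disjoint_compl_right (hx E h1 h3.ge) (hy Eᶜ ?_ ?_)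
  · exact fun i hi => Finset.mem_compl.2 fun hE => Finset.mem_compl.1 (h2 hE) hi
  · rw [Finset.card_compl, Fintype.card_fin, h3]; omega

/-- The component of a clopen set. -/
noncomputable def Hyp.C (U : Clopens (S.Conf 0)) : Comp (ctx S m r H.hm) :=
  comp H.hm H.hr H.hR U

/-- The lift of two transpositions over a set. -/
noncomputable def Hyp.WU (U : Clopens (S.Conf 0)) (A B : Fin m × Fin m) : P₁ S m r :=
  W (H.C U) A.1 A.2 B.1 B.2

variable {H} {A B C E : Fin m × Fin m} {U V f g : Clopens (S.Conf 0)}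

theorem Hyp.hz (U : Clopens (S.Conf 0)) : NoSign (H.C U) := noSign H.hm H.hr H.hR H.span0 U

theorem Hyp.WU_symm (h : Sep A B) : H.WU U B A = H.WU U A B := W_swap (H.hz U) h

theorem Hyp.WU_sq (h : Sep A B) : H.WU U A B * H.WU U A B = 1 := W_sq (H.hz U) h

theorem Hyp.WU_flip (h : Sep A B) : H.WU U (A.2, A.1) B = H.WU U A B := W_flip (H.hz U) h

theorem Hyp.WU_sup (h : Disjoint U V) : H.WU (U ⊔ V) A B = H.WU U A B * H.WU V A B :=
  W_comp_sup H.hm H.hr H.hR h _ _ _ _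

theorem Hyp.WU_bot : H.WU ⊥ A B = 1 := W_comp_bot H.hm H.hr H.hR _ _ _ _

theorem Hyp.WU_orth (h : Disjoint U V) : Commute (H.WU U A B) (H.WU V C E) :=
  W_orth (comp_sup H.hm H.hr H.hR h).1

theorem Hyp.WU_chain (h : [A.1, A.2, B.1, B.2, C.1, C.2].Nodup) :
    H.WU U A B * H.WU U B C = H.WU U A C := W_chain (H.hz U) h

/-- Commutation inside each component gives commutation across components. -/
theorem Hyp.WU_cross (h : ∀ U, Commute (H.WU U A B) (H.WU U C E)) :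
    Commute (H.WU U A B) (H.WU V C E) := by
  have eU : H.WU U A B = H.WU (U \ V) A B * H.WU (U ⊓ V) A B := by
    rw [← H.WU_sup (disjoint_sdiff_self_left.mono_right inf_le_right), sup_comm, sup_inf_sdiff]
  have eV : H.WU V C E = H.WU (V \ U) C E * H.WU (U ⊓ V) C E := by
    rw [← H.WU_sup (disjoint_sdiff_self_left.mono_right inf_le_left), sup_comm, _root_.inf_comm,
      sup_inf_sdiff]
  have d1 : Disjoint (U \ V) (V \ U) := disjoint_sdiff_sdiff
  have d2 : Disjoint (U \ V) (U ⊓ V) := disjoint_sdiff_self_left.mono_right inf_le_right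
  have d3 : Disjoint (U ⊓ V) (V \ U) := (disjoint_sdiff_self_left.mono_right inf_le_left).symm
  rw [eU, eV]
  exact ((H.WU_orth d1).mul_right (H.WU_orth d2)).mul_left
    ((H.WU_orth d3).mul_right (h _))

theorem Hyp.sep_six (hAB : Sep A B) (hAC : Sep A C) (hBC : Sep B C) :
    [A.1, A.2, B.1, B.2, C.1, C.2].Nodup := by
  rw [sep_iff] at hAB hAC hBC
  simp
  tauto

theorem Hyp.WU_commute_shared (hAB : Sep A B) (hAC : Sep A C) (hBC : Sep B C) :
    Commute (H.WU U A B) (H.WU V A C) := by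
  refine H.WU_cross fun W => ?_
  have e1 : H.WU W A B * H.WU W A C = H.WU W B C := by
    rw [← H.WU_symm hAB]; exact H.WU_chain (H.sep_six hAB.symm hBC hAC)
  have e2 : H.WU W A C * H.WU W A B = H.WU W B C := by
    rw [← H.WU_symm hAC, H.WU_chain (H.sep_six hAC.symm hBC.symm hAB), H.WU_symm hBC]
  show _ * _ = _ * _
  rw [e1, e2]

theorem Hyp.WU_mem {U' : Finset (Fin m)} (hA : ofPair A ⊆ U') (hB : ofPair B ⊆ U')
    (h9 : 9 ≤ U'.card) : H.WU U A B ∈ sub S r U' := by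
  refine W_mem_K (H.C U) ?_ h9
  simp [Finset.insert_subset_iff]
  exact ⟨hA (mem_ofPair.2 (Or.inl rfl)), hA (mem_ofPair.2 (Or.inr rfl)),
    hB (mem_ofPair.2 (Or.inl rfl)), hB (mem_ofPair.2 (Or.inr rfl))⟩

omit [NeZero m] in
theorem Hyp.four_subset {A B : Fin m × Fin m} {i : Fin m}
    (hi : i ∈ ({A.1, A.2, B.1, B.2} : Finset (Fin m))) :
    i = A.1 ∨ i = A.2 ∨ i = B.1 ∨ i = B.2 := by simpa using hi

/-- The exchange of two pairs at given offsets. -/
noncomputable def Hyp.M (H : Hyp S m r) (f : Clopens (S.Conf 0)) (A : Fin m × Fin m) (p : Cell)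
    (B : Fin m × Fin m) (q : Cell) : P₁ S m r := by
  classical
  exact if h : ∃ v : Fin m → Cell, ∑ a, v a = 0 ∧ v A.1 = p ∧ v A.2 = p ∧ v B.1 = q ∧ v B.2 = q
    then tau S m r h.choose * H.WU f A B * (tau S m r h.choose)⁻¹ else 1

/-- A vector with given values on three pairs. -/
theorem Hyp.exists_vec3 (hAB : Sep A B) (hAC : Sep A C) (hBC : Sep B C) (p q t : Cell) :
    ∃ v : Fin m → Cell, ∑ a, v a = 0 ∧ v A.1 = p ∧ v A.2 = p ∧ v B.1 = q ∧ v B.2 = q ∧
      v C.1 = t ∧ v C.2 = t := by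
  have h18 := H.hm
  obtain ⟨v, hv, h⟩ := exists_vec
    (fun i => if i ∈ ofPair A then p else if i ∈ ofPair B then q else t)
    (ofPair A ∪ ofPair B ∪ ofPair C) (by
      have := Finset.card_union_le (ofPair A ∪ ofPair B) (ofPair C)
      have := Finset.card_union_le (ofPair A) (ofPair B)
      have := card_ofPair A; have := card_ofPair B; have := card_ofPair C
      omega)
  rw [sep_iff] at hAB hAC hBC
  obtain ⟨a1, a2, a3, a4, a5, a6⟩ := hAB
  obtain ⟨b1, b2, b3, b4, b5, b6⟩ := hAC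
  obtain ⟨c1, c2, c3, c4, c5, c6⟩ := hBC
  refine ⟨v, hv, ?_, ?_, ?_, ?_, ?_, ?_⟩ <;> rw [h _ (by simp [mem_ofPair])] <;>
    simp [mem_ofPair, Ne.symm a2, Ne.symm a3, Ne.symm a4, Ne.symm a5, Ne.symm b2, Ne.symm b3,
      Ne.symm b4, Ne.symm b5, Ne.symm c2, Ne.symm c3, Ne.symm c4, Ne.symm c5]

theorem Hyp.exists_vec2 (h : Sep A B) (p q : Cell) :
    ∃ v : Fin m → Cell, ∑ a, v a = 0 ∧ v A.1 = p ∧ v A.2 = p ∧ v B.1 = q ∧ v B.2 = q := by
  have h18 := H.hm
  obtain ⟨C, hAC, h1, h2⟩ := exists_sep A (sep_iff.1 h).1 (ofPair B)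
    (by have := card_ofPair B; omega)
  obtain ⟨v, hv, e1, e2, e3, e4, -⟩ := H.exists_vec3 h hAC
    (sep_of_notMem (sep_iff.1 h).2.2.2.2.2 (sep_iff.1 hAC).2.2.2.2.2 h1 h2) p q 0
  exact ⟨v, hv, e1, e2, e3, e4⟩

theorem Hyp.M_eq {p q : Cell} {v : Fin m → Cell} (hv : ∑ a, v a = 0) (h1 : v A.1 = p)
    (h2 : v A.2 = p) (h3 : v B.1 = q) (h4 : v B.2 = q) :
    H.M f A p B q = tau S m r v * H.WU f A B * (tau S m r v)⁻¹ := by
  have h : ∃ v : Fin m → Cell, ∑ a, v a = 0 ∧ v A.1 = p ∧ v A.2 = p ∧ v B.1 = q ∧ v B.2 = q :=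
    ⟨v, hv, h1, h2, h3, h4⟩
  rw [Hyp.M, dif_pos h]
  obtain ⟨g0, g1, g2, g3, g4⟩ := h.choose_spec
  have c : Commute (H.WU f A B) (tau S m r (h.choose - v)) := by
    refine W_commute_tau _ (by simp [g0, hv]) fun i hi => ?_
    rcases H.four_subset hi with rfl | rfl | rfl | rfl <;> simp [g1, g2, g3, g4, h1, h2, h3, h4]
  rw [show h.choose = v + (h.choose - v) by abel, tau_add]
  calc _ = tau S m r v * (tau S m r (h.choose - v) * H.WU f A B) *
        (tau S m r (h.choose - v))⁻¹ * (tau S m r v)⁻¹ := by group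
    _ = _ := by rw [← c.eq]; group

theorem Hyp.M_zero : H.M f A 0 B 0 = H.WU f A B := by
  rw [H.M_eq (p := 0) (q := 0) (v := 0) (by simp) rfl rfl rfl rfl, tau_zero]; group

theorem Hyp.M_symm (h : Sep A B) (p q : Cell) : H.M f B q A p = H.M f A p B q := by
  obtain ⟨v, hv, h1, h2, h3, h4⟩ := H.exists_vec2 h p q
  rw [H.M_eq hv h1 h2 h3 h4, H.M_eq hv h3 h4 h1 h2, H.WU_symm h]

theorem Hyp.M_flip (h : Sep A B) (p q : Cell) : H.M f (A.2, A.1) p B q = H.M f A p B q := by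
  obtain ⟨v, hv, h1, h2, h3, h4⟩ := H.exists_vec2 h p q
  rw [H.M_eq hv h1 h2 h3 h4, H.M_eq hv h2 h1 h3 h4, H.WU_flip h]

theorem Hyp.M_sq (h : Sep A B) (p q : Cell) : H.M f A p B q * H.M f A p B q = 1 := by
  obtain ⟨v, hv, h1, h2, h3, h4⟩ := H.exists_vec2 h p q
  rw [H.M_eq hv h1 h2 h3 h4]
  calc _ = tau S m r v * (H.WU f A B * H.WU f A B) * (tau S m r v)⁻¹ := by group
    _ = _ := by rw [H.WU_sq h]; group

theorem Hyp.M_sup (h : Sep A B) (hd : Disjoint f g) (p q : Cell) :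
    H.M (f ⊔ g) A p B q = H.M f A p B q * H.M g A p B q := by
  obtain ⟨v, hv, h1, h2, h3, h4⟩ := H.exists_vec2 h p q
  rw [H.M_eq hv h1 h2 h3 h4, H.M_eq hv h1 h2 h3 h4, H.M_eq hv h1 h2 h3 h4, H.WU_sup hd]
  group

theorem Hyp.M_tr (h : Sep A B) (s p q : Cell) :
    H.M (tr s f) A p B q = H.M f A (p + s) B (q + s) := by
  obtain ⟨v, hv, h1, h2, h3, h4⟩ := H.exists_vec2 h p q
  obtain ⟨u, hu, g1, g2, g3, g4⟩ := H.exists_vec2 h s s
  have e : H.WU (tr s f) A B = tau S m r u * H.WU f A B * (tau S m r u)⁻¹ := by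
    show W (comp H.hm H.hr H.hR (tr s f)) _ _ _ _ = _
    rw [← Tr_comp]
    refine W_Tr s _ hu fun i hi => ?_
    rcases H.four_subset hi with rfl | rfl | rfl | rfl <;> assumption
  rw [H.M_eq hv h1 h2 h3 h4, H.M_eq (v := v + u) (by simp [Finset.sum_add_distrib, hv, hu])
    (by simp [h1, g1]) (by simp [h2, g2]) (by simp [h3, g3]) (by simp [h4, g4]), e, tau_add]
  group

theorem Hyp.M_self (h : Sep A B) (p : Cell) : H.M f A p B p = H.WU (tr p f) A B := by
  rw [← H.M_zero, H.M_tr h, zero_add]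

theorem Hyp.M_chain (hAB : Sep A B) (hAC : Sep A C) (hBC : Sep B C) (p q t : Cell) :
    H.M f A p B q * H.M f B q C t = H.M f A p C t := by
  obtain ⟨v, hv, h1, h2, h3, h4, h5, h6⟩ := H.exists_vec3 hAB hAC hBC p q t
  rw [H.M_eq hv h1 h2 h3 h4, H.M_eq hv h3 h4 h5 h6, H.M_eq hv h1 h2 h5 h6,
    ← H.WU_chain (H.sep_six hAB hAC hBC)]
  group

theorem Hyp.M_mem {U' : Finset (Fin m)} (h : Sep A B) (hA : ofPair A ⊆ U') (hB : ofPair B ⊆ U')
    (h9 : 9 ≤ U'.card) (p q : Cell) : H.M f A p B q ∈ sub S r U' := by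
  obtain ⟨c, hcU, hc⟩ : ∃ c ∈ U', c ∉ ofPair A ∪ ofPair B := by
    by_contra! hh
    have := Finset.card_le_card (s := U') (t := ofPair A ∪ ofPair B) hh
    have := Finset.card_union_le (ofPair A) (ofPair B)
    have := card_ofPair A; have := card_ofPair B
    omega
  simp only [Finset.mem_union, mem_ofPair, not_or] at hc
  obtain ⟨n1, n2, n3, n4, n5, n6⟩ := sep_iff.1 h
  let v : Fin m → Cell := pvec m c A.1 p + pvec m c A.2 p + pvec m c B.1 q + pvec m c B.2 q
  have hp : ∀ (a b : Fin m) (x : Cell), ∑ i, pvec m a b x i = 0 := fun a b x => by simp [pvec]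
  have hv : ∑ i, v i = 0 := by simp [v, Finset.sum_add_distrib, hp]
  have ha : ∀ i, i ∈ ofPair A → i ∈ U' := fun i hi => hA hi
  have hb : ∀ i, i ∈ ofPair B → i ∈ U' := fun i hi => hB hi
  rw [H.M_eq (v := v) hv
    (by simp [v, pvec, n1, n2, n3, Ne.symm hc.1.1])
    (by simp [v, pvec, Ne.symm n1, n4, n5, Ne.symm hc.1.2])
    (by simp [v, pvec, Ne.symm n2, Ne.symm n4, n6, Ne.symm hc.2.1])
    (by simp [v, pvec, Ne.symm n3, Ne.symm n5, Ne.symm n6, Ne.symm hc.2.2])]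
  have ht : tau S m r v ∈ sub S r U' := tau_mem_sub hv fun i hi => by
    have i1 : i ≠ A.1 := fun e => hi (e ▸ ha _ (mem_ofPair.2 (Or.inl rfl)))
    have i2 : i ≠ A.2 := fun e => hi (e ▸ ha _ (mem_ofPair.2 (Or.inr rfl)))
    have i3 : i ≠ B.1 := fun e => hi (e ▸ hb _ (mem_ofPair.2 (Or.inl rfl)))
    have i4 : i ≠ B.2 := fun e => hi (e ▸ hb _ (mem_ofPair.2 (Or.inr rfl)))
    have i5 : i ≠ c := fun e => hi (e ▸ hcU)
    simp [v, pvec, i1, i2, i3, i4, i5]
  exact mul_mem (mul_mem ht (H.WU_mem hA hB h9)) (inv_mem ht)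

theorem Hyp.M_comm_shared (hAB : Sep A B) (hAC : Sep A C) (hBC : Sep B C) (p q p' t : Cell) :
    Commute (H.M f A p B q) (H.M g A p' C t) := by
  have e : H.M g A p' C t = H.M (tr (p' - p) g) A p C (t - (p' - p)) := by
    rw [H.M_tr hAC]; congr 1 <;> abel
  obtain ⟨v, hv, h1, h2, h3, h4, h5, h6⟩ := H.exists_vec3 hAB hAC hBC p q (t - (p' - p))
  rw [e, H.M_eq hv h1 h2 h3 h4, H.M_eq hv h1 h2 h5 h6]
  exact (Commute.conj_iff _).2 (H.WU_commute_shared hAB hAC hBC)

theorem Hyp.M_comm_same (hAB : Sep A B) (p q p' q' : Cell) :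
    Commute (H.M f A p B q) (H.M g A p' B q') := by
  have h18 := H.hm
  obtain ⟨E, hAE, e1, e2⟩ := exists_sep A (sep_iff.1 hAB).1 (ofPair B)
    (by have := card_ofPair B; omega)
  have hBE : Sep B E := sep_of_notMem (sep_iff.1 hAB).2.2.2.2.2 (sep_iff.1 hAE).2.2.2.2.2 e1 e2
  rw [← H.M_chain hAE hAB hBE.symm p' 0 q', H.M_symm hBE q' 0]
  refine (H.M_comm_shared hAB hAE hBE p q p' 0).mul_right ?_
  rw [← H.M_symm hAB p q]
  exact H.M_comm_shared hAB.symm hBE hAE q p q' 0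

/-! ### The boundary elements -/

omit H in
open Classical in
/-- A pair disjoint from a given one. -/
noncomputable def otherPair (A : Fin m × Fin m) : Fin m × Fin m :=
  if h : ∃ C, Sep A C then h.choose else A

theorem Hyp.sep_other (hA : A.1 ≠ A.2) : Sep A (otherPair A) := by
  have := H.hm
  obtain ⟨C, hC, -⟩ := exists_sep A hA ∅ (by simp; omega)
  rw [otherPair, dif_pos ⟨C, hC⟩]
  exact Exists.choose_spec (⟨C, hC⟩ : ∃ C, Sep A C)

/-- The lift of the transposition `A` over the boundary of `f` in direction `u`. -/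
noncomputable def Hyp.D (H : Hyp S m r) (u : Cell) (f : Clopens (S.Conf 0)) (A : Fin m × Fin m) :
    P₁ S m r :=
  H.M f A 0 (otherPair A) u * H.M f (otherPair A) u A u

variable {u w : Cell}

theorem Hyp.D_eq_aux (hAC : Sep A C) (hAE : Sep A E) (hCE : Sep C E) :
    H.M f A 0 C u * H.M f C u A u = H.M f A 0 E u * H.M f E u A u := by
  rw [← H.M_chain hAE hAC hCE.symm 0 u u, mul_assoc, H.M_chain hCE.symm hAE.symm hAC.symm u u u]

theorem Hyp.D_eq (hAC : Sep A C) : H.D u f A = H.M f A 0 C u * H.M f C u A u := by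
  have h18 := H.hm
  have hA := (sep_iff.1 hAC).1
  have ho := H.sep_other hA
  obtain ⟨E, hAE, h1, h2⟩ := exists_sep A hA (ofPair C ∪ ofPair (otherPair A)) (by
    have := Finset.card_union_le (ofPair C) (ofPair (otherPair A))
    have := card_ofPair C; have := card_ofPair (otherPair A); omega)
  simp only [Finset.mem_union, not_or] at h1 h2
  have hE := (sep_iff.1 hAE).2.2.2.2.2
  rw [Hyp.D, H.D_eq_aux ho hAE (sep_of_notMem (sep_iff.1 ho).2.2.2.2.2 hE h1.2 h2.2),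
    H.D_eq_aux hAC hAE (sep_of_notMem (sep_iff.1 hAC).2.2.2.2.2 hE h1.1 h2.1)]

theorem Hyp.D_sq (hA : A.1 ≠ A.2) : H.D u f A * H.D u f A = 1 := by
  have ho := H.sep_other hA
  rw [Hyp.D]
  have c : Commute (H.M f A 0 (otherPair A) u) (H.M f (otherPair A) u A u) := by
    rw [H.M_symm ho u u]; exact H.M_comm_same ho _ _ _ _
  rw [c.symm.mul_mul_mul_comm, H.M_sq ho, H.M_sq ho.symm, one_mul]

theorem Hyp.D_comm (hA : A.1 ≠ A.2) : Commute (H.D u f A) (H.D w g A) := by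
  have h18 := H.hm
  have ho := H.sep_other hA
  obtain ⟨E, hAE, h1, h2⟩ := exists_sep A hA (ofPair (otherPair A))
    (by have := card_ofPair (otherPair A); omega)
  have hoE := sep_of_notMem (sep_iff.1 ho).2.2.2.2.2 (sep_iff.1 hAE).2.2.2.2.2 h1 h2
  rw [H.D_eq hAE (u := w) (f := g), Hyp.D, H.M_symm ho u u, H.M_symm hAE w w]
  exact ((H.M_comm_shared ho hAE hoE _ _ _ _).mul_right (H.M_comm_shared ho hAE hoE _ _ _ _)).mul_left
    ((H.M_comm_shared ho hAE hoE _ _ _ _).mul_right (H.M_comm_shared ho hAE hoE _ _ _ _))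

theorem Hyp.D_comm_WU (hAB : Sep A B) : Commute (H.D u f A) (H.WU U A B) := by
  have h18 := H.hm
  obtain ⟨E, hAE, h1, h2⟩ := exists_sep A (sep_iff.1 hAB).1 (ofPair B)
    (by have := card_ofPair B; omega)
  have hBE := sep_of_notMem (sep_iff.1 hAB).2.2.2.2.2 (sep_iff.1 hAE).2.2.2.2.2 h1 h2
  rw [H.D_eq hAE, H.M_symm hAE u u, ← H.M_zero (f := U)]
  exact (H.M_comm_shared hAE hAB hBE.symm _ _ _ _).mul_left
    (H.M_comm_shared hAE hAB hBE.symm _ _ _ _)

theorem Hyp.D_mem (hA : A.1 ≠ A.2) {U' : Finset (Fin m)} (hAU : ofPair A ⊆ U')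
    (h9 : 9 ≤ U'.card) : H.D u f A ∈ sub S r U' := by
  obtain ⟨c, hc, d, hd, hcd⟩ := Finset.one_lt_card.1 (show 1 < (U' \ ofPair A).card by
    have := Finset.le_card_sdiff (ofPair A) U'
    have := card_ofPair A; omega)
  rw [Finset.mem_sdiff] at hc hd
  have h : Sep A (c, d) := sep_of_notMem hA hcd hc.2 hd.2
  have hC : ofPair (c, d) ⊆ U' := fun i hi => by
    rcases mem_ofPair.1 hi with rfl | rfl
    exacts [hc.1, hd.1]
  rw [H.D_eq h]
  exact mul_mem (H.M_mem h hAU hC h9 _ _) (H.M_mem h.symm hC hAU h9 _ _)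

theorem Hyp.D_sup (hA : A.1 ≠ A.2) (hd : Disjoint f g) :
    H.D u (f ⊔ g) A = H.D u f A * H.D u g A := by
  have ho := H.sep_other hA
  rw [Hyp.D, Hyp.D, Hyp.D, H.M_sup ho hd, H.M_sup ho.symm hd]
  have c : Commute (H.M g A 0 (otherPair A) u) (H.M f (otherPair A) u A u) := by
    rw [H.M_symm ho u u]; exact H.M_comm_same ho _ _ _ _
  exact c.mul_mul_mul_comm _ _

theorem Hyp.D_symmDiff (hA : A.1 ≠ A.2) : H.D u (f ∆ g) A = H.D u f A * H.D u g A :=
  map_symmDiff_mul (fun f => H.D u f A) (fun _ _ h => H.D_sup hA h) (fun _ => H.D_sq hA)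
    (fun _ _ => H.D_comm hA) f g

theorem Hyp.D_flip (hA : A.1 ≠ A.2) : H.D u f (A.2, A.1) = H.D u f A := by
  have h18 := H.hm
  obtain ⟨C, hAC, h1, h2⟩ := exists_sep A hA ∅ (by simp; omega)
  have h' : Sep (A.2, A.1) C := by
    rw [sep_iff] at hAC ⊢
    exact ⟨hAC.1.symm, hAC.2.2.2.1, hAC.2.2.2.2.1, hAC.2.1, hAC.2.2.1, hAC.2.2.2.2.2⟩
  rw [H.D_eq h', H.D_eq hAC, H.M_flip hAC, H.M_symm h' u u, H.M_flip hAC, H.M_symm hAC u u]

theorem Hyp.D_mul (hAB : Sep A B) : H.D u f A * H.D u f B = H.WU (f ∆ tr u f) A B := by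
  have h18 := H.hm
  obtain ⟨C, hAC, h1, h2⟩ := exists_sep A (sep_iff.1 hAB).1 (ofPair B)
    (by have := card_ofPair B; omega)
  have hBC := sep_of_notMem (sep_iff.1 hAB).2.2.2.2.2 (sep_iff.1 hAC).2.2.2.2.2 h1 h2
  rw [H.D_eq hAC, H.D_eq hBC]
  have c : Commute (H.M f C u A u) (H.M f B 0 C u) := by
    rw [H.M_symm hBC.symm u 0]
    exact H.M_comm_shared hAC.symm hBC.symm hAB u u u 0
  rw [c.mul_mul_mul_comm, H.M_symm hBC.symm u 0, H.M_chain hAC hAB hBC.symm 0 u 0]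
  rw [show H.M f C u A u * H.M f C u B u = H.M f A u B u by
    rw [H.M_symm hAC u u, H.M_chain hAC hAB hBC.symm u u u]]
  rw [H.M_zero, H.M_self hAB u]
  refine (map_symmDiff_mul (fun W => H.WU W A B) (fun _ _ h => H.WU_sup h)
    (fun _ => H.WU_sq hAB) (fun _ _ => H.WU_cross fun _ => Commute.refl _) _ _).symm

theorem Hyp.D_cocycle (hA : A.1 ≠ A.2) :
    H.D u f A * H.D w (tr u f) A = H.D (u + w) f A := by
  have h18 := H.hm
  have ho := H.sep_other hA
  obtain ⟨E, hAE, h1, h2⟩ := exists_sep A hA (ofPair (otherPair A))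
    (by have := card_ofPair (otherPair A); omega)
  have hoE := sep_of_notMem (sep_iff.1 ho).2.2.2.2.2 (sep_iff.1 hAE).2.2.2.2.2 h1 h2
  rw [H.D_eq hAE (u := w), H.D_eq hAE (u := u + w), Hyp.D, H.M_tr hAE, H.M_tr hAE.symm,
    zero_add, add_comm w u]
  calc _ = H.M f A 0 (otherPair A) u *
        (H.M f (otherPair A) u A u * H.M f A u E (u + w)) * H.M f E (u + w) A (u + w) := by group
    _ = _ := by rw [H.M_chain ho.symm hoE hAE, H.M_chain ho hAE hoE]

/-- Conjugation by a shift moves the boundary along. -/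
theorem Hyp.D_conj (hA : A.1 ≠ A.2) {v : Fin m → Cell} {s : Cell} (hv : ∑ a, v a = 0)
    (h1 : v A.1 = s) (h2 : v A.2 = s) :
    tau S m r v * H.D u f A * (tau S m r v)⁻¹ = H.D u (tr s f) A := by
  have ho := H.sep_other hA
  obtain ⟨v', hv', g1, g2, g3, g4⟩ := H.exists_vec2 ho s s
  have c : Commute (H.D u f A) (tau S m r (v - v')) :=
    commute_tau_of_mem H.hm (s := ofPair A) ((card_ofPair A).trans (by norm_num))
      (fun U hU h9 => H.D_mem hA hU h9) (by simp [hv, hv'])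
      fun i hi => by rcases mem_ofPair.1 hi with rfl | rfl <;> simp [h1, h2, g1, g2]
  have shift : ∀ {X Y : Fin m × Fin m} (p q : Cell), Sep X Y → v' X.1 = s → v' X.2 = s →
      v' Y.1 = s → v' Y.2 = s →
      tau S m r v' * H.M f X p Y q * (tau S m r v')⁻¹ = H.M (tr s f) X p Y q := by
    intro X Y p q hXY a1 a2 a3 a4
    obtain ⟨z, hz, z1, z2, z3, z4⟩ := H.exists_vec2 hXY p q
    rw [H.M_tr hXY, H.M_eq hz z1 z2 z3 z4, H.M_eq (v := z + v')
      (by simp [Finset.sum_add_distrib, hz, hv']) (by simp [z1, a1]) (by simp [z2, a2])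
      (by simp [z3, a3]) (by simp [z4, a4]), add_comm z v', tau_add]
    group
  rw [show v = v' + (v - v') by abel, tau_add]
  calc _ = tau S m r v' * (tau S m r (v - v') * H.D u f A) * (tau S m r (v - v'))⁻¹ *
        (tau S m r v')⁻¹ := by group
    _ = tau S m r v' * H.D u f A * (tau S m r v')⁻¹ := by rw [← c.eq]; group
    _ = (tau S m r v' * H.M f A 0 (otherPair A) u * (tau S m r v')⁻¹) *
        (tau S m r v' * H.M f (otherPair A) u A u * (tau S m r v')⁻¹) := by rw [Hyp.D]; group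
    _ = _ := by rw [shift 0 u ho g1 g2 g3 g4, shift u u ho.symm g3 g4 g1 g2, Hyp.D]

/-! ### Images in the full group -/

theorem Hyp.phi_WU (h : Sep A B) :
    phi S m r (H.WU U A B) = permAt S m U (swap A.1 A.2) * permAt S m U (swap B.1 B.2) := by
  obtain ⟨n1, n2, n3, n4, n5, n6⟩ := sep_iff.1 h
  have hn : [A.1, A.2, B.1, B.2].Nodup := h
  rw [Hyp.WU, W_eq (H.C U) hn ⟨n2, Ne.symm n4, n1⟩ ⟨n2, n6, n3⟩, map_mul]
  rw [show phi S m r ((H.C U).fn _) = _ from phi_comp H.hm H.hr H.hR U _,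
    show phi S m r ((H.C U).fn _) = _ from phi_comp H.hm H.hr H.hR U _, ← map_mul, ← map_mul,
    cyc_mul_cyc hn]

theorem Hyp.phi_M (h : Sep A B) (p q : Cell) :
    phi S m r (H.M f A p B q) =
      permAt S m (tr p f) (swap A.1 A.2) * permAt S m (tr q f) (swap B.1 B.2) := by
  obtain ⟨v, hv, h1, h2, h3, h4⟩ := H.exists_vec2 h p q
  rw [H.M_eq hv h1 h2 h3 h4, map_mul, map_mul, map_inv, phi_tau hv, H.phi_WU h,
    ← sh_conj_permAt v p f (swap A.1 A.2) (fun i hi => ?_),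
    ← sh_conj_permAt v q f (swap B.1 B.2) (fun i hi => ?_)]
  · group
  · rcases (swap_apply_ne_self_iff.1 hi).2 with rfl | rfl <;> assumption
  · rcases (swap_apply_ne_self_iff.1 hi).2 with rfl | rfl <;> assumption

theorem Hyp.phi_D (hA : A.1 ≠ A.2) :
    phi S m r (H.D u f A) =
      permAt S m f (swap A.1 A.2) * permAt S m (tr u f) (swap A.1 A.2) := by
  have ho := H.sep_other hA
  rw [Hyp.D, map_mul, H.phi_M ho, H.phi_M ho.symm, tr_zero]
  calc _ = permAt S m f (swap A.1 A.2) * (permAt S m (tr u f) (swap (otherPair A).1 (otherPair A).2) *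
        permAt S m (tr u f) (swap (otherPair A).1 (otherPair A).2)) *
        permAt S m (tr u f) (swap A.1 A.2) := by group
    _ = _ := by rw [← map_mul, swap_mul_self, map_one]; group

end Vale.Agent.P196.Pres
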