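import Vale.Agent.P196.Fp.Quot
import Vale.Agent.P196.Fp.Final

/-!
# P196: the alternating full group is finitely presented

The quotient of the presented group carries lifts of all two-slot moves. By the flux theorem the
kernel of its map to the permutations is finitely generated, so its range is finitely presented;
the alternating full group has finite index in that range.
-/

namespace Vale.Agent.P196.Pres

open Equiv Simple Sft Fp TopologicalSpace
open scoped symmDiff

attribute [local instance] MacroSystem.fin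

variable {S : MacroSystem} {m r : ℕ}

theorem sh_conj_permAt_swap (v : Fin m → Cell) (a b : Fin m) (hab : a ≠ b)
    (U : Clopens (S.Conf 0)) :
    sh S m v * permAt S m U (swap a b) * (sh S m v)⁻¹ = moveEl S m a b hab (v a) (v b) U := by
  classical
  refine mul_inv_eq_of_eq_mul (Subtype.ext (Equiv.ext fun ⟨t, c⟩ => ?_))
  simp only [Subgroup.coe_mul, Perm.mul_apply]
  rw [sh_apply]
  by_cases ha : c = a
  · subst ha
    by_cases ht : t ∈ U
    · rw [permAt_of_mem _ ht, swap_apply_left, sh_apply, moveEl_fst c b hab _ _ U ht]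
    · rw [permAt_of_notMem _ ht, sh_apply, moveEl_of_not c b hab _ _ U
        (fun _ => by rwa [neg_vadd_vadd]) (fun h => absurd h hab)]
  by_cases hb : c = b
  · subst hb
    by_cases ht : t ∈ U
    · rw [permAt_of_mem _ ht, swap_apply_right, sh_apply, moveEl_snd a c hab _ _ U ht]
    · rw [permAt_of_notMem _ ht, sh_apply, moveEl_of_not a c hab _ _ U
        (fun h => absurd h ha) (fun _ => by rwa [neg_vadd_vadd])]
  rw [permAt_apply, swap_apply_of_ne_of_ne ha hb, ite_self, sh_apply,
    moveEl_of_not a b hab _ _ U (fun h => absurd h ha) (fun h => absurd h hb)]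

theorem fp_P₁ : Group.IsFinitelyPresented (P₁ S m r) :=
  fp_of_ker_eq_normalClosure (PresentedGroup.mk (rels S m r))
    (QuotientGroup.mk'_surjective _) (rels S m r) (finite_rels S m r) (QuotientGroup.ker_mk' _)

variable [NeZero m] (H : Hyp S m r)

theorem Hyp.fp_P₂ : Group.IsFinitelyPresented H.P₂ :=
  have : Group.IsFinitelyPresented (P₁ S m r) := fp_P₁
  fp_of_ker_eq_normalClosure H.q (QuotientGroup.mk'_surjective _) H.relSet H.finite_relSet
    (QuotientGroup.ker_mk' _)

omit [NeZero m] in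
theorem Hyp.exists_moveVec (H : Hyp S m r) (a b : Fin m) (p q : Cell) :
    ∃ v : Fin m → Cell, ∑ i, v i = 0 ∧ (a ≠ b → v a = p ∧ v b = q) := by
  obtain ⟨v, hv, h⟩ := exists_vec (fun i => if i = a then p else q) {a, b} (by
    have := Finset.card_le_two (a := a) (b := b); have := H.hm; omega)
  exact ⟨v, hv, fun hab => ⟨by simp [h a (by simp)], by simp [h b (by simp), Ne.symm hab]⟩⟩

/-- The lift of a two-slot move. -/
noncomputable def Hyp.move (H : Hyp S m r) (a b : Fin m) (p q : Cell) (U : Clopens (S.Conf 0)) :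
    H.P₂ :=
  H.q (tau S m r (H.exists_moveVec a b p q).choose) * H.t U (a, b) *
    (H.q (tau S m r (H.exists_moveVec a b p q).choose))⁻¹

variable {H} {a b c e : Fin m} {p q p' q' : Cell} {U V : Clopens (S.Conf 0)}

theorem Hyp.move_eq (hab : a ≠ b) {v : Fin m → Cell} (hv : ∑ i, v i = 0) (ha : v a = p)
    (hb : v b = q) :
    H.move a b p q U = H.q (tau S m r v) * H.t U (a, b) * (H.q (tau S m r v))⁻¹ := by
  obtain ⟨g0, g⟩ := (H.exists_moveVec a b p q).choose_spec
  obtain ⟨g1, g2⟩ := g hab
  have c := H.t_tau (A := (a, b)) hab U (v := (H.exists_moveVec a b p q).choose - v)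
    (by simp [g0, hv]) (by simp [g1, ha]) (by simp [g2, hb])
  rw [Hyp.move]
  conv_lhs =>
    rw [show (H.exists_moveVec a b p q).choose = v + ((H.exists_moveVec a b p q).choose - v) by abel,
      tau_add, map_mul]
  calc _ = H.q (tau S m r v) *
        (H.q (tau S m r ((H.exists_moveVec a b p q).choose - v)) * H.t U (a, b)) *
        (H.q (tau S m r ((H.exists_moveVec a b p q).choose - v)))⁻¹ *
        (H.q (tau S m r v))⁻¹ := by group
    _ = _ := by rw [← c.eq]; group

theorem Hyp.move_symm (hab : a ≠ b) : H.move b a q p U = H.move a b p q U := by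
  obtain ⟨v, hv, h⟩ := H.exists_moveVec a b p q
  obtain ⟨h1, h2⟩ := h hab
  rw [H.move_eq hab hv h1 h2, H.move_eq (Ne.symm hab) hv h2 h1, ← H.t_flip (A := (a, b)) hab]

theorem Hyp.move_shift (hab : a ≠ b) (x : Cell)
    (h : ∀ t : S.Conf 0, t ∈ U ↔ x +ᵥ t ∈ V) :
    H.move a b (p + x) (q + x) U = H.move a b p q V := by
  obtain ⟨v, hv, g⟩ := H.exists_moveVec a b p q
  obtain ⟨h1, h2⟩ := g hab
  obtain ⟨w, hw, g'⟩ := H.exists_moveVec a b x x
  obtain ⟨w1, w2⟩ := g' hab
  have eV : V = tr x U := clopens_ext fun t => by rw [mem_tr, h, vadd_neg_vadd]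
  rw [H.move_eq hab (v := v + w) (by simp [Finset.sum_add_distrib, hv, hw]) (by simp [h1, w1])
    (by simp [h2, w2]), H.move_eq hab hv h1 h2, eV, ← H.t_conj (A := (a, b)) hab x U w hw w1 w2,
    tau_add, map_mul]
  group

theorem Hyp.move_sq (hab : a ≠ b) : H.move a b p q U * H.move a b p q U = 1 := by
  rw [Hyp.move]
  calc _ = H.q (tau S m r (H.exists_moveVec a b p q).choose) *
        (H.t U (a, b) * H.t U (a, b)) *
        (H.q (tau S m r (H.exists_moveVec a b p q).choose))⁻¹ := by group
    _ = _ := by rw [H.t_sq hab]; group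

theorem Hyp.move_sup (hab : a ≠ b) (h : Disjoint U V) :
    H.move a b p q (U ⊔ V) = H.move a b p q U * H.move a b p q V := by
  rw [Hyp.move, Hyp.move, Hyp.move, ← h.symmDiff_eq_sup, H.t_symmDiff hab]
  group

theorem Hyp.t_triangle (hab : a ≠ b) (hbc : b ≠ c) (hac : a ≠ c) :
    H.t U (a, b) * H.t U (b, c) * H.t U (a, b) = H.t U (a, c) := by
  have h18 := H.hm
  obtain ⟨g, h, k, l, hn, hg, hh, hk, hl⟩ := exists_four ({a, b, c} : Finset (Fin m))
    (by have := Finset.card_le_three (a := a) (b := b) (c := c); omega)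
  simp at hn hg hh hk hl
  obtain ⟨⟨gh, gk, gl⟩, ⟨hk', hl'⟩, kl⟩ := hn
  obtain ⟨ga, gb, gc⟩ := hg
  obtain ⟨ha, hb, hc⟩ := hh
  obtain ⟨ka, kb, kc⟩ := hk
  obtain ⟨la, lb, lc⟩ := hl
  have sG : Sep (a, b) (g, h) :=
    sep_iff.2 ⟨hab, Ne.symm ga, Ne.symm ha, Ne.symm gb, Ne.symm hb, gh⟩
  have sL : Sep (b, c) (k, l) :=
    sep_iff.2 ⟨hbc, Ne.symm kb, Ne.symm lb, Ne.symm kc, Ne.symm lc, kl⟩
  have sL' : Sep (a, c) (k, l) :=
    sep_iff.2 ⟨hac, Ne.symm ka, Ne.symm la, Ne.symm kc, Ne.symm lc, kl⟩
  have cG : Commute (H.t U (g, h)) (H.t U (b, c)) :=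
    H.t_commute_sep (A := (g, h)) (B := (b, c)) gh hbc
      (by simp [ofPair, Ne.symm gb, Ne.symm gc, Ne.symm hb, Ne.symm hc]) U U
  have cG' : Commute (H.t U (g, h)) (H.t U (a, b)) :=
    H.t_commute_sep (A := (g, h)) (B := (a, b)) gh hab
      (by simp [ofPair, Ne.symm ga, Ne.symm gb, Ne.symm ha, Ne.symm hb]) U U
  have cW : Commute (H.t U (k, l)) (H.q (H.WU U (a, b) (g, h))) := by
    refine H.t_commute_q (A := (k, l)) kl (s := ofPair (a, b) ∪ ofPair (g, h))
      (by simp [ofPair, Ne.symm ka, Ne.symm kb, Ne.symm la, Ne.symm lb, gk, hk', gl, hl'])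
      ((Finset.card_union_le _ _).trans (by
        have := card_ofPair (a, b); have := card_ofPair (g, h); omega))
      fun U' hU h9 => H.WU_mem (Finset.union_subset_left hU) (Finset.union_subset_right hU) h9
  have w2 : H.WU U (a, b) (g, h) * H.WU U (b, c) (k, l) * H.WU U (a, b) (g, h) =
      H.WU U (a, c) (k, l) := by
    have e := W_map (H.C U) (a := b) (b := c) (c := k) (d := l)
      (W_lifts (H.C U) (show [a, b, g, h].Nodup from sG))
    simp [swap_apply_of_ne_of_ne, Ne.symm gb, Ne.symm hb, Ne.symm hac, Ne.symm hbc, Ne.symm gc,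
      Ne.symm hc, ka, kb, la, lb, Ne.symm gk, Ne.symm hk', Ne.symm gl, Ne.symm hl'] at e
    rw [inv_eq_of_mul_eq_one_right (W_sq (H.hz U) (show [a, b, g, h].Nodup from sG))] at e
    exact e
  have eW : H.q (H.WU U (a, b) (g, h)) = H.t U (a, b) * H.t U (g, h) := (H.t_mul sG U).symm
  calc H.t U (a, b) * H.t U (b, c) * H.t U (a, b)
      = H.t U (a, b) * (H.t U (g, h) * H.t U (g, h)) * H.t U (b, c) * H.t U (a, b) := by
        rw [H.t_sq (A := (g, h)) gh, mul_one]
    _ = H.t U (a, b) * H.t U (g, h) * (H.t U (g, h) * H.t U (b, c)) * H.t U (a, b) := by group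
    _ = H.t U (a, b) * H.t U (g, h) * H.t U (b, c) * (H.t U (g, h) * H.t U (a, b)) := by
        rw [cG.eq]; group
    _ = H.q (H.WU U (a, b) (g, h)) * (H.q (H.WU U (b, c) (k, l)) * H.t U (k, l)) *
        H.q (H.WU U (a, b) (g, h)) := by rw [cG'.eq, eW, ← H.t_eq_WU sL]
    _ = H.q (H.WU U (a, b) (g, h)) * H.q (H.WU U (b, c) (k, l)) *
        (H.q (H.WU U (a, b) (g, h)) * H.t U (k, l)) := by rw [← cW.eq]; group
    _ = H.t U (a, c) := by
        rw [← mul_assoc, ← map_mul, ← map_mul, w2, ← H.t_eq_WU sL']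

theorem Hyp.move_triangle (hab : a ≠ b) (hbc : b ≠ c) (hac : a ≠ c) :
    H.move a b p q U * H.move b c q q' U * H.move a b p q U = H.move a c p q' U := by
  obtain ⟨v, hv, h⟩ := exists_vec (fun i => if i = a then p else if i = b then q else q') {a, b, c}
    (by have := Finset.card_le_three (a := a) (b := b) (c := c); have := H.hm; omega)
  have va : v a = p := by simp [h a (by simp)]
  have vb : v b = q := by simp [h b (by simp), Ne.symm hab]
  have vc : v c = q' := by simp [h c (by simp), Ne.symm hac, Ne.symm hbc]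
  rw [H.move_eq hab hv va vb, H.move_eq hbc hv vb vc, H.move_eq hac hv va vc,
    ← H.t_triangle hab hbc hac]
  group

theorem Hyp.t_orth {A B : Fin m × Fin m} (hA : A.1 ≠ A.2) (hB : B.1 ≠ B.2) (h : Disjoint U V) :
    Commute (H.t U A) (H.t V B) := by
  have h18 := H.hm
  obtain ⟨G, hAG, g1, g2⟩ := exists_sep A hA (ofPair B) (by have := card_ofPair B; omega)
  obtain ⟨L, hBL, l1, l2⟩ := exists_sep B hB (ofPair A ∪ ofPair G) (by
    have := Finset.card_union_le (ofPair A) (ofPair G)
    have := card_ofPair A; have := card_ofPair G; omega)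
  simp only [Finset.mem_union, not_or] at l1 l2
  have hG := (sep_iff.1 hAG).2.2.2.2.2
  have hL := (sep_iff.1 hBL).2.2.2.2.2
  have sAL : Sep A L := sep_of_notMem hA hL l1.1 l2.1
  have sGL : Sep G L := sep_of_notMem hG hL l1.2 l2.2
  have c1 : Commute (H.q (H.WU U A G)) (H.q (H.WU V B L)) := (H.WU_orth h).map H.q
  have c2 : Commute (H.t V L) (H.q (H.WU U A G)) :=
    H.t_commute_q hL (s := ofPair A ∪ ofPair G)
      (Finset.disjoint_union_right.2
        ⟨(disjoint_of_sep sAL).symm, (disjoint_of_sep sGL).symm⟩)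
      ((Finset.card_union_le _ _).trans (by have := card_ofPair A; have := card_ofPair G; omega))
      fun U' hU h9 => H.WU_mem (Finset.union_subset_left hU) (Finset.union_subset_right hU) h9
  have c3 : Commute (H.t U G) (H.t V B) :=
    H.t_commute_sep hG hB (disjoint_of_sep (sep_of_notMem hB hG g1 g2)).symm U V
  rw [H.t_eq_WU hAG]
  refine Commute.mul_left ?_ c3
  rw [H.t_eq_WU hBL]
  exact c1.mul_right c2.symm

/-- Moves on disjoint index pairs commute. -/
theorem Hyp.move_comm_indices (hab : a ≠ b) (hce : c ≠ e)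
    (hd : Disjoint (ofPair (a, b)) (ofPair (c, e))) :
    Commute (H.move a b p q U) (H.move c e p' q' V) := by
  have key : ∀ (a b : Fin m) (p q : Cell) (U : Clopens (S.Conf 0)), a ≠ b → ∃ x : P₁ S m r,
      H.q x = H.move a b p q U ∧
        ∀ W : Finset (Fin m), ofPair (a, b) ⊆ W → 9 ≤ W.card → x ∈ sub S r W := by
    intro a b p q U hab
    refine ⟨tau S m r (H.exists_moveVec a b p q).choose * H.thetaRep U (a, b) *
      (tau S m r (H.exists_moveVec a b p q).choose)⁻¹, by
        rw [map_mul, map_mul, map_inv]; rfl, fun W hW h9 => ?_⟩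
    obtain ⟨g0, g⟩ := (H.exists_moveVec a b p q).choose_spec
    obtain ⟨g1, g2⟩ := g hab
    obtain ⟨d, hdW, hd⟩ : ∃ d ∈ W, d ∉ ofPair (a, b) := by
      by_contra! hh
      have := Finset.card_le_card (s := W) (t := ofPair (a, b)) hh
      have := card_ofPair (a, b); omega
    simp only [mem_ofPair, not_or] at hd
    let v : Fin m → Cell := pvec m d a p + pvec m d b q
    have hp : ∀ (x y : Fin m) (z : Cell), ∑ i, pvec m x y z i = 0 := fun x y z => by simp [pvec]
    have hv : ∑ i, v i = 0 := by simp [v, Finset.sum_add_distrib, hp]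
    have va : v a = p := by simp [v, pvec, hab, Ne.symm hd.1]
    have vb : v b = q := by simp [v, pvec, Ne.symm hab, Ne.symm hd.2]
    have c : Commute (H.thetaRep U (a, b))
        (tau S m r ((H.exists_moveVec a b p q).choose - v)) :=
      commute_tau_of_mem H.hm (s := ofPair (a, b)) ((card_ofPair _).trans (by norm_num))
        (fun W hW h9 => H.theta_mem hab (H.rep _).1.2 hW h9) (by simp [g0, hv])
        fun i hi => by rcases mem_ofPair.1 hi with rfl | rfl <;> simp [g1, g2, va, vb]
    rw [show (H.exists_moveVec a b p q).choose = v + ((H.exists_moveVec a b p q).choose - v) by abel,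
      tau_add]
    rw [show tau S m r v * tau S m r ((H.exists_moveVec a b p q).choose - v) *
        H.thetaRep U (a, b) *
        (tau S m r v * tau S m r ((H.exists_moveVec a b p q).choose - v))⁻¹ =
        tau S m r v * H.thetaRep U (a, b) * (tau S m r v)⁻¹ by
      rw [mul_assoc (tau S m r v) _ (H.thetaRep U (a, b)), ← c.eq]; group]
    have ht : tau S m r v ∈ sub S r W := tau_mem_sub hv fun i hi => by
      have i1 : i ≠ a := fun e => hi (e ▸ hW (mem_ofPair.2 (Or.inl rfl)))
      have i2 : i ≠ b := fun e => hi (e ▸ hW (mem_ofPair.2 (Or.inr rfl)))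
      have i3 : i ≠ d := fun e => hi (e ▸ hdW)
      simp [v, pvec, i1, i2, i3]
    exact mul_mem (mul_mem ht (H.theta_mem hab (H.rep _).1.2 hW h9)) (inv_mem ht)
  obtain ⟨x, hx, hxm⟩ := key a b p q U hab
  obtain ⟨y, hy, hym⟩ := key c e p' q' V hce
  rw [← hx, ← hy]
  exact (H.commute_of_sub hd ((card_ofPair _).trans (by norm_num))
    ((card_ofPair _).trans (by norm_num)) hxm hym).map H.q

/-- Moves sharing one index with disjoint images there commute. -/
theorem Hyp.move_comm_one (hab : a ≠ b) (hae : a ≠ e) (hbe : b ≠ e)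
    (h : Apart (p, a) U (p', a) V) :
    Commute (H.move a b p q U) (H.move a e p' q' V) := by
  have e1 : H.move a b p q U = H.move a b 0 (q - p) (tr p U) := by
    rw [← H.move_shift hab p (U := U) (V := tr p U) fun t => by rw [mem_tr, neg_vadd_vadd],
      zero_add, sub_add_cancel]
  have e2 : H.move a e p' q' V = H.move a e 0 (q' - p') (tr p' V) := by
    rw [← H.move_shift hae p' (U := V) (V := tr p' V) fun t => by rw [mem_tr, neg_vadd_vadd],
      zero_add, sub_add_cancel]
  have hd : Disjoint (tr p U) (tr p' V) := by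
    rw [disjoint_iff]
    refine clopens_ext fun t => ⟨fun ht => absurd ?_ (h _ ht.1 _ ht.2 rfl), fun ht => ht.elim⟩
    simp
  obtain ⟨v, hv, hvv⟩ := exists_vec
    (fun i => if i = a then 0 else if i = b then q - p else q' - p') {a, b, e}
    (by have := Finset.card_le_three (a := a) (b := b) (c := e); have := H.hm; omega)
  have va : v a = 0 := by simp [hvv a (by simp)]
  have vb : v b = q - p := by simp [hvv b (by simp), Ne.symm hab]
  have ve : v e = q' - p' := by simp [hvv e (by simp), Ne.symm hae, Ne.symm hbe]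
  rw [e1, e2, H.move_eq hab hv va vb, H.move_eq hae hv va ve]
  exact (Commute.conj_iff _).2 (H.t_orth (A := (a, b)) (B := (a, e)) hab hae hd)

theorem Hyp.move_comm_le_one (hab : a ≠ b) (hce : c ≠ e) (hb : b ≠ c ∧ b ≠ e)
    (h1 : Apart (p, a) U (p', c) V) (h2 : Apart (p, a) U (q', e) V) :
    Commute (H.move a b p q U) (H.move c e p' q' V) := by
  by_cases hc : a = c
  · subst hc
    exact H.move_comm_one hab hce hb.2 h1
  by_cases he : a = e
  · subst he
    rw [← H.move_symm hce]
    exact H.move_comm_one hab (Ne.symm hce) hb.1 h2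
  refine H.move_comm_indices hab hce ?_
  simp [ofPair, Ne.symm hc, Ne.symm he, Ne.symm hb.1, Ne.symm hb.2]

theorem Hyp.move_comm_apart (hab : a ≠ b) (hce : c ≠ e)
    (h1 : Apart (p, a) U (p', c) V) (h2 : Apart (p, a) U (q', e) V)
    (h3 : Apart (q, b) U (p', c) V) (h4 : Apart (q, b) U (q', e) V) :
    Commute (H.move a b p q U) (H.move c e p' q' V) := by
  by_cases hb : b ≠ c ∧ b ≠ e
  · exact H.move_comm_le_one hab hce hb h1 h2
  by_cases ha : a ≠ c ∧ a ≠ e
  · rw [← H.move_symm hab]
    exact H.move_comm_le_one (Ne.symm hab) hce ha h3 h4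
  have h18 := H.hm
  obtain ⟨z, hz⟩ := exists_notMem ({a, b, c, e} : Finset (Fin m))
    (by have := Finset.card_le_four (a := a) (b := b) (c := c) (d := e); omega)
  simp only [Finset.mem_insert, Finset.mem_singleton, not_or] at hz
  obtain ⟨za, zb, zc, ze⟩ := hz
  rw [← H.move_triangle (a := c) (b := z) (c := e) (q := p') (Ne.symm zc) ze hce]
  -- each of the two other moves shares at most one index with the first
  have n1 : ∀ {i : Fin m} (x : Cell), i = a ∨ i = b → Apart (x, i) U (p', z) V := fun x hi =>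
    apart_of_ne (by rcases hi with rfl | rfl; exacts [Ne.symm za, Ne.symm zb])
  have hcz : ∀ {p' q' : Cell} {c : Fin m}, c ≠ z → Apart (p, a) U (p', c) V →
      Apart (q, b) U (p', c) V → Apart (p, a) U (q', z) V → Apart (q, b) U (q', z) V →
      Commute (H.move a b p q U) (H.move c z p' q' V) := by
    intro p' q' c hc g1 g2 g3 g4
    by_cases hbc : b = c
    · subst hbc
      rw [← H.move_symm hab]
      exact H.move_comm_le_one (Ne.symm hab) hc ⟨hab, Ne.symm za⟩ g2 g4
    · exact H.move_comm_le_one hab hc ⟨hbc, Ne.symm zb⟩ g1 g3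
  have k1 : Commute (H.move a b p q U) (H.move c z p' p' V) :=
    hcz (Ne.symm zc) h1 h3 (n1 p (Or.inl rfl)) (n1 q (Or.inr rfl))
  have k2 : Commute (H.move a b p q U) (H.move z e p' q' V) := by
    rw [← H.move_symm ze]
    exact hcz (Ne.symm ze) h2 h4 (n1 p (Or.inl rfl)) (n1 q (Or.inr rfl))
  exact (k1.mul_right k2).mul_right k1

theorem Hyp.letter_move (i : Idx S m r) :
    H.q (PresentedGroup.of i) =
      H.move i.1.1 i.1.2.1 0 (dir i.1.2.2.1) (cyl S r i.1.2.2.2) := by
  obtain ⟨⟨a, b, j, s⟩, hab⟩ := i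
  have h18 := H.hm
  obtain ⟨c, hc⟩ := exists_notMem ({a, b} : Finset (Fin m))
    (by have := Finset.card_le_two (a := a) (b := b); omega)
  simp only [Finset.mem_insert, Finset.mem_singleton, not_or] at hc
  have hv : ∑ x, pvec m c b (dir j) x = 0 := by simp [pvec]
  have va : pvec m c b (dir j) a = 0 := by
    simp [pvec, show a ≠ b from hab, Ne.symm hc.1]
  have vb : pvec m c b (dir j) b = dir j := by simp [pvec, Ne.symm hc.2]
  rw [H.move_eq (show a ≠ b from hab) hv va vb, H.t_small (A := (a, b)) hab (small_cyl s),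
    ← map_inv, ← map_mul, ← map_mul]
  refine congrArg H.q ?_
  rw [tau_pvec]
  show _ = _ * el S m r (permAt S m (cyl S r s) (swap a b)) * _
  rw [el_conj (ball_pvec c b j) (ball_permAt (small_cyl s) (swap a b)) (by simp [cap]; omega)
    (sh_conj_permAt_swap (pvec m c b (dir j)) a b hab (cyl S r s))]
  rw [va, vb, show moveEl S m a b hab 0 (dir j) (cyl S r s) = evalW [(⟨(a, b, j, s), hab⟩ : Idx S m r)]
    by simp [evalW, letter], el_evalW (by simp [cap]; omega)]
  simp [word]

theorem Hyp.closure_letters :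
    Subgroup.closure (Set.range fun i : Idx S m r => H.q (PresentedGroup.of i)) = ⊤ := by
  rw [Set.range_comp' H.q PresentedGroup.of, ← MonoidHom.map_closure,
    PresentedGroup.closure_range_of, Subgroup.map_top_of_surjective H.q (QuotientGroup.mk'_surjective _)]

variable (H)

/-- The moves of the quotient. -/
noncomputable def Hyp.moves : Moves (S.Conf 0) m H.P₂ where
  toPerm := (S.fullGroup m).subtype.comp H.phi₂
  move := H.move
  toPerm_move a b hab p q U := by
    obtain ⟨v, hv, g⟩ := H.exists_moveVec a b p q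
    obtain ⟨h1, h2⟩ := g hab
    show (H.phi₂ (H.move a b p q U)).1 = _
    rw [H.move_eq hab hv h1 h2, map_mul, map_mul, map_inv, H.phi₂_q, phi_tau hv, H.phi₂_t hab,
      sh_conj_permAt_swap v a b hab U, h1, h2]
    rfl
  move_symm _ _ hab _ _ _ := H.move_symm hab
  move_shift _ _ hab _ _ x _ _ h := H.move_shift hab x h
  move_sq _ _ hab _ _ _ := H.move_sq hab
  move_sup _ _ hab _ _ _ _ h := H.move_sup hab h
  move_comm a b c e hab hce p q p' q' U V h := by
    refine H.move_comm_apart hab hce ?_ ?_ ?_ ?_ <;> intro u hu v hv ei ep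
    · exact h 0 0 u hu v hv (Prod.ext ep ei)
    · exact h 0 1 u hu v hv (Prod.ext ep ei)
    · exact h 1 0 u hu v hv (Prod.ext ep ei)
    · exact h 1 1 u hu v hv (Prod.ext ep ei)
  move_triangle _ _ _ h1 h2 h3 _ _ _ _ := H.move_triangle h1 h2 h3
  generated := by
    refine eq_top_iff.2 (H.closure_letters.ge.trans ((Subgroup.closure_le _).2 ?_))
    rintro _ ⟨i, rfl⟩
    exact Subgroup.subset_closure ⟨_, _, _, _, _, i.2, H.letter_move i⟩

omit [NeZero m] in
/-- **Finite presentation**: for a rigid macro-tile system whose mod-two coinvariants and cycles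
are spanned in bounded radius, the alternating full group of the shift times `m ≥ 18` points is
finitely presented. -/
theorem isFinitelyPresented_altGroup (S : MacroSystem) (hR : S.Rigid) (h0 : S.Span0)
    (h1 : S.Span1) {m : ℕ} (hm : 18 ≤ m) :
    Group.IsFinitelyPresented (Simple.altGroup Cell (S.Conf 0) m) := by
  have : NeZero m := ⟨by omega⟩
  obtain ⟨r₀, hs0⟩ := exists_spanSets0 h0
  obtain ⟨r₁, hs1⟩ := exists_spanSets1 h1
  let H : Hyp S m (max 1 (max r₀ r₁)) :=
    ⟨hm, le_max_left _ _, hR, hs0 _ ((le_max_left _ _).trans (le_max_right _ _)),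
      hs1 _ ((le_max_right _ _).trans (le_max_right _ _))⟩
  have : Group.IsFinitelyPresented H.P₂ := H.fp_P₂
  refine fp_altGroup_of_moves S H.moves hm ⟨Set.range fun i => H.q (PresentedGroup.of i),
    Set.finite_range _, ?_, H.closure_letters⟩
  rintro _ ⟨i, rfl⟩
  exact ⟨_, _, _, _, _, i.2, H.letter_move i⟩

end Vale.Agent.P196.Pres
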