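import Vale.Agent.P196.Fp.Pairs

/-!
# P196: the lift of a transposition over every clopen set

A clopen set is a small set plus two boundaries. Finitely many relations make the lift
independent of the representation; in the quotient `t U A` is additive, covariant under shifts,
and `t U A * t U B` is the lift of the two transpositions.
-/

namespace Vale.Agent.P196.Pres

open Equiv Simple Sft Fp TopologicalSpace
open scoped symmDiff

attribute [local instance] MacroSystem.fin

variable {S : MacroSystem} {m r : ℕ}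

theorem Small.sup {U V : Clopens (S.Conf 0)} (h : Small r U) (h' : Small r V) :
    Small r (U ⊔ V) := by
  obtain ⟨s, rfl⟩ := h
  obtain ⟨t, rfl⟩ := h'
  exact ⟨s ∪ t, clopens_ext fun _ => Iff.rfl⟩

theorem Small.symmDiff {U V : Clopens (S.Conf 0)} (h : Small r U) (h' : Small r V) :
    Small r (U ∆ V) := (h.sdiff h').sup (h'.sdiff h)

theorem permAt_symmDiff (U V : Clopens (S.Conf 0)) (a b : Fin m) :
    permAt S m (U ∆ V) (swap a b) = permAt S m U (swap a b) * permAt S m V (swap a b) := by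
  classical
  refine Subtype.ext (Equiv.ext fun ⟨t, c⟩ => ?_)
  simp only [Subgroup.coe_mul, Perm.mul_apply, permAt_apply, mem_symmDiff']
  by_cases hu : t ∈ U <;> by_cases hv : t ∈ V <;> simp [hu, hv, permAt_apply]

theorem tr_symmDiff (u : Cell) (U V : Clopens (S.Conf 0)) : tr u (U ∆ V) = tr u U ∆ tr u V :=
  clopens_ext fun t => by simp only [mem_tr, mem_symmDiff']

theorem bdC_symmDiff (u : Cell) (F G : Clopens (S.Conf 0)) :
    bdC u (F ∆ G) = bdC u F ∆ bdC u G := by
  simp only [bdC, tr_symmDiff]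
  rw [symmDiff_symmDiff_symmDiff_comm]

theorem bdC_bot (u : Cell) : bdC u (⊥ : Clopens (S.Conf 0)) = ⊥ := by
  rw [bdC, tr_bot, symmDiff_self]

theorem tr_bdC (u x : Cell) (F : Clopens (S.Conf 0)) : tr x (bdC u F) = bdC u (tr x F) := by
  rw [bdC, bdC, tr_symmDiff, tr_tr, tr_tr, add_comm]

theorem bdC_comm (u w : Cell) (F : Clopens (S.Conf 0)) :
    bdC u (bdC w F) = bdC w (bdC u F) := by
  conv_lhs => rw [bdC, tr_bdC]
  rw [← bdC_symmDiff]; rfl

/-- The set of a triple. -/
noncomputable def value (V F G : Clopens (S.Conf 0)) : Clopens (S.Conf 0) :=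
  V ∆ bdC stepX F ∆ bdC stepY G

theorem value_symmDiff (V F G V' F' G' : Clopens (S.Conf 0)) :
    value (V ∆ V') (F ∆ F') (G ∆ G') = value V F G ∆ value V' F' G' := by
  simp only [value, bdC_symmDiff]
  rw [symmDiff_symmDiff_symmDiff_comm (V ∆ bdC stepX F), symmDiff_symmDiff_symmDiff_comm V]

theorem small_cyl (s : Set (Pat S r)) : Small r (cyl S r s) := ⟨s, rfl⟩

theorem value_tr (x : Cell) (V F G : Clopens (S.Conf 0)) :
    tr x (value V F G) = value (tr x V) (tr x F) (tr x G) := by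
  simp only [value, tr_symmDiff, tr_bdC]

theorem value_bot (V : Clopens (S.Conf 0)) : value V ⊥ ⊥ = V := by
  simp [value, bdC_bot]

variable [NeZero m] {H : Hyp S m r} {A B : Fin m × Fin m} {U V : Clopens (S.Conf 0)}

/-- The lift of a transposition over a small set. -/
noncomputable def T0 (V : Clopens (S.Conf 0)) (hV : Small r V) (A : Fin m × Fin m) : P₁ S m r :=
  baseHom V hV (swap A.1 A.2)

theorem T0_sq (hV : Small r V) : T0 V hV A * T0 V hV A = 1 := by
  rw [T0, ← map_mul, swap_mul_self, map_one]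

theorem T0_symmDiff (hU : Small r U) (hV : Small r V) :
    T0 (U ∆ V) (hU.symmDiff hV) A = T0 U hU A * T0 V hV A := by
  show el S m r _ = el S m r _ * el S m r _
  rw [permAt_symmDiff, el_mul (ball_permAt hU _) (ball_permAt hV _) (by simp [cap]; omega)]

theorem T0_comm (hU : Small r U) (hV : Small r V) : Commute (T0 U hU A) (T0 V hV A) :=
  el_commute (ball_permAt hU _) (ball_permAt hV _) (by simp [cap]; omega)
    (by rw [← permAt_symmDiff, ← permAt_symmDiff, symmDiff_comm])

theorem T0_mem (hV : Small r V) {U' : Finset (Fin m)} (hA : ofPair A ⊆ U') :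
    T0 V hV A ∈ sub S r U' :=
  el_mem_sub (ball_permAt hV _) (by omega) (supported_permAt V fun i hi => hA (mem_ofPair.2
    (swap_apply_ne_self_iff.1 (Perm.mem_support.1 hi)).2))

theorem T0_congr {U V : Clopens (S.Conf 0)} (h : U = V) (hU : Small r U) (hV : Small r V) :
    T0 U hU A = T0 V hV A := by subst h; rfl

theorem Hyp.T0_mul (hAB : Sep A B) (hV : Small r V) :
    T0 V hV A * T0 V hV B = H.WU V A B := by
  obtain ⟨n1, n2, n3, n4, n5, n6⟩ := sep_iff.1 hAB
  have hn : [A.1, A.2, B.1, B.2].Nodup := hAB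
  rw [Hyp.WU, Hyp.C, comp_small H.hm H.hr H.hR hV, W_eq _ hn ⟨n2, Ne.symm n4, n1⟩ ⟨n2, n6, n3⟩]
  show _ = baseHom V hV _ * baseHom V hV _
  rw [T0, T0, ← map_mul, ← map_mul, cyc_mul_cyc hn]

theorem Hyp.D_bot (hA : A.1 ≠ A.2) (u : Cell) : H.D u ⊥ A = 1 := by
  have h := H.D_symmDiff (u := u) (f := ⊥) (g := ⊥) hA
  rw [symmDiff_self] at h
  rw [H.D_sq hA] at h
  exact h

omit [NeZero m] in
theorem disjoint_of_sep (h : Sep A B) : Disjoint (ofPair A) (ofPair B) := by
  obtain ⟨n1, n2, n3, n4, n5, n6⟩ := sep_iff.1 h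
  rw [Finset.disjoint_left]
  intro i h1 h2
  rw [mem_ofPair] at h1 h2
  rcases h1 with rfl | rfl <;> rcases h2 with h | h <;> contradiction

theorem Hyp.T0_comm_D (hA : A.1 ≠ A.2) (hV : Small r V) (u : Cell) (f : Clopens (S.Conf 0)) :
    Commute (T0 V hV A) (H.D u f A) := by
  have h18 := H.hm
  obtain ⟨B, hAB, -⟩ := exists_sep A hA ∅ (by simp; omega)
  have e : T0 V hV A = H.WU V A B * T0 V hV B := by
    rw [← H.T0_mul hAB hV, mul_assoc, T0_sq, mul_one]
  rw [e]
  refine (H.D_comm_WU hAB).symm.mul_left ?_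
  exact H.commute_of_sub (disjoint_of_sep hAB).symm ((card_ofPair B).trans (by norm_num))
    ((card_ofPair A).trans (by norm_num)) (fun U hU _ => T0_mem hV hU)
    (fun U hU h9 => H.D_mem hA hU h9)

/-- The lift attached to a triple. -/
noncomputable def Hyp.theta (H : Hyp S m r) (V : Clopens (S.Conf 0)) (hV : Small r V)
    (F G : Clopens (S.Conf 0)) (A : Fin m × Fin m) : P₁ S m r :=
  T0 V hV A * H.D stepX F A * H.D stepY G A

variable {F G F' G' : Clopens (S.Conf 0)}

theorem Hyp.theta_symmDiff (hA : A.1 ≠ A.2) (hU : Small r U) (hV : Small r V) :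
    H.theta (U ∆ V) (hU.symmDiff hV) (F ∆ F') (G ∆ G') A =
      H.theta U hU F G A * H.theta V hV F' G' A := by
  rw [Hyp.theta, Hyp.theta, Hyp.theta, T0_symmDiff hU hV, H.D_symmDiff hA, H.D_symmDiff hA]
  have c1 : Commute (H.D stepX F A) (T0 V hV A) := (H.T0_comm_D hA hV _ _).symm
  have c2 : Commute (H.D stepY G A) (T0 V hV A) := (H.T0_comm_D hA hV _ _).symm
  have c3 : Commute (H.D stepY G A) (H.D stepX F' A) := H.D_comm hA
  rw [c1.symm.symm.mul_mul_mul_comm (T0 U hU A) (H.D stepX F' A) |>.symm]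
  rw [((c2.mul_right c3)).mul_mul_mul_comm]

theorem Hyp.theta_sq (hA : A.1 ≠ A.2) (hV : Small r V) :
    H.theta V hV F G A * H.theta V hV F G A = 1 := by
  have c : Commute (H.D stepY G A) (T0 V hV A * H.D stepX F A) :=
    (H.T0_comm_D hA hV _ _).symm.mul_right (H.D_comm hA)
  rw [Hyp.theta, c.mul_mul_mul_comm, (H.T0_comm_D hA hV stepX F).symm.mul_mul_mul_comm, T0_sq,
    H.D_sq hA, H.D_sq hA, mul_one, mul_one]

theorem Hyp.WU_symmDiff (hAB : Sep A B) : H.WU (U ∆ V) A B = H.WU U A B * H.WU V A B :=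
  map_symmDiff_mul (fun W => H.WU W A B) (fun _ _ h => H.WU_sup h) (fun _ => H.WU_sq hAB)
    (fun _ _ => H.WU_cross fun _ => Commute.refl _) _ _

theorem Hyp.theta_mul (hAB : Sep A B) (hV : Small r V) :
    H.theta V hV F G A * H.theta V hV F G B = H.WU (value V F G) A B := by
  obtain ⟨hA, -, -, -, -, hB⟩ := sep_iff.1 hAB
  have hd := disjoint_of_sep hAB
  have cA : (ofPair A).card ≤ 9 := (card_ofPair A).trans (by norm_num)
  have cB : (ofPair B).card ≤ 9 := (card_ofPair B).trans (by norm_num)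
  have c1 : Commute (H.D stepX F A) (T0 V hV B) := H.commute_of_sub hd cA cB
    (fun U hU h9 => H.D_mem hA hU h9) (fun U hU _ => T0_mem hV hU)
  have c2 : Commute (H.D stepY G A) (T0 V hV B) := H.commute_of_sub hd cA cB
    (fun U hU h9 => H.D_mem hA hU h9) (fun U hU _ => T0_mem hV hU)
  have c3 : Commute (H.D stepY G A) (H.D stepX F B) := H.commute_of_sub hd cA cB
    (fun U hU h9 => H.D_mem hA hU h9) (fun U hU h9 => H.D_mem hB hU h9)
  rw [Hyp.theta, Hyp.theta, (c2.mul_right c3).mul_mul_mul_comm, c1.mul_mul_mul_comm, H.T0_mul hAB,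
    H.D_mul hAB, H.D_mul hAB, value, H.WU_symmDiff hAB (U := V ∆ bdC stepX F), H.WU_symmDiff hAB
    (U := V)]
  rfl

theorem Hyp.theta_mem (hA : A.1 ≠ A.2) (hV : Small r V) {U' : Finset (Fin m)}
    (hU : ofPair A ⊆ U') (h9 : 9 ≤ U'.card) : H.theta V hV F G A ∈ sub S r U' :=
  mul_mem (mul_mem (T0_mem hV hU) (H.D_mem hA hU h9)) (H.D_mem hA hU h9)

theorem Hyp.theta_flip (hA : A.1 ≠ A.2) (hV : Small r V) :
    H.theta V hV F G (A.2, A.1) = H.theta V hV F G A := by
  simp only [Hyp.theta, T0, H.D_flip hA, swap_comm A.2 A.1]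

theorem Hyp.phi_theta (hA : A.1 ≠ A.2) (hV : Small r V) :
    phi S m r (H.theta V hV F G A) = permAt S m (value V F G) (swap A.1 A.2) := by
  rw [Hyp.theta, map_mul, map_mul, H.phi_D hA, H.phi_D hA, value, permAt_symmDiff, permAt_symmDiff,
    bdC, bdC, permAt_symmDiff, permAt_symmDiff]
  rw [show phi S m r (T0 V hV A) = _ from phi_el (ball_permAt hV _) (by simp [cap]; omega)]

theorem Hyp.D_boundary (hA : A.1 ≠ A.2) (K : Clopens (S.Conf 0)) :
    H.D stepX (bdC stepY K) A * H.D stepY (bdC stepX K) A = 1 := by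
  rw [bdC, bdC, H.D_symmDiff hA, H.D_symmDiff hA]
  have h1 := H.D_cocycle (u := stepX) (w := stepY) (f := K) hA
  have h2 := H.D_cocycle (u := stepY) (w := stepX) (f := K) hA
  rw [add_comm] at h2
  have c1 : Commute (H.D stepX (tr stepY K) A) (H.D stepY K A * H.D stepY (tr stepX K) A) :=
    (H.D_comm hA).mul_right (H.D_comm hA)
  calc _ = H.D stepX K A * (H.D stepX (tr stepY K) A *
        (H.D stepY K A * H.D stepY (tr stepX K) A)) := by group
    _ = H.D stepX K A * ((H.D stepY K A * H.D stepY (tr stepX K) A) *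
        H.D stepX (tr stepY K) A) := by rw [c1.eq]
    _ = H.D stepX K A * H.D stepY (tr stepX K) A *
        (H.D stepY K A * H.D stepX (tr stepY K) A) := by
          rw [(H.D_comm hA : Commute (H.D stepY K A) (H.D stepY (tr stepX K) A)).eq]; group
    _ = _ := by rw [h1, h2, H.D_sq hA]

/-! ### The relations -/

variable (H)

open Classical in
/-- A small boundary has the lift `1`. -/
noncomputable def Hyp.rel1 (x : (Fin m × Fin m) × Set (Pat S r)) : P₁ S m r :=
  if h : x.1.1 ≠ x.1.2 ∧ ∃ F G, value (cyl S r x.2) F G = ⊥ then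
    H.theta (cyl S r x.2) (small_cyl x.2) h.2.choose h.2.choose_spec.choose x.1
  else 1

open Classical in
/-- A small cycle has the lift `1`. -/
noncomputable def Hyp.rel2 (x : (Fin m × Fin m) × Set (Pat S r) × Set (Pat S r)) : P₁ S m r :=
  if x.1.1 ≠ x.1.2 ∧ bdC stepX (cyl S r x.2.1) ∆ bdC stepY (cyl S r x.2.2) = ⊥ then
    H.D stepX (cyl S r x.2.1) x.1 * H.D stepY (cyl S r x.2.2) x.1
  else 1

theorem Hyp.exists_rep (H : Hyp S m r) (U : Clopens (S.Conf 0)) :
    ∃ x : {V : Clopens (S.Conf 0) // Small r V} × Clopens (S.Conf 0) × Clopens (S.Conf 0),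
      value x.1.1 x.2.1 x.2.2 = U := by
  obtain ⟨V, F, G, hV, e⟩ := H.span0 U
  exact ⟨(⟨V, hV⟩, F, G), e.symm⟩

/-- A representation of a clopen set. -/
noncomputable def Hyp.rep (H : Hyp S m r) (U : Clopens (S.Conf 0)) :
    {V : Clopens (S.Conf 0) // Small r V} × Clopens (S.Conf 0) × Clopens (S.Conf 0) :=
  (H.exists_rep U).choose

/-- The lift by the chosen representation. -/
noncomputable def Hyp.thetaRep (U : Clopens (S.Conf 0)) (A : Fin m × Fin m) : P₁ S m r :=
  H.theta (H.rep U).1.1 (H.rep U).1.2 (H.rep U).2.1 (H.rep U).2.2 A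

/-- A shift moving a pair by `x`. -/
noncomputable def Hyp.pairVec (A : Fin m × Fin m) (x : Cell) : Fin m → Cell :=
  (exists_shift (ofPair A) (by have := card_ofPair A; have := H.hm; omega) x).choose

theorem Hyp.pairVec_spec (A : Fin m × Fin m) (x : Cell) :
    ∑ a, H.pairVec A x a = 0 ∧ H.pairVec A x A.1 = x ∧ H.pairVec A x A.2 = x := by
  have h := (exists_shift (ofPair A) (by have := card_ofPair A; have := H.hm; omega) x).choose_spec
  exact ⟨h.1, h.2 _ (mem_ofPair.2 (Or.inl rfl)), h.2 _ (mem_ofPair.2 (Or.inr rfl))⟩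

open Classical in
/-- Small sets shifted by one step. -/
noncomputable def Hyp.rel3 (x : (Fin m × Fin m) × Fin 3 × Set (Pat S r)) : P₁ S m r :=
  if x.1.1 ≠ x.1.2 then
    tau S m r (H.pairVec x.1 (dir x.2.1)) * T0 (cyl S r x.2.2) (small_cyl x.2.2) x.1 *
      (tau S m r (H.pairVec x.1 (dir x.2.1)))⁻¹ * H.thetaRep (tr (dir x.2.1) (cyl S r x.2.2)) x.1
  else 1

/-- The added relations. -/
noncomputable def Hyp.relSet : Set (P₁ S m r) :=
  Set.range H.rel1 ∪ Set.range H.rel2 ∪ Set.range H.rel3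

theorem Hyp.finite_relSet : H.relSet.Finite :=
  ((Set.finite_range _).union (Set.finite_range _)).union (Set.finite_range _)

theorem Hyp.phi_thetaRep (hA : A.1 ≠ A.2) (U : Clopens (S.Conf 0)) :
    phi S m r (H.thetaRep U A) = permAt S m U (swap A.1 A.2) := by
  rw [Hyp.thetaRep, H.phi_theta hA]
  exact congrArg (fun W => permAt S m W (swap A.1 A.2)) (H.exists_rep U).choose_spec

theorem Hyp.relSet_le : Subgroup.normalClosure H.relSet ≤ (phi S m r).ker := by
  refine Subgroup.normalClosure_le_normal ?_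
  rintro _ ((⟨x, rfl⟩ | ⟨x, rfl⟩) | ⟨x, rfl⟩) <;> rw [SetLike.mem_coe, MonoidHom.mem_ker]
  · rw [Hyp.rel1]
    split_ifs with h
    · rw [H.phi_theta h.1, h.2.choose_spec.choose_spec, permAt_bot]
    · exact map_one _
  · rw [Hyp.rel2]
    split_ifs with h
    · rw [map_mul, H.phi_D h.1, H.phi_D h.1, ← permAt_symmDiff, ← permAt_symmDiff,
        ← permAt_symmDiff]
      show permAt S m (bdC _ _ ∆ bdC _ _) _ = 1
      rw [h.2, permAt_bot]
    · exact map_one _
  · rw [Hyp.rel3]
    split_ifs with h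
    · obtain ⟨hv, h1, h2⟩ := H.pairVec_spec x.1 (dir x.2.1)
      rw [map_mul, map_mul, map_mul, map_inv, phi_tau hv, H.phi_thetaRep h,
        show phi S m r (T0 (cyl S r x.2.2) (small_cyl x.2.2) x.1) = _ from
          phi_el (ball_permAt (small_cyl x.2.2) _) (by simp [cap]; omega),
        sh_conj_permAt _ (dir x.2.1) _ _ fun i hi => ?_, ← map_mul, swap_mul_self, map_one]
      rcases (swap_apply_ne_self_iff.1 hi).2 with rfl | rfl <;> assumption
    · exact map_one _

/-- The presented group with the added relations. -/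
abbrev Hyp.P₂ (H : Hyp S m r) : Type := P₁ S m r ⧸ Subgroup.normalClosure H.relSet

/-- The quotient map. -/
noncomputable def Hyp.q : P₁ S m r →* H.P₂ := QuotientGroup.mk' _

/-- The map to the full group. -/
noncomputable def Hyp.phi₂ : H.P₂ →* S.fullGroup m :=
  QuotientGroup.lift _ (phi S m r) H.relSet_le

theorem Hyp.phi₂_q (x : P₁ S m r) : H.phi₂ (H.q x) = phi S m r x := rfl

theorem Hyp.q_rel {x : P₁ S m r} (h : x ∈ H.relSet) : H.q x = 1 :=
  (QuotientGroup.eq_one_iff x).2 (Subgroup.subset_normalClosure h)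

variable {H}

theorem Hyp.q_theta_bot (hA : A.1 ≠ A.2) (hV : Small r V) (h : value V F G = ⊥) :
    H.q (H.theta V hV F G A) = 1 := by
  classical
  obtain ⟨s, rfl⟩ := hV
  have hex : A.1 ≠ A.2 ∧ ∃ F G, value (cyl S r s) F G = ⊥ := ⟨hA, F, G, h⟩
  have h0 := H.q_rel (Or.inl (Or.inl ⟨(A, s), rfl⟩))
  rw [Hyp.rel1, dif_pos hex] at h0
  have eF := hex.2.choose_spec.choose_spec
  revert h0 eF
  generalize hex.2.choose_spec.choose = G₀
  generalize hex.2.choose = F₀
  intro h0 eF
  obtain ⟨F', G', K, hF', hG', e1, e2⟩ := H.span1 (F₀ ∆ F) (G₀ ∆ G) (by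
    have := value_symmDiff (cyl S r s) F₀ G₀ (cyl S r s) F G
    rw [eF, h, symmDiff_self, symmDiff_self, value] at this
    simpa using this)
  obtain ⟨s1, rfl⟩ := hF'
  obtain ⟨s2, rfl⟩ := hG'
  have hc : bdC stepX (cyl S r s1) ∆ bdC stepY (cyl S r s2) = ⊥ := by
    have e3 : bdC stepX (F₀ ∆ F) ∆ bdC stepY (G₀ ∆ G) = ⊥ := by
      have := value_symmDiff (cyl S r s) F₀ G₀ (cyl S r s) F G
      rw [eF, h, symmDiff_self, symmDiff_self, value] at this
      simpa using this
    rw [e1, e2, bdC_symmDiff, bdC_symmDiff, symmDiff_symmDiff_symmDiff_comm,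
      bdC_comm stepY stepX, symmDiff_self, symmDiff_bot] at e3
    exact e3
  have h2 := H.q_rel (Or.inl (Or.inr ⟨(A, s1, s2), rfl⟩))
  rw [Hyp.rel2, if_pos ⟨hA, hc⟩] at h2
  have key : H.theta (cyl S r s) (small_cyl s) F G A =
      H.theta (cyl S r s) (small_cyl s) F₀ G₀ A *
        (H.D stepX (cyl S r s1) A * H.D stepY (cyl S r s2) A) := by
    have e := H.theta_symmDiff (U := cyl S r s) (V := ⊥) (F := F₀) (F' := F₀ ∆ F) (G := G₀)
      (G' := G₀ ∆ G) hA (small_cyl s) small_bot
    simp only [symmDiff_symmDiff_cancel_left, symmDiff_bot] at e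
    have z : T0 (⊥ : Clopens (S.Conf 0)) small_bot A = (1 : P₁ S m r) := by
      show el S m r _ = 1
      rw [permAt_bot, el_one]
    rw [e]
    refine congrArg (H.theta (cyl S r s) (small_cyl s) F₀ G₀ A * ·) ?_
    rw [Hyp.theta, z, one_mul, e1, e2, H.D_symmDiff hA, H.D_symmDiff hA]
    have c : Commute (H.D stepX (bdC stepY K) A) (H.D stepY (cyl S r s2) A) := H.D_comm hA
    rw [c.mul_mul_mul_comm, H.D_boundary hA, mul_one]
  rw [key, map_mul, h0, h2, mul_one]

theorem Hyp.q_theta_eq (hA : A.1 ≠ A.2) (hU : Small r U) (hV : Small r V)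
    (h : value U F G = value V F' G') :
    H.q (H.theta U hU F G A) = H.q (H.theta V hV F' G' A) := by
  have hb := H.q_theta_bot (A := A) hA (hU.symmDiff hV) (F := F ∆ F') (G := G ∆ G')
    (by rw [value_symmDiff, h, symmDiff_self])
  rw [H.theta_symmDiff hA hU hV, map_mul] at hb
  rw [eq_inv_of_mul_eq_one_left hb, ← map_inv, inv_eq_of_mul_eq_one_right (H.theta_sq hA hV)]

/-- The lift of a transposition over a clopen set. -/
noncomputable def Hyp.t (H : Hyp S m r) (U : Clopens (S.Conf 0)) (A : Fin m × Fin m) : H.P₂ :=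
  H.q (H.thetaRep U A)

theorem Hyp.t_eq (hA : A.1 ≠ A.2) (hV : Small r V) (h : value V F G = U) :
    H.t U A = H.q (H.theta V hV F G A) :=
  H.q_theta_eq hA _ hV ((H.exists_rep U).choose_spec.trans h.symm)

theorem Hyp.t_small (hA : A.1 ≠ A.2) (hV : Small r V) : H.t V A = H.q (T0 V hV A) := by
  rw [H.t_eq hA hV (value_bot V), Hyp.theta, H.D_bot hA, H.D_bot hA, mul_one, mul_one]

theorem Hyp.t_sq (hA : A.1 ≠ A.2) (U : Clopens (S.Conf 0)) : H.t U A * H.t U A = 1 := by
  rw [Hyp.t, ← map_mul, Hyp.thetaRep, H.theta_sq hA, map_one]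

theorem Hyp.t_symmDiff (hA : A.1 ≠ A.2) (U V : Clopens (S.Conf 0)) :
    H.t (U ∆ V) A = H.t U A * H.t V A := by
  simp only [Hyp.t]
  rw [← map_mul, Hyp.thetaRep, Hyp.thetaRep, Hyp.thetaRep, ← H.theta_symmDiff hA]
  refine H.q_theta_eq hA _ _ ((H.exists_rep (U ∆ V)).choose_spec.trans ?_)
  rw [value_symmDiff]
  exact (congrArg₂ (· ∆ ·) (H.exists_rep U).choose_spec (H.exists_rep V).choose_spec).symm

theorem Hyp.t_mul (hAB : Sep A B) (U : Clopens (S.Conf 0)) :
    H.t U A * H.t U B = H.q (H.WU U A B) := by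
  rw [Hyp.t, Hyp.t, ← map_mul, Hyp.thetaRep, Hyp.thetaRep, H.theta_mul hAB]
  exact congrArg (fun W => H.q (H.WU W A B)) (H.exists_rep U).choose_spec

theorem Hyp.t_flip (hA : A.1 ≠ A.2) (U : Clopens (S.Conf 0)) :
    H.t U (A.2, A.1) = H.t U A := by
  rw [Hyp.t, Hyp.thetaRep, H.theta_flip hA]; rfl

theorem Hyp.phi₂_t (hA : A.1 ≠ A.2) (U : Clopens (S.Conf 0)) :
    H.phi₂ (H.t U A) = permAt S m U (swap A.1 A.2) := by
  rw [Hyp.t, H.phi₂_q, H.phi_thetaRep hA]

theorem Hyp.t_commute_q (hA : A.1 ≠ A.2) {x : P₁ S m r} {s : Finset (Fin m)}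
    (hd : Disjoint (ofPair A) s) (hs : s.card ≤ 9)
    (hx : ∀ U : Finset (Fin m), s ⊆ U → 9 ≤ U.card → x ∈ sub S r U) :
    Commute (H.t U A) (H.q x) :=
  (H.commute_of_sub hd ((card_ofPair A).trans (by norm_num)) hs
    (fun U hU h9 => H.theta_mem hA (H.rep _).1.2 hU h9) hx).map H.q

theorem Hyp.t_commute_sep (hA : A.1 ≠ A.2) (hB : B.1 ≠ B.2)
    (hd : Disjoint (ofPair A) (ofPair B)) (U V : Clopens (S.Conf 0)) :
    Commute (H.t U A) (H.t V B) :=
  H.t_commute_q hA hd ((card_ofPair B).trans (by norm_num))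
    fun U hU h9 => H.theta_mem hB (H.rep _).1.2 hU h9

theorem Hyp.t_eq_WU (hAB : Sep A B) (U : Clopens (S.Conf 0)) :
    H.t U A = H.q (H.WU U A B) * H.t U B := by
  rw [← H.t_mul hAB, mul_assoc, H.t_sq (sep_iff.1 hAB).2.2.2.2.2, mul_one]

theorem Hyp.t_tau (hA : A.1 ≠ A.2) (U : Clopens (S.Conf 0)) {v : Fin m → Cell}
    (hv : ∑ a, v a = 0) (h1 : v A.1 = 0) (h2 : v A.2 = 0) :
    Commute (H.t U A) (H.q (tau S m r v)) :=
  (commute_tau_of_mem H.hm (s := ofPair A) ((card_ofPair A).trans (by norm_num))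
    (fun U hU h9 => H.theta_mem hA (H.rep _).1.2 hU h9) hv
    (fun i hi => by rcases mem_ofPair.1 hi with rfl | rfl <;> assumption)).map H.q

/-- Covariance under shifts. -/
theorem Hyp.t_conj (hA : A.1 ≠ A.2) (x : Cell) :
    ∀ (U : Clopens (S.Conf 0)) (v : Fin m → Cell), ∑ a, v a = 0 → v A.1 = x → v A.2 = x →
      H.q (tau S m r v) * H.t U A * (H.q (tau S m r v))⁻¹ = H.t (tr x U) A := by
  classical
  let good : Cell → Prop := fun x => ∀ (U : Clopens (S.Conf 0)) (v : Fin m → Cell),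
    ∑ a, v a = 0 → v A.1 = x → v A.2 = x →
      H.q (tau S m r v) * H.t U A * (H.q (tau S m r v))⁻¹ = H.t (tr x U) A
  have h0 : good 0 := fun U v hv h1 h2 => by
    rw [tr_zero, ← (H.t_tau hA U hv h1 h2).eq]; group
  have hadd : ∀ a b, good a → good b → good (a + b) := by
    intro a b ha hb U v hv h1 h2
    obtain ⟨g0, g1, g2⟩ := H.pairVec_spec A b
    have e := ha (tr b U) (v - H.pairVec A b) (by simp [hv, g0]) (by simp [h1, g1])
      (by simp [h2, g2])
    rw [← hb U _ g0 g1 g2, tr_tr, add_comm b a] at e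
    rw [← e, tau_sub, map_mul, map_inv]
    group
  have hneg : ∀ a, good a → good (-a) := by
    intro a ha U v hv h1 h2
    have e := ha (tr (-a) U) (-v) (by simp [hv]) (by simp [h1]) (by simp [h2])
    rw [tr_tr, neg_add_cancel, tr_zero, tau_neg, map_inv] at e
    rw [← e]; group
  have hdir : ∀ j, good (dir j) := by
    intro j U v hv h1 h2
    obtain ⟨g0, g1, g2⟩ := H.pairVec_spec A (dir j)
    have hindep : ∀ W, H.q (tau S m r v) * H.t W A * (H.q (tau S m r v))⁻¹ =
        H.q (tau S m r (H.pairVec A (dir j))) * H.t W A *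
          (H.q (tau S m r (H.pairVec A (dir j))))⁻¹ := fun W => by
      have c := H.t_tau hA W (v := v - H.pairVec A (dir j)) (by simp [hv, g0]) (by simp [h1, g1])
        (by simp [h2, g2])
      conv_lhs => rw [show v = H.pairVec A (dir j) + (v - H.pairVec A (dir j)) by abel, tau_add,
        map_mul]
      calc _ = H.q (tau S m r (H.pairVec A (dir j))) *
            (H.q (tau S m r (v - H.pairVec A (dir j))) * H.t W A) *
            (H.q (tau S m r (v - H.pairVec A (dir j))))⁻¹ *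
            (H.q (tau S m r (H.pairVec A (dir j))))⁻¹ := by group
        _ = _ := by rw [← c.eq]; group
    obtain ⟨⟨⟨V, s, rfl⟩, F, G⟩, eU⟩ := H.exists_rep U
    simp only at eU
    rw [hindep]
    have h3 := H.q_rel (Or.inr ⟨(A, j, s), rfl⟩)
    rw [Hyp.rel3, if_pos hA, map_mul, map_mul, map_mul, map_inv,
      ← H.t_small hA (small_cyl s)] at h3
    have hT : H.q (tau S m r (H.pairVec A (dir j))) * H.t (cyl S r s) A *
        (H.q (tau S m r (H.pairVec A (dir j))))⁻¹ = H.t (tr (dir j) (cyl S r s)) A := by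
      rw [eq_inv_of_mul_eq_one_left h3]
      exact inv_eq_of_mul_eq_one_right (H.t_sq hA _)
    have dv : ∀ (u : Cell) (f : Clopens (S.Conf 0)),
        H.q (tau S m r (H.pairVec A (dir j))) * H.q (H.D u f A) *
          (H.q (tau S m r (H.pairVec A (dir j))))⁻¹ = H.q (H.D u (tr (dir j) f) A) := fun u f => by
      rw [← map_inv, ← map_mul, ← map_mul, H.D_conj hA g0 g1 g2]
    rw [H.t_eq hA (small_cyl s) eU, Hyp.theta, map_mul, map_mul, ← H.t_small hA (small_cyl s)]
    calc _ = (H.q (tau S m r (H.pairVec A (dir j))) * H.t (cyl S r s) A *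
          (H.q (tau S m r (H.pairVec A (dir j))))⁻¹) *
          (H.q (tau S m r (H.pairVec A (dir j))) * H.q (H.D stepX F A) *
          (H.q (tau S m r (H.pairVec A (dir j))))⁻¹) *
          (H.q (tau S m r (H.pairVec A (dir j))) * H.q (H.D stepY G A) *
          (H.q (tau S m r (H.pairVec A (dir j))))⁻¹) := by group
      _ = _ := by
        rw [hT, dv, dv]
        obtain ⟨⟨⟨V', hV'⟩, F', G'⟩, e'⟩ := H.exists_rep (tr (dir j) (cyl S r s))
        simp only at e'
        rw [H.t_eq hA hV' e', ← map_mul, ← map_mul,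
          H.t_eq hA (hV'.symmDiff small_bot) (F := F' ∆ tr (dir j) F) (G := G' ∆ tr (dir j) G) ?_]
        · rw [H.theta_symmDiff hA hV' small_bot]
          congr 1
          have z : T0 (⊥ : Clopens (S.Conf 0)) small_bot A = (1 : P₁ S m r) := by
            show el S m r _ = 1
            rw [permAt_bot, el_one]
          rw [mul_assoc]
          congr 1
          rw [Hyp.theta, z, one_mul]
        · rw [value_symmDiff, e', ← eU, value_tr]
          simp only [value, bot_symmDiff, symmDiff_assoc]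
  let K : AddSubgroup Cell :=
    { carrier := {x | good x}
      zero_mem' := h0
      add_mem' := fun {a b} ha hb => hadd a b ha hb
      neg_mem' := fun {a} ha => hneg a ha }
  have hx : x = x.1 • dir 1 + x.2 • dir 2 := by
    ext <;> simp [dir]
  show good x
  rw [hx]
  exact K.add_mem (K.zsmul_mem (hdir 1) _) (K.zsmul_mem (hdir 2) _)

end Vale.Agent.P196.Pres
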