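import Vale.Agent.P196.Fp.Clopens
import Vale.Agent.P196.Fp.Spin

/-!
# P196: no component has a sign

The sign is additive and invariant under translation, and it vanishes on small sets; the mod-two
coinvariants are spanned by small sets, so it vanishes.
-/

namespace Vale.Agent.P196.Pres

open Equiv Simple Sft Fp TopologicalSpace
open scoped symmDiff

/-- A function of a Boolean algebra multiplicative on disjoint elements, with commuting
involutions as values, is multiplicative for the symmetric difference. -/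
theorem map_symmDiff_mul {α H : Type*} [BooleanAlgebra α] [Group H] (θ : α → H)
    (hadd : ∀ a b, Disjoint a b → θ (a ⊔ b) = θ a * θ b) (hsq : ∀ a, θ a * θ a = 1)
    (hcomm : ∀ a b, Commute (θ a) (θ b)) (a b : α) : θ (a ∆ b) = θ a * θ b := by
  have ea : θ a = θ (a \ b) * θ (a ⊓ b) := by
    rw [← hadd _ _ (disjoint_sdiff_self_left.mono_right inf_le_right), sup_comm, sup_inf_sdiff]
  have eb : θ b = θ (b \ a) * θ (a ⊓ b) := by
    rw [inf_comm a b, ← hadd _ _ (disjoint_sdiff_self_left.mono_right inf_le_right), sup_comm,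
      sup_inf_sdiff]
  rw [symmDiff, hadd _ _ disjoint_sdiff_sdiff, ea, eb]
  calc θ (a \ b) * θ (b \ a) = θ (a \ b) * (θ (a ⊓ b) * θ (a ⊓ b)) * θ (b \ a) := by
        rw [hsq, mul_one]
    _ = θ (a \ b) * θ (a ⊓ b) * (θ (a ⊓ b) * θ (b \ a)) := by group
    _ = _ := by rw [(hcomm (a ⊓ b) (b \ a)).eq]

theorem z2_add (a b : ZMod 2) : a + b = 1 ↔ ¬ (a = 1 ↔ b = 1) := by revert a b; decide

theorem z2_add3 (a b c : ZMod 2) :
    a + b + c = 1 ↔ ¬ (¬ (a = 1 ↔ b = 1) ↔ c = 1) := by revert a b c; decide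

theorem z2_eq_zero (a b : ZMod 2) (h : a = 1 ↔ b = 1) : a + b = 0 := by revert a b; decide

variable {S : MacroSystem} {m r : ℕ}

attribute [local instance] MacroSystem.fin

/-- The boundary of a clopen set. -/
noncomputable def bdC (u : Cell) (F : Clopens (S.Conf 0)) : Clopens (S.Conf 0) := F ∆ tr u F

/-- The two directions of the boundaries. -/
def stepX : Cell := (-1, 0)

/-- See `stepX`. -/
def stepY : Cell := (0, -1)

open Classical in
/-- The indicator of a clopen set, extended to all colourings. -/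
noncomputable def ind (R : ℕ) (s : Set (Pat S R)) (t : Cell → S.C 0) : ZMod 2 :=
  if (fun i => t (boxCell R i)) ∈ s then 1 else 0

theorem radius_ind (R : ℕ) (s : Set (Pat S R)) : S.Radius R (ind R s) := by
  intro t t' h
  have : (fun i => t (boxCell R i)) = fun i => t' (boxCell R i) :=
    funext fun i => h _ (abs_boxCell i).1 (abs_boxCell i).2
  simp only [ind]
  rw [this]

/-- The clopen set of a function of bounded radius. -/
def supp1 (R : ℕ) (f : (Cell → S.C 0) → ZMod 2) : Clopens (S.Conf 0) :=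
  cyl S R (pat S R '' {t | f t.1 = 1})

theorem mem_supp1 {R : ℕ} {f : (Cell → S.C 0) → ZMod 2} (hf : S.Radius R f) {t : S.Conf 0} :
    t ∈ supp1 R f ↔ f t.1 = 1 := by
  refine ⟨?_, fun h => ⟨t, h, rfl⟩⟩
  rintro ⟨t', ht', e⟩
  rw [← show f t'.1 = 1 from ht']
  refine hf _ _ fun p h1 h2 => ?_
  obtain ⟨i, rfl⟩ := exists_boxCell h1 h2
  exact (congrFun e i).symm

theorem mem_bdC {u : Cell} {F : Clopens (S.Conf 0)} {t : S.Conf 0} :
    t ∈ bdC u F ↔ ¬ (t ∈ F ↔ -u +ᵥ t ∈ F) := by
  show (t ∈ F ∧ ¬ t ∈ tr u F) ∨ (t ∈ tr u F ∧ ¬ t ∈ F) ↔ _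
  rw [mem_tr]
  tauto

theorem mem_symmDiff' {U V : Clopens (S.Conf 0)} {t : S.Conf 0} :
    t ∈ U ∆ V ↔ ¬ (t ∈ U ↔ t ∈ V) := by
  show (t ∈ U ∧ ¬ t ∈ V) ∨ (t ∈ V ∧ ¬ t ∈ U) ↔ _
  tauto

theorem bd_eq {d : Cell} {K : ℕ} {f : (Cell → S.C 0) → ZMod 2} (hf : S.Radius K f)
    (t : S.Conf 0) : S.bd d f t.1 = 1 ↔ t ∈ bdC (-d) (supp1 K f) := by
  rw [mem_bdC, neg_neg, mem_supp1 hf, mem_supp1 hf]
  show f t.1 + f (shiftBy d t.1) = 1 ↔ ¬ (f t.1 = 1 ↔ f (shiftBy d t.1) = 1)
  exact z2_add _ _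

theorem small_supp1 {R : ℕ} (h : R ≤ r) (f : (Cell → S.C 0) → ZMod 2) (hf : S.Radius R f) :
    Small r (supp1 R f) := by
  refine ⟨pat S r '' {t | f t.1 = 1}, clopens_ext fun t => ?_⟩
  rw [mem_supp1 hf]
  refine ⟨?_, fun ht => ⟨t, ht, rfl⟩⟩
  rintro ⟨t', ht', e⟩
  rw [← show f t'.1 = 1 from ht']
  refine hf _ _ fun p h1 h2 => ?_
  obtain ⟨i, rfl⟩ := exists_boxCell (R := r) (h1.trans (by exact_mod_cast h))
    (h2.trans (by exact_mod_cast h))
  exact (congrFun e i).symm

/-- Span0 on clopen sets: small sets and boundaries give everything. -/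
def SpanSets0 (S : MacroSystem) (r : ℕ) : Prop :=
  ∀ U : Clopens (S.Conf 0), ∃ V F G, Small r V ∧ U = V ∆ bdC stepX F ∆ bdC stepY G

/-- Span1 on clopen sets: small cycles and boundaries give all cycles. -/
def SpanSets1 (S : MacroSystem) (r : ℕ) : Prop :=
  ∀ F G : Clopens (S.Conf 0), bdC stepX F ∆ bdC stepY G = ⊥ →
    ∃ F' G' H, Small r F' ∧ Small r G' ∧ F = F' ∆ bdC stepY H ∧ G = G' ∆ bdC stepX H

theorem exists_spanSets0 (h : S.Span0) : ∃ r₀, ∀ r, r₀ ≤ r → SpanSets0 S r := by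
  classical
  obtain ⟨r₀, h⟩ := h
  refine ⟨r₀, fun r hr U => ?_⟩
  obtain ⟨R, s, rfl⟩ := exists_cyl U
  obtain ⟨v, f, g, K, hv, hf, hg, e⟩ := h R (ind R s) (radius_ind R s)
  refine ⟨supp1 r₀ v, supp1 K f, supp1 K g, small_supp1 hr v hv, clopens_ext fun t => ?_⟩
  have hx := e t.1 t.2
  have hU : t ∈ cyl S R s ↔ ind R s t.1 = 1 := by
    show pat S R t ∈ s ↔ _
    rw [show pat S R t = fun i => t.1 (boxCell R i) from rfl]
    by_cases hm : (fun i => t.1 (boxCell R i)) ∈ s <;> simp [ind, hm]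
  rw [hU, hx, mem_symmDiff', mem_symmDiff', mem_supp1 hv,
    show stepX = -((1, 0) : Cell) from rfl, show stepY = -((0, 1) : Cell) from rfl,
    ← bd_eq hf, ← bd_eq hg]
  exact z2_add3 _ _ _

theorem exists_spanSets1 (h : S.Span1) : ∃ r₁, ∀ r, r₁ ≤ r → SpanSets1 S r := by
  classical
  obtain ⟨r₁, h⟩ := h
  refine ⟨r₁, fun r hr F G hFG => ?_⟩
  obtain ⟨R, s, rfl⟩ := exists_cyl F
  obtain ⟨R', s', rfl⟩ := exists_cyl G
  have hi : ∀ (R : ℕ) (s : Set (Pat S R)), supp1 R (ind R s) = cyl S R s := fun R s =>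
    clopens_ext fun t => by
      rw [mem_supp1 (radius_ind R s)]
      show _ ↔ pat S R t ∈ s
      rw [show pat S R t = fun i => t.1 (boxCell R i) from rfl]
      by_cases hm : (fun i => t.1 (boxCell R i)) ∈ s <;> simp [ind, hm]
  have hmax : ∀ {R : ℕ} (s : Set (Pat S R)) {M : ℕ}, R ≤ M → S.Radius M (ind R s) :=
    fun {R} s {M} hM t t' h => radius_ind R s t t' fun p h1 h2 =>
      h p (h1.trans (by exact_mod_cast hM)) (h2.trans (by exact_mod_cast hM))
  obtain ⟨f', g', hh, K, hf', hg', hH, e⟩ := h (max R R') (ind R s) (ind R' s')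
    (hmax s (le_max_left _ _)) (hmax s' (le_max_right _ _)) (by
      intro t ht
      have := congrArg (fun W : Clopens (S.Conf 0) => (⟨t, ht⟩ : S.Conf 0) ∈ W) hFG
      rw [show stepX = -((1, 0) : Cell) from rfl, show stepY = -((0, 1) : Cell) from rfl,
        ← hi R s, ← hi R' s', mem_symmDiff', ← bd_eq (radius_ind R s),
        ← bd_eq (radius_ind R' s')] at this
      have h' : ¬ ¬ (S.bd (1, 0) (ind R s) t = 1 ↔ S.bd (0, 1) (ind R' s') t = 1) :=
        fun hn => (this ▸ hn : (⟨t, ht⟩ : S.Conf 0) ∈ (⊥ : Clopens (S.Conf 0))).elim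
      exact z2_eq_zero _ _ (not_not.1 h'))
  refine ⟨supp1 r₁ f', supp1 r₁ g', supp1 K hh, small_supp1 hr f' hf', small_supp1 hr g' hg',
    clopens_ext fun t => ?_, clopens_ext fun t => ?_⟩
  · rw [← hi R s, mem_symmDiff', mem_supp1 (radius_ind R s), mem_supp1 hf',
      show stepY = -((0, 1) : Cell) from rfl, ← bd_eq hH, (e t.1 t.2).1]
    exact z2_add _ _
  · rw [← hi R' s', mem_symmDiff', mem_supp1 (radius_ind R' s'), mem_supp1 hg',
      show stepX = -((1, 0) : Cell) from rfl, ← bd_eq hH, (e t.1 t.2).2]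
    exact z2_add _ _

/-! ### Lifts of pairs of transpositions -/

variable [NeZero m] (hm : 18 ≤ m) (hr : 1 ≤ r) (hR : S.Rigid)

theorem comp_le {U V : Clopens (S.Conf 0)} (h : V ≤ U) :
    Le (comp (r := r) hm hr hR V) (comp hm hr hR U) := by
  have h1 := (comp_com hm hr hR V U).inf_le
  rw [← comp_inf, inf_eq_left.2 h] at h1
  exact h1.2

theorem comp_sup {U V : Clopens (S.Conf 0)} (h : Disjoint U V) :
    ∃ o : Orth (comp (r := r) hm hr hR U) (comp hm hr hR V),
      comp hm hr hR (U ⊔ V) = sum (comp hm hr hR U) (comp hm hr hR V) o := by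
  have hle := comp_le (r := r) hm hr hR (le_sup_right : V ≤ U ⊔ V)
  obtain ⟨k, o'⟩ := compl_witness hle (Le.refl (comp hm hr hR V))
    (by rw [diff_self]; exact orth_bot _)
  have e := inf_eq (diff_le hle) k o'
  rw [← comp_compl, ← comp_inf, show (U ⊔ V) ⊓ Vᶜ = U by
    rw [inf_sup_right, inf_compl_eq_bot, sup_bot_eq, inf_eq_left]
    exact h.le_compl_right] at e
  have o : Orth (comp (r := r) hm hr hR U) (comp hm hr hR V) := by
    rw [e]; exact (orth_diff hle).symm
  refine ⟨o, Comp.ext fun σ => ?_⟩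
  show _ = (comp hm hr hR U).fn σ * (comp hm hr hR V).fn σ
  rw [e]
  simp [diff]

theorem W_comp_sup {U V : Clopens (S.Conf 0)} (h : Disjoint U V) (a b c d : Fin m) :
    W (comp (r := r) hm hr hR (U ⊔ V)) a b c d =
      W (comp hm hr hR U) a b c d * W (comp hm hr hR V) a b c d := by
  obtain ⟨o, e⟩ := comp_sup (r := r) hm hr hR h
  rw [e, W_sum o]

theorem W_comp_bot (a b c d : Fin m) : W (comp (r := r) hm hr hR ⊥) a b c d = 1 := by
  rw [comp_bot]
  unfold W
  split_ifs <;> simp [Fp.bot]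

variable {hm} in
theorem W_commute_tau (e : Comp (ctx S m r hm)) {a b c d : Fin m} {v : Fin m → Cell}
    (hv : ∑ i, v i = 0) (h : ∀ i ∈ ({a, b, c, d} : Finset (Fin m)), v i = 0) :
    Commute (W e a b c d) (tau S m r v) := by
  unfold W
  split_ifs with hn
  · refine (commute_tau e _ hv ?_).mul_left (commute_tau e _ hv ?_) <;>
      · intro i hi
        rw [cyc_support] at hi
        exact h i (by simp at hi ⊢; tauto)
  · exact Commute.one_left _

variable {hm} in
theorem W_Tr (u : Cell) (e : Comp (ctx S m r hm)) {a b c d : Fin m} {v : Fin m → Cell}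
    (hv : ∑ i, v i = 0) (h : ∀ i ∈ ({a, b, c, d} : Finset (Fin m)), v i = u) :
    W (Tr hm u e) a b c d = tau S m r v * W e a b c d * (tau S m r v)⁻¹ := by
  unfold W
  split_ifs with hn
  · rw [Tr_fn e _ hv ?_, Tr_fn e _ hv ?_]
    · group
    all_goals
      intro i hi
      rw [cyc_support] at hi
      exact h i (by simp at hi ⊢; tauto)
  · group

omit [NeZero m] in
theorem exists_four (T : Finset (Fin m)) (h : T.card + 4 ≤ m) :
    ∃ a b c d : Fin m, [a, b, c, d].Nodup ∧ a ∉ T ∧ b ∉ T ∧ c ∉ T ∧ d ∉ T := by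
  obtain ⟨a, b, hab, ha, hb⟩ := exists_fresh_pair T (by omega)
  obtain ⟨c, d, hcd, hc, hd⟩ := exists_fresh_pair (insert a (insert b T)) (by
    have := Finset.card_insert_le a (insert b T)
    have := Finset.card_insert_le b T
    omega)
  simp only [Finset.mem_insert, not_or] at hc hd
  exact ⟨a, b, c, d, by simp; exact ⟨⟨hab, Ne.symm hc.1, Ne.symm hd.1⟩,
    ⟨Ne.symm hc.2.1, Ne.symm hd.2.1⟩, hcd⟩, ha, hb, hc.2.2, hd.2.2⟩

variable {hm} in
/-- A sign does not see its indices. -/
theorem sign_move (e : Comp (ctx S m r hm)) {a b c d : Fin m} (h : [a, b, c, d].Nodup)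
    (π : Perm (Fin m)) (g : P₁ S m r) (hg : g ∈ Fp.gen e) (hl : Lifts e g π) :
    sign e (π a) (π b) (π c) (π d) = sign e a b c d := by
  rw [← sign_equiv]
  exact fixed_of_central hl hg (sign_mem_gen e) fun x hx => sign_central e h hx

variable {hm} in
theorem sign_disjoint (e : Comp (ctx S m r hm)) {a b c d a' b' c' d' : Fin m}
    (h : [a, b, c, d].Nodup) (h' : [a', b', c', d'].Nodup)
    (hd : ∀ i ∈ [a, b, c, d], i ∉ [a', b', c', d']) :
    sign e a' b' c' d' = sign e a b c d := by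
  simp at h h' hd
  obtain ⟨⟨ab, ac, ad⟩, ⟨bc, bd⟩, cd⟩ := h
  obtain ⟨⟨ab', ac', ad'⟩, ⟨bc', bd'⟩, cd'⟩ := h'
  obtain ⟨⟨a1, a2, a3, a4⟩, ⟨b1, b2, b3, b4⟩, ⟨c1, c2, c3, c4⟩, d1, d2, d3, d4⟩ := hd
  have n1 : [a, a', b, b'].Nodup := by
    simp [a1, ab, a2, Ne.symm b1, ab', b2]
  have n2 : [c, c', d, d'].Nodup := by
    simp [c3, cd, c4, Ne.symm d3, cd', d4]
  have := sign_move e (a := a) (b := b) (c := c) (d := d)
    (by simp [ab, ac, ad, bc, bd, cd]) (swap a a' * swap b b' * (swap c c' * swap d d'))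
    (W e a a' b b' * W e c c' d d') (mul_mem (W_mem_gen e) (W_mem_gen e))
    ((W_lifts e n1).mul (W_lifts e n2))
  simp only [Perm.mul_apply] at this
  have e1 : swap a a' (swap b b' (swap c c' (swap d d' a))) = a' := by
    rw [swap_apply_of_ne_of_ne ad a4, swap_apply_of_ne_of_ne ac a3,
      swap_apply_of_ne_of_ne ab a2, swap_apply_left]
  have e2 : swap a a' (swap b b' (swap c c' (swap d d' b))) = b' := by
    rw [swap_apply_of_ne_of_ne bd b4, swap_apply_of_ne_of_ne bc b3, swap_apply_left,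
      swap_apply_of_ne_of_ne (Ne.symm a2) (Ne.symm ab')]
  have e3 : swap a a' (swap b b' (swap c c' (swap d d' c))) = c' := by
    rw [swap_apply_of_ne_of_ne cd c4, swap_apply_left,
      swap_apply_of_ne_of_ne (Ne.symm b3) (Ne.symm bc'),
      swap_apply_of_ne_of_ne (Ne.symm a3) (Ne.symm ac')]
  have e4 : swap a a' (swap b b' (swap c c' (swap d d' d))) = d' := by
    rw [swap_apply_left, swap_apply_of_ne_of_ne (Ne.symm c4) (Ne.symm cd'),
      swap_apply_of_ne_of_ne (Ne.symm b4) (Ne.symm bd'),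
      swap_apply_of_ne_of_ne (Ne.symm a4) (Ne.symm ad')]
  rwa [e1, e2, e3, e4] at this

omit [NeZero m] in
variable {hm} in
theorem sign_mem_K (e : Comp (ctx S m r hm)) {a b c d : Fin m} {U : Finset (Fin m)}
    (hU : {a, b, c, d} ⊆ U) (h9 : 9 ≤ U.card) : sign e a b c d ∈ sub S r U :=
  mul_mem (W_mem_K e hU h9) (W_mem_K e hU h9)

variable {hm} in
theorem sign_commute_tau (e : Comp (ctx S m r hm)) {a b c d : Fin m} (h : [a, b, c, d].Nodup)
    {v : Fin m → Cell} (hv : ∑ i, v i = 0) : Commute (sign e a b c d) (tau S m r v) := by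
  refine zeroSum_induction (p := fun v => Commute (sign e a b c d) (tau S m r v))
    (U := Finset.univ) (c := a) (Finset.mem_univ _) ?_ ?_ ?_ ?_ hv
    fun i hi => absurd (Finset.mem_univ i) hi
  · rw [tau_zero]; exact Commute.one_right _
  · intro v w h1 h2; rw [tau_add]; exact h1.mul_right h2
  · intro k v h; rw [tau_zsmul]; exact h.zpow_right k
  · intro x _ j
    rw [tau_pvec]
    obtain ⟨p, q, s, t, hn, hp, hq, hs, ht⟩ := exists_four ({a, b, c, d, x} : Finset (Fin m))
      (by have := Finset.card_le_five (a := a) (b := b) (c := c) (d := d) (e := x); omega)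
    simp only [Finset.mem_insert, Finset.mem_singleton, not_or] at hp hq hs ht
    rw [← sign_disjoint e h hn (by simp; tauto)]
    refine sub_commute (U := ({a, x} : Finset (Fin m))ᶜ) disjoint_compl_left
      (sign_mem_K e ?_ ?_)
      (el_mem_sub (ball_pvec a x j) (by omega) (supported_pvec (by simp) (by simp) _))
    · simp [Finset.insert_subset_iff, hp.1, hp.2.2.2.2, hq.1, hq.2.2.2.2, hs.1, hs.2.2.2.2, ht.1,
        ht.2.2.2.2]
    · have := Finset.card_le_two (a := a) (b := x)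
      rw [Finset.card_compl, Fintype.card_fin]; omega

/-- No component has a sign. -/
theorem noSign (hS : SpanSets0 S r) (U : Clopens (S.Conf 0)) :
    NoSign (comp (r := r) hm hr hR U) := by
  intro a b c d h
  let θ : Clopens (S.Conf 0) → P₁ S m r := fun U => sign (comp hm hr hR U) a b c d
  have hsq : ∀ U, θ U * θ U = 1 := fun U => sign_sq _ h
  have hcomm : ∀ U V, Commute (θ U) (θ V) := by
    intro U V
    obtain ⟨p, q, s, t, hn, hp, hq, hs, ht⟩ := exists_four ({a, b, c, d} : Finset (Fin m))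
      (by have := Finset.card_le_four (a := a) (b := b) (c := c) (d := d); omega)
    simp only [Finset.mem_insert, Finset.mem_singleton, not_or] at hp hq hs ht
    obtain ⟨E, h1, h2, h3⟩ := Finset.exists_subsuperset_card_eq
      (s := ({p, q, s, t} : Finset (Fin m))) (t := ({a, b, c, d} : Finset (Fin m))ᶜ) (n := 9)
      (by simp [Finset.insert_subset_iff]; tauto)
      ((Finset.card_le_four).trans (by norm_num))
      (by
        have := Finset.card_le_four (a := a) (b := b) (c := c) (d := d)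
        rw [Finset.card_compl, Fintype.card_fin]; omega)
    show Commute (sign _ a b c d) (sign _ a b c d)
    nth_rewrite 2 [← sign_disjoint _ h hn (by simp; tauto)]
    refine sub_commute (U := Eᶜ) disjoint_compl_left (sign_mem_K _ ?_ ?_) (sign_mem_K _ h1 h3.ge)
    · intro i hi
      exact Finset.mem_compl.2 fun hE => Finset.mem_compl.1 (h2 hE) hi
    · rw [Finset.card_compl, Fintype.card_fin, h3]; omega
  have hadd : ∀ U V, Disjoint U V → θ (U ⊔ V) = θ U * θ V := fun U V hUV => by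
    obtain ⟨o, e⟩ := comp_sup (r := r) hm hr hR hUV
    show sign _ a b c d = _
    rw [e, sign_sum o]
  have htr : ∀ x U, θ (tr x U) = θ U := fun x U => by
    obtain ⟨v, hv, hu⟩ := exists_shift ({a, b, c, d} : Finset (Fin m))
      (by have := Finset.card_le_four (a := a) (b := b) (c := c) (d := d); omega) x
    show sign _ a b c d = sign _ a b c d
    rw [← Tr_comp]
    calc sign (Tr hm x (comp hm hr hR U)) a b c d
        = tau S m r v * sign (comp hm hr hR U) a b c d * (tau S m r v)⁻¹ := by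
          rw [sign, sign, W_Tr x _ hv hu]; group
      _ = _ := by rw [← (sign_commute_tau _ h hv).eq]; group
  have hsmall : ∀ V, Small r V → θ V = 1 := fun V hV => by
    show sign _ a b c d = 1
    rw [comp_small hm hr hR hV]
    have h' := h
    simp at h'
    rw [sign, W_eq _ h (by tauto) (by tauto)]
    show baseHom V hV _ * baseHom V hV _ * (baseHom V hV _ * baseHom V hV _) = 1
    rw [← map_mul, ← map_mul, cyc_mul_cyc h]
    have hc : Commute (swap c d) (swap a b) := Perm.Disjoint.commute fun i => by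
      by_cases i = c <;> by_cases i = d <;> simp_all [swap_apply_of_ne_of_ne] <;> grind
    rw [show swap a b * swap c d * (swap a b * swap c d) = 1 by
      calc _ = swap a b * (swap c d * swap a b) * swap c d := by group
        _ = _ := by rw [hc.eq]; simp [mul_assoc], map_one]
  have hΔ := map_symmDiff_mul θ hadd hsq hcomm
  obtain ⟨V, F, G, hV, rfl⟩ := hS U
  show θ _ = 1
  rw [hΔ, hΔ, bdC, bdC, hΔ, hΔ, htr, htr, hsq, hsq, hsmall V hV, one_mul, one_mul]

end Vale.Agent.P196.Pres
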