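import Vale.Agent.P196.Fp.Spread

/-!
Splitting a component along a two-part partition.
-/

namespace Vale.Agent.P196.Fp

open Equiv Finset
open scoped commutatorElement

variable {n : ℕ} {G : Type*} [Group G] {C : Ctx G n}

/-- Two complementary orthogonal components. -/
structure Part (A B : Comp C) : Prop where
  orth : Orth A B
  total : ∀ σ, A.fn σ * B.fn σ = C.d σ.1

theorem Part.symm {A B : Comp C} (P : Part A B) : Part B A :=
  ⟨P.orth.symm, fun σ => by rw [← (P.orth σ σ).eq, P.total]⟩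

/-- The part of the group below `a` seen on a set of indices. -/
def below (a : Comp C) (U : Finset (Fin n)) : Subgroup G :=
  Subgroup.closure {x | ∃ h σ, Le h a ∧ σ.1.support ⊆ U ∧ x = h.fn σ}

theorem fn_mem_below {a h : Comp C} (hle : Le h a) {σ : Tri n} {U : Finset (Fin n)}
    (hs : σ.1.support ⊆ U) : h.fn σ ∈ below a U :=
  Subgroup.subset_closure ⟨h, σ, hle, hs, rfl⟩

theorem below_mono (a : Comp C) {U V : Finset (Fin n)} (h : U ⊆ V) : below a U ≤ below a V :=
  Subgroup.closure_mono fun _ ⟨e, σ, h1, h2, h3⟩ => ⟨e, σ, h1, h2.trans h, h3⟩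

theorem below_le_K (a : Comp C) {U : Finset (Fin n)} (hU : 9 ≤ U.card) : below a U ≤ C.K U :=
  (Subgroup.closure_le _).2 fun _ ⟨e, σ, _, h2, h3⟩ => h3 ▸ e.mem σ U h2 hU

theorem below_commute {A B : Comp C} (o : Orth A B) {U V : Finset (Fin n)} {x y : G}
    (hx : x ∈ below A U) (hy : y ∈ below B V) : Commute x y := by
  induction hx using Subgroup.closure_induction with
  | mem x hx =>
    obtain ⟨h, σ, hh, -, rfl⟩ := hx
    induction hy using Subgroup.closure_induction with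
    | mem y hy =>
      obtain ⟨k, τ, hk, -, rfl⟩ := hy
      exact ((o.down hh).symm.down hk).symm σ τ
    | one => exact Commute.one_right _
    | mul u v _ _ hu hv => exact hu.mul_right hv
    | inv u _ hu => exact hu.inv_right
  | one => exact Commute.one_left _
  | mul u v _ _ hu hv => exact hu.mul_left hv
  | inv u _ hu => exact hu.inv_left

theorem conj_mem_below (a : Comp C) (π : Perm (Fin n)) {x : G} (hx : x ∈ below a univ) :
    C.d π * x * (C.d π)⁻¹ ∈ below a univ := by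
  induction hx using Subgroup.closure_induction with
  | mem x hx =>
    obtain ⟨h, σ, hh, -, rfl⟩ := hx
    rw [h.equiv]
    exact fn_mem_below hh (subset_univ _)
  | one => simp
  | mul u v _ _ hu hv => rw [conj_mul.symm]; exact mul_mem hu hv
  | inv u _ hu => rw [show C.d π * u⁻¹ * (C.d π)⁻¹ = (C.d π * u * (C.d π)⁻¹)⁻¹ by group]
                  exact inv_mem hu

/-- `g` decomposes elementwise along `A` and `B`. -/
def Decomposes (g A B : Comp C) : Prop :=
  ∀ (ρ : Tri n) (U : Finset (Fin n)), ρ.1.support ⊆ U → 9 ≤ U.card →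
    ∃ x ∈ below A U, ∃ y ∈ below B U, g.fn ρ = x * y

/-- `x` and `y` form a decomposition of `u`. -/
def IsDec (A B : Comp C) (u x y : G) : Prop :=
  x ∈ below A univ ∧ y ∈ below B univ ∧ u = x * y

theorem Decomposes.symm {g A B : Comp C} (P : Part A B) (h : Decomposes g A B) :
    Decomposes g B A := fun ρ U hs hU => by
  obtain ⟨x, hx, y, hy, e⟩ := h ρ U hs hU
  exact ⟨y, hy, x, hx, by rw [e, (below_commute P.orth hx hy).eq]⟩

variable {g A B : Comp C} (P : Part A B)

include P in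
theorem IsDec.unique {u x y x' y' : G} (h : IsDec A B u x y) (h' : IsDec A B u x' y') :
    ∃ z ∈ below A univ, (∀ v ∈ below A univ, Commute z v) ∧ x' = x * z := by
  have e : x⁻¹ * x' = y * y'⁻¹ := by
    rw [eq_mul_inv_iff_mul_eq, mul_assoc, ← h'.2.2, h.2.2]; group
  refine ⟨x⁻¹ * x', mul_mem (inv_mem h.1) h'.1, fun v hv => ?_, by group⟩
  rw [e]
  exact (below_commute P.orth hv (mul_mem h.2.1 (inv_mem h'.2.1))).symm

include P in
theorem IsDec.comm_congr {u u' x y x₁ y₁ x' y' x₁' y₁' : G} (h : IsDec A B u x y)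
    (h₁ : IsDec A B u x₁ y₁) (h' : IsDec A B u' x' y') (h₁' : IsDec A B u' x₁' y₁') :
    ⁅x₁, x₁'⁆ = ⁅x, x'⁆ := by
  obtain ⟨z, hz, cz, rfl⟩ := h.unique P h₁
  obtain ⟨z', hz', cz', rfl⟩ := h'.unique P h₁'
  have a1 := (cz _ (mul_mem h'.1 hz')).eq
  have a2 := (cz' _ h.1).eq
  simp only [commutatorElement_def]
  calc x * z * (x' * z') * (x * z)⁻¹ * (x' * z')⁻¹
      = x * (z * (x' * z')) * z⁻¹ * x⁻¹ * (x' * z')⁻¹ := by group
    _ = x * x' * (z' * x⁻¹) * z'⁻¹ * x'⁻¹ := by rw [a1]; group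
    _ = x * x' * x⁻¹ * x'⁻¹ := by
        rw [(cz' _ (inv_mem h.1)).eq]; group

include P in
theorem IsDec.comm_dec {u u' x y x' y' : G} (h : IsDec A B u x y) (h' : IsDec A B u' x' y') :
    IsDec A B (⁅u, u'⁆ ^ 4) (⁅x, x'⁆ ^ 4) (⁅y, y'⁆ ^ 4) := by
  have m1 : ⁅x, x'⁆ ∈ below A univ := by
    rw [commutatorElement_def]
    exact mul_mem (mul_mem (mul_mem h.1 h'.1) (inv_mem h.1)) (inv_mem h'.1)
  have m2 : ⁅y, y'⁆ ∈ below B univ := by
    rw [commutatorElement_def]
    exact mul_mem (mul_mem (mul_mem h.2.1 h'.2.1) (inv_mem h.2.1)) (inv_mem h'.2.1)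
  refine ⟨pow_mem m1 4, pow_mem m2 4, ?_⟩
  rw [← (below_commute P.orth m1 m2).mul_pow, h.2.2, h'.2.2]
  congr 1
  have c1 := (below_commute P.orth h'.1 h.2.1).eq
  have c2 := (below_commute P.orth (inv_mem h.1) h'.2.1).eq
  have c3 := (below_commute P.orth (inv_mem h'.1) (mul_mem (mul_mem h.2.1 h'.2.1) (inv_mem h.2.1))).eq
  have c4 := (below_commute P.orth (inv_mem h.1) (inv_mem h.2.1)).eq
  simp only [commutatorElement_def, mul_inv_rev]
  calc x * y * (x' * y') * (y⁻¹ * x⁻¹) * (y'⁻¹ * x'⁻¹)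
      = x * (y * x') * y' * (y⁻¹ * x⁻¹) * (y'⁻¹ * x'⁻¹) := by group
    _ = x * x' * (y * y' * y⁻¹ * x⁻¹) * y'⁻¹ * x'⁻¹ := by rw [← c1]; group
    _ = x * x' * x⁻¹ * (y * y' * y⁻¹) * (y'⁻¹ * x'⁻¹) := by
        rw [← (below_commute P.orth (inv_mem h.1)
          (mul_mem (mul_mem h.2.1 h'.2.1) (inv_mem h.2.1))).eq]; group
    _ = x * x' * x⁻¹ * ((y * y' * y⁻¹ * y'⁻¹) * x'⁻¹) := by group
    _ = _ := by
        rw [← (below_commute P.orth (inv_mem h'.1)
          (mul_mem (mul_mem (mul_mem h.2.1 h'.2.1) (inv_mem h.2.1)) (inv_mem h'.2.1))).eq]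
        group

end Vale.Agent.P196.Fp
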