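import Vale.Agent.P196.Fp.Cycles

/-!
The commutator identity, commutation on disjoint indices, and the order on components.
-/

namespace Vale.Agent.P196.Fp

open Equiv Finset
open scoped commutatorElement

variable {n : ℕ}

/-- A configuration over a triple whose spare points avoid a small set. -/
theorem exists_five (x a c : Fin n) (h : x ≠ a ∧ a ≠ c ∧ x ≠ c) (T : Finset (Fin n))
    (hT : T.card + 5 ≤ n) :
    ∃ q : Five n, q.x = x ∧ q.a = a ∧ q.c = c ∧ q.b ∉ T ∧ q.y ∉ T := by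
  have hc : (T ∪ {x, a, c}).card ≤ T.card + 3 :=
    (card_union_le _ _).trans (Nat.add_le_add_left card_le_three _)
  obtain ⟨b, hb⟩ : ∃ b, b ∉ T ∪ {x, a, c} := by
    by_contra! hh
    have := card_le_card (s := univ) (t := T ∪ {x, a, c}) (fun i _ => hh i)
    simp only [card_univ, Fintype.card_fin] at this; omega
  obtain ⟨y, hy⟩ : ∃ y, y ∉ insert b (T ∪ {x, a, c}) := by
    by_contra! hh
    have h1 := card_le_card (s := univ) (t := insert b (T ∪ {x, a, c})) (fun i _ => hh i)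
    have h2 := card_insert_le b (T ∪ {x, a, c})
    simp only [card_univ, Fintype.card_fin] at h1; omega
  simp only [Finset.mem_insert, mem_union, Finset.mem_singleton, not_or] at hb hy
  refine ⟨⟨x, a, c, b, y, ?_⟩, rfl, rfl, rfl, hb.1, hy.2.1⟩
  simp only [List.nodup_cons, List.mem_cons, List.not_mem_nil, or_false, not_or]
  simp [List.nodup_nil]
  tauto

theorem Five.swapped_eq_map (q : Five n) :
    ∃ k₁ k₂ : Tri n, q.swapped = q.map (k₁.1 * k₂.1) := by
  obtain ⟨n1, n2, n3, n4, n5, n6, n7, n8, n9, n10⟩ := q.ne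
  refine ⟨cyc q.a q.c q.b ⟨n5, n8, n6⟩, cyc q.c q.b q.y ⟨n8, n10, n9⟩, ?_⟩
  simp only [Five.swapped, Five.map, Five.mk.injEq, Perm.mul_apply]
  rw [cyc_apply_of_ne q.c q.b q.y _ n2 n3 n4, cyc_apply_of_ne q.a q.c q.b _ n1 n2 n3,
    cyc_apply_of_ne q.c q.b q.y _ n5 n6 n7, cyc_apply_fst q.a q.c q.b,
    cyc_apply_fst q.c q.b q.y, cyc_apply_trd q.a q.c q.b,
    cyc_apply_snd q.c q.b q.y, cyc_apply_of_ne q.a q.c q.b _ n7.symm n9.symm n10.symm,
    cyc_apply_trd q.c q.b q.y, cyc_apply_snd q.a q.c q.b]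
  simp

variable {G : Type*} [Group G] {C : Ctx G n}

theorem conj_commutator (g u v : G) :
    g * ⁅u, v⁆ * g⁻¹ = ⁅g * u * g⁻¹, g * v * g⁻¹⁆ := by
  simp [commutatorElement_def, mul_assoc]

theorem conj_iter (e : Comp C) (σ τ κ : Tri n) :
    ⁅e.fn σ, e.fn τ⁆ * e.fn κ * ⁅e.fn σ, e.fn τ⁆⁻¹ = e.fn (act ⁅σ.1, τ.1⁆ κ) := by
  rw [commutatorElement_def, commutatorElement_def, ← e.inv σ, ← e.inv τ]
  calc _ = e.fn σ * (e.fn τ * (e.fn (triInv σ) * (e.fn (triInv τ) * e.fn κ *
        (e.fn (triInv τ))⁻¹) * (e.fn (triInv σ))⁻¹) * (e.fn τ)⁻¹) * (e.fn σ)⁻¹ := by group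
    _ = _ := by
      simp only [e.conj, act_act, triInv_val, mul_assoc]

/-- The commutator of two lifts is the lift of the commutator, up to a sign killed by fourth
powers. -/
theorem comm4 (e : Comp C) (q : Five n) :
    e.fn q.rho = ⁅e.fn q.fst, e.fn q.snd⁆ ^ 4 := by
  let z : Five n → G := fun p => ⁅e.fn p.fst, e.fn p.snd⁆ * (e.fn p.rho)⁻¹
  have hz : ∀ p κ, Commute (z p) (e.fn κ) := by
    intro p κ
    refine conj_eq ?_
    have h1 := conj_inv e p.rho κ
    have h2 := conj_iter e p.fst p.snd (act p.rho.1⁻¹ κ)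
    rw [p.commutator, act_act, mul_inv_cancel, show act 1 κ = κ by ext1; simp, ← h1] at h2
    simp only [z]
    calc _ = ⁅e.fn p.fst, e.fn p.snd⁆ * ((e.fn p.rho)⁻¹ * e.fn κ * e.fn p.rho) *
        ⁅e.fn p.fst, e.fn p.snd⁆⁻¹ := by simp [mul_assoc]
      _ = _ := h2
  have hmap : ∀ p (k : Tri n), z (p.map k.1) = z p := by
    intro p k
    have h : e.fn k * z p * (e.fn k)⁻¹ = z (p.map k.1) := by
      simp only [z, Five.map_fst, Five.map_snd, Five.map_rho, ← e.conj]
      rw [← conj_commutator]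
      group
    rw [← h, ← (hz p k).eq]; group
  obtain ⟨k₁, k₂, hk⟩ := q.swapped_eq_map
  have hs : z q.swapped = (z q)⁻¹ := by
    have hc := (hz q q.rho).eq
    simp only [z] at hc ⊢
    rw [q.swapped_fst, q.swapped_snd, q.swapped_rho, e.inv, inv_inv,
      ← commutatorElement_inv (e.fn q.fst)]
    have : ⁅e.fn q.fst, e.fn q.snd⁆ * (e.fn q.rho)⁻¹ * e.fn q.rho
        = e.fn q.rho * (⁅e.fn q.fst, e.fn q.snd⁆ * (e.fn q.rho)⁻¹) := hc
    rw [mul_inv_rev, inv_inv]
    calc (⁅e.fn q.fst, e.fn q.snd⁆)⁻¹ * e.fn q.rho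
        = (⁅e.fn q.fst, e.fn q.snd⁆ * (e.fn q.rho)⁻¹ * e.fn q.rho)⁻¹ * e.fn q.rho := by group
      _ = _ := by rw [this]; group
  have hsq : z q * z q = 1 := by
    have h2 : q.map (k₁.1 * k₂.1) = (q.map k₂.1).map k₁.1 := by
      simp [Five.map]
    rw [hk, h2, hmap, hmap] at hs
    nth_rewrite 1 [hs]
    group
  have hy : ⁅e.fn q.fst, e.fn q.snd⁆ = z q * e.fn q.rho := by simp [z]
  rw [hy, (hz q q.rho).mul_pow, show z q ^ 4 = 1 by
    rw [show (4 : ℕ) = 2 * 2 from rfl, pow_mul, pow_two (z q), hsq, one_pow], one_mul, pow_succ, e.cube,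
    one_mul]

theorem disjoint_commute (e f : Comp C) {σ τ : Tri n} (h : Disjoint σ.1.support τ.1.support) :
    Commute (e.fn σ) (f.fn τ) := by
  have hle := C.le
  have hτ : τ.1.support ⊆ σ.1.supportᶜ := fun i hi => mem_compl.2 fun hi' =>
    disjoint_left.1 h hi' hi
  obtain ⟨V, h1, h2, h3⟩ := exists_subsuperset_card_eq (n := 9) hτ
    (by rw [τ.2.card_support]; norm_num)
    (by rw [card_compl, σ.2.card_support, Fintype.card_fin]; omega)
  refine C.disj Vᶜ V disjoint_compl_left _ (e.mem σ _ ?_ ?_) _ (f.mem τ V h1 h3.ge)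
  · exact fun i hi => mem_compl.2 fun hv => mem_compl.1 (h2 hv) hi
  · rw [card_compl, h3, Fintype.card_fin]; omega

theorem Le.comm_eq {h p : Comp C} (hle : Le h p) (σ τ : Tri n) :
    ⁅p.fn σ, h.fn τ⁆ = ⁅h.fn σ, h.fn τ⁆ := by
  rw [commutatorElement_def, commutatorElement_def, hle, h.conj]

/-- Commutation spreads from disjoint indices to all indices along the order. -/
theorem spread {h p : Comp C} (hle : Le h p) (X : G) (hp : ∀ σ, Commute (p.fn σ) X)
    (T : Finset (Fin n)) (hT : T.card + 5 ≤ n)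
    (hd : ∀ ρ : Tri n, Disjoint ρ.1.support T → Commute (h.fn ρ) X) (ρ : Tri n) :
    Commute (h.fn ρ) X := by
  suffices ∀ k, ∀ ρ : Tri n, (ρ.1.support ∩ T).card ≤ k → Commute (h.fn ρ) X from this _ ρ le_rfl
  intro k
  induction k with
  | zero => exact fun ρ hρ => hd ρ (disjoint_iff_inter_eq_empty.2 (card_eq_zero.1 (by omega)))
  | succ k ih =>
    intro ρ hρ
    rcases (ρ.1.support ∩ T).eq_empty_or_nonempty with he | ⟨i, hi⟩
    · exact hd ρ (disjoint_iff_inter_eq_empty.2 he)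
    obtain ⟨hi1, hi2⟩ := mem_inter.1 hi
    obtain ⟨x, a, c, hxac, hρe, haT⟩ : ∃ x a c h, ρ = cyc x a c h ∧ a ∈ T := by
      obtain ⟨x, a, c, hxac, rfl⟩ := exists_cyc ρ
      rw [cyc_support] at hi1
      simp only [Finset.mem_insert, Finset.mem_singleton] at hi1
      rcases hi1 with rfl | rfl | rfl
      · exact ⟨_, _, _, _, (cyc_rotate _ _ _ _).trans (cyc_rotate _ _ _ _), hi2⟩
      · exact ⟨_, _, _, _, rfl, hi2⟩
      · exact ⟨_, _, _, _, cyc_rotate _ _ _ _, hi2⟩
    obtain ⟨q, rfl, rfl, rfl, hqb, hqy⟩ := exists_five x a c hxac T hT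
    have hq : q.rho = ρ := hρe.symm
    have hsub : q.snd.1.support ∩ T ⊆ (ρ.1.support ∩ T).erase q.a := by
      intro j hj
      rw [Five.snd, cyc_support] at hj
      simp only [mem_inter, Finset.mem_insert, Finset.mem_singleton] at hj
      rw [hρe, cyc_support]
      simp only [mem_erase, mem_inter, Finset.mem_insert, Finset.mem_singleton]
      obtain ⟨n1, -, -, -, n5, -⟩ := q.ne
      rcases hj with ⟨rfl | rfl | rfl, hjT⟩
      · exact ⟨n1, by simp, hjT⟩
      · exact ⟨n5.symm, by simp, hjT⟩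
      · exact absurd hjT hqy
    have hcard : (q.snd.1.support ∩ T).card ≤ k := by
      refine (card_le_card hsub).trans ?_
      rw [card_erase_of_mem (by rw [hρe, cyc_support]; simp [haT])]
      omega
    have c2 := ih _ hcard
    rw [← hq, comm4 h q, ← hle.comm_eq]
    exact (((hp _).mul_left c2).mul_left (hp _).inv_left |>.mul_left c2.inv_left).pow_left 4

/-- Orthogonality passes to smaller components. -/
theorem Orth.down {h p q : Comp C} (o : Orth p q) (hle : Le h p) : Orth h q := fun σ τ =>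
  spread hle (q.fn τ) (fun ρ => o ρ τ) τ.1.support
    (by rw [τ.2.card_support]; have := C.le; omega) (fun _ hρ => disjoint_commute h q hρ) σ

theorem Le.trans {h g e : Comp C} (h1 : Le h g) (h2 : Le g e) : Le h e := by
  intro κ ρ
  have o : Orth h (diff e g h2) := (orth_diff h2).down h1
  have ho : (diff e g h2).fn κ * h.fn ρ = h.fn ρ * (diff e g h2).fn κ := ((o ρ κ).symm).eq
  have hd : e.fn κ = g.fn κ * (diff e g h2).fn κ := by
    rw [((orth_diff h2) κ κ).eq]; simp [diff]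
  rw [hd, ← h1 κ ρ, mul_assoc (g.fn κ), ho]
  group

end Vale.Agent.P196.Fp
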